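import Vale.Agent.P216.H787.OmStep
import Vale.Agent.P216.B64.Contract

/-!
# The stable cohomology of the based loops: `OmegaOut`
-/

open Set Finsupp Topology BoundedContinuousFunction

namespace Vale.Agent.P216.Sl

open PS Sg AS
open Vale.Agent.P216.H250 (catR isMap_catR cat_apply' pull_catR_res)

section Gen

variable {k : Type} [Field k] {E : Type} [PseudoMetricSpace E]
variable {I : Type} [IsEmpty I] {a : I → E → E} {χ : I → k} {X Y : Set E} {n : ℕ}

theorem cls_congr {f g : List E → k} {hf : CocL X n f} {hg : CocL X n g} (h : ∀ l, f l = g l) :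
    cls a χ f hf = cls a χ g hg := by
  have : f = g := funext h
  subst this
  rfl

theorem cls_zero_of {f : List E → k} {hf : CocL X n f} (h : cls a χ f hf = 0) : ExL X n f :=
  cls_eq_zero.1 h

end Gen

section Deg0

variable {k : Type} [Field k] {M : Type} [MetricSpace M] [CompactSpace M]
variable {I : Type} [IsEmpty I] {α : I → (ℝ →ᵇ M) → (ℝ →ᵇ M)} {χ : I → k} {a b : M} {t s D : ℝ}

omit [CompactSpace M] in
/-- Degree `0`. -/
theorem span_deg0 (hD : IsPi M D) (ht : 0 ≤ t) (hs : t + D ≤ s) (hX : P a b t ⊆ P a b s) {d : ℕ}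
    (hd : d = 0) (z : Ha α χ (P a b s) d) {g : List (ℝ →ᵇ M) → k} (hg : CocL (P a b t) d g)
    (hg1 : ∀ x ∈ P a b t, g [x] = 1) : ∃ c : k, res hX d z = c • cls α χ g hg := by
  subst hd
  obtain ⟨f, hf, -, rfl⟩ := exists_cls z
  rw [res_cls]
  by_cases hne : (P a b t).Nonempty
  swap
  · refine ⟨0, ?_⟩
    rw [zero_smul, cls_eq_zero]
    exact exL_of_empty hne _ _
  obtain ⟨x₀, hx₀⟩ := hne
  refine ⟨f [x₀], ?_⟩
  rw [cls_smul, cls_eq_cls]
  refine ⟨fun _ => 0, fun _ _ => rfl, 1, one_pos, fun l hl hsm => ?_⟩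
  obtain ⟨x, rfl⟩ := List.length_eq_one_iff.1 hl
  have hx : x ∈ P a b t := hsm.1 x (by simp)
  rw [PS.dl_zero_fun]
  change f [x] - f [x₀] * g [x] = 0
  rw [hg1 x hx, mul_one, sub_eq_zero]
  obtain ⟨ε, hε, hf⟩ := hf
  obtain ⟨γ, hγ⟩ := hD.join a b t ht x₀ hx₀ x hx
  have hpre : IsPreconnected (range γ) := isPreconnected_range γ.continuous
  have key := hpre.induction₂ (fun v w : ℝ →ᵇ M => f [v] = f [w]) (fun v hv => ?_)
    (fun _ _ _ _ _ _ h h' => h.trans h') (fun _ _ _ _ h => h.symm)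
    (x := x) (y := x₀) ⟨1, γ.target⟩ ⟨0, γ.source⟩
  · exact key
  · have h1 : ∀ᶠ w in 𝓝[range γ] v, dist v w < ε := by
      have := Metric.ball_mem_nhds v hε
      filter_upwards [mem_nhdsWithin_of_mem_nhds this] with w hw
      rw [dist_comm]
      exact hw
    filter_upwards [h1, self_mem_nhdsWithin] with w hw hwS
    have hvs : v ∈ P a b s := by
      obtain ⟨θ, rfl⟩ := hv
      exact P_mono hs (hγ θ)
    have hws : w ∈ P a b s := by
      obtain ⟨θ, rfl⟩ := hwS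
      exact P_mono hs (hγ θ)
    have h2 := hf [v, w] rfl ⟨fun x hx => ?_, fun x hx y hy => ?_⟩
    · rw [dl_cons, dl_one, sub_eq_zero] at h2
      exact h2.symm
    · rcases List.mem_pair.1 hx with rfl | rfl
      · exact hvs
      · exact hws
    · rcases List.mem_pair.1 hx with rfl | rfl <;> rcases List.mem_pair.1 hy with rfl | rfl
      · rwa [dist_self]
      · exact hw
      · rw [dist_comm]; exact hw
      · rwa [dist_self]

end Deg0

namespace OmSys

variable {k : Type} [Field k] {M : Type} [MetricSpace M] [CompactSpace M] {N : ℕ}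
  {r Ca : ℝ} {x₀ : M} {tau : List (M × M) → k} (S : OmSys k M N r Ca x₀ tau) {D ρ r₀ εt t : ℝ}

variable {I : Type} [IsEmpty I] (α : I → (ℝ →ᵇ M) → (ℝ →ᵇ M)) (χ : I → k)

/-- The path from `x₀` to the end point. -/
noncomputable def v (hD : IsPi M D) (c : Bool) : ℝ →ᵇ M := (hD.ne x₀ (S.e c)).some

theorem v_mem (hD : IsPi M D) (c : Bool) : S.v hD c ∈ P x₀ (S.e c) D := (hD.ne x₀ (S.e c)).some_mem

/-- `om c j` transported to the based loops. -/
noncomputable def omf (hD : IsPi M D) (c : Bool) (j : ℕ) (t : ℝ) (l : List (ℝ →ᵇ M)) : k :=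
  S.om c j (l.map (catR (max t 0) (S.v hD c)))

theorem omf_coc (hD : IsPi M D) (c : Bool) (j : ℕ) (t : ℝ) :
    CocL (P x₀ x₀ t) (j * N) (S.omf hD c j t) :=
  ((S.coc c j (max t 0 + D)).map (umapR (I := Empty) (fun e => e.elim) x₀ (le_max_right t 0)
    hD.nonneg (S.v_mem hD c) le_rfl)).mono (P_mono (le_max_left t 0))

/-- The class of `om c j` on the based loops. -/
noncomputable def OmC (hD : IsPi M D) (c : Bool) (j : ℕ) (t : ℝ) :
    Ha α χ (P x₀ x₀ t) (j * N) := cls α χ (S.omf hD c j t) (S.omf_coc hD c j t)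

/-- For `t ≥ 0` it is the pull back of `om c j`. -/
theorem OmC_eq (hD : IsPi M D) (c : Bool) (j : ℕ) (ht : 0 ≤ t) {s : ℝ} (hs : t + D ≤ s) :
    S.OmC α χ hD c j t = pull χ (umapR α x₀ ht hD.nonneg (S.v_mem hD c) hs) (j * N)
      (cls α χ (S.om c j) (S.coc c j s)) := by
  rw [pull_cls]
  refine cls_congr fun l => ?_
  rw [omf, max_eq_left ht]

theorem res_OmC (hD : IsPi M D) (c : Bool) (j : ℕ) {s t : ℝ} (h : s ≤ t) :
    res (P_mono h) (j * N) (S.OmC α χ hD c j t) = S.OmC α χ hD c j s := by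
  have hst : max s 0 ≤ max t 0 := max_le_max h le_rfl
  have h1 := pull_catR_res (a := x₀) (α := α) (χ := χ) (n := j * N) (le_max_right s 0) hst
    hD.nonneg (S.v_mem hD c) (cls α χ (S.om c j) (S.coc c j (max t 0 + D)))
  rw [pull_cls, res_cls, res_cls, pull_cls] at h1
  have h2 := congrArg (res (P_mono (le_max_left s 0)) (j * N)) h1
  rw [res_cls, res_cls] at h2
  exact h2

/-- (Z1) -/
theorem ex_of_OmC (hD : IsPi M D) (c : Bool) (j : ℕ) (ht : 0 ≤ t)
    (h : S.OmC α χ hD c j (t + D) = 0) : ExL (P x₀ (S.e c) t) (j * N) (S.om c j) := by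
  have hD0 := hD.nonneg
  obtain ⟨vb, hvb⟩ := hD.ne (S.e c) x₀
  have htD : 0 ≤ t + D := by linarith
  have hF : IsMap α α (P x₀ (S.e c) t) (P x₀ x₀ (t + D)) (catR t vb) := umapR α x₀ ht hD0 hvb le_rfl
  have hG : IsMap α α (P x₀ x₀ (t + D)) (P x₀ (S.e c) (t + 4 * D)) (catR (t + D) (S.v hD c)) :=
    umapR α x₀ htD hD0 (S.v_mem hD c) (by linarith)
  rw [S.OmC_eq α χ hD c j htD (s := t + 4 * D) (by linarith)] at h
  have h1 := congrArg (pull χ hF (j * N)) h
  rw [map_zero, ← pull_comp hG hF] at h1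
  have hvb' : vb ∈ P (S.e c) x₀ (t + D - t) := by rwa [add_sub_cancel_left]
  have hℓ : cat (t + D - t) vb (S.v hD c) ∈ P (S.e c) (S.e c) (t + D - t + D) :=
    cat_mem (by linarith) hD0 hvb' (S.v_mem hD c)
  have h2 := pull_loop (χ := χ) (n := j * N) (u := t + D - t + D) ht (by linarith) hD hℓ
    (by linarith) (by linarith) (hG.comp hF) (fun w hw => by
      change cat (t + D) (cat t w vb) (S.v hD c) = _
      exact cat_assoc' ht (by linarith) hD0 hw hvb' (S.v_mem hD c))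
    (cls α χ (S.om c j) (S.coc c j (t + 4 * D)))
  rw [h2, res_cls, cls_eq_zero] at h1
  exact h1

/-- (Z2) -/
theorem OmC_of_ex (hD : IsPi M D) (c : Bool) (j : ℕ) (ht : 0 ≤ t)
    (h : ExL (P x₀ (S.e c) (t + D)) (j * N) (S.om c j)) : S.OmC α χ hD c j t = 0 := by
  rw [S.OmC_eq α χ hD c j ht le_rfl, cls_eq_zero.2 h, map_zero]

theorem OmC_zero_ne (hD : IsPi M D) (c : Bool) (t : ℝ) : S.OmC α χ hD c 0 t ≠ 0 := by
  intro h
  have h1 : ExL (P x₀ x₀ t) (0 * N) (S.omf hD c 0 t) := cls_eq_zero.1 h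
  rw [Nat.zero_mul] at h1
  have h2 := exL_zero h1 (cst_mem x₀ t)
  rw [omf, List.map_cons, List.map_nil, S.zero] at h2
  exact one_ne_zero h2

/-- The constant of `OmegaOut`. -/
def BB (r Ca D : ℝ) : ℝ :=
  (Ca + 2 + 2 * r + 1 + 5 * D) + (D + (Ca + 2) + 2 * r) + D

/-- The stable image in the degrees `(j + 1) N` is spanned by `om c (j + 1)`. -/
theorem span_succ (h : LS.UniqSeg M ρ) (hr : 0 < r) (hrρ : r < ρ) (hr0 : r₀ < r) (hεt : 0 < εt)
    (htau : IsTau (N + 1) r₀ εt tau) (hD : IsPi M D) (hCa : 0 ≤ Ca) (hN : 1 ≤ N) (c : Bool)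
    (j : ℕ) (ht : 0 ≤ t) (hX : P x₀ x₀ t ⊆ P x₀ x₀ (t + BB r Ca D))
    (z : Ha α χ (P x₀ x₀ (t + BB r Ca D)) ((j + 1) * N)) :
    ∃ a : k, res hX ((j + 1) * N) z = a • S.OmC α χ hD c (j + 1) t := by
  have hD0 := hD.nonneg
  have hBB : BB r Ca D = (Ca + 2 + 2 * r + 1 + 5 * D) + (D + (Ca + 2) + 2 * r) + D := rfl
  set t0 : ℝ := t + (D + (Ca + 2) + 2 * r) with ht0
  have ht0' : 0 ≤ t0 := by linarith
  have htt : t ≤ t0 + D := by linarith
  have hdlt : j * N < (j + 1) * N := Nat.mul_lt_mul_of_pos_right (Nat.lt_succ_self j) (by omega)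
  have hX1 : P x₀ x₀ (t0 + D) ⊆ P x₀ x₀ (t + BB r Ca D) := P_mono (by linarith)
  obtain ⟨⟨a, a', ha, h1⟩, -⟩ := S.step (α := α) (χ := χ) h hr hrρ hr0 hεt htau hD hCa hN c j
    hdlt le_rfl (t := t0 + D) (s := t + BB r Ca D) (by linarith) (by linarith) hX1 z
    (S.OmC α χ hD c (j + 1) (t + BB r Ca D))
  have h2 := (S.step (α := α) (χ := χ) h hr hrρ hr0 hεt htau hD hCa hN c j
    hdlt le_rfl (t := t) (s := t + BB r Ca D) ht (by linarith) hX z z).2
  rw [S.res_OmC α χ hD c (j + 1) (by linarith)] at h1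
  by_cases ha0 : a = 0
  · have ha' : a' ≠ 0 := by
      rcases ha with ha | ha
      · exact absurd ha0 ha
      · exact ha
    rw [ha0, zero_smul, zero_add] at h1
    have h3 := S.ex_of_OmC α χ hD c (j + 1) ht0' ((smul_eq_zero.1 h1).resolve_left ha')
    exact ⟨0, by rw [h2 (Or.inr h3), zero_smul]⟩
  · refine ⟨-(a⁻¹ * a'), ?_⟩
    have h3 : res hX1 ((j + 1) * N) z = (-(a⁻¹ * a')) • S.OmC α χ hD c (j + 1) (t0 + D) := by
      have h4 := congrArg (fun y => a⁻¹ • y) h1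
      simp only [smul_add, smul_smul, inv_mul_cancel₀ ha0, one_smul, smul_zero] at h4
      rw [neg_smul]
      exact eq_neg_of_add_eq_zero_left h4
    have h5 := congrArg (res (P_mono htt) ((j + 1) * N)) h3
    rw [res_res, map_smul, S.res_OmC α χ hD c (j + 1) htt] at h5
    exact h5

theorem compare (h : LS.UniqSeg M ρ) (hr : 0 < r) (hrρ : r < ρ) (hr0 : r₀ < r) (hεt : 0 < εt)
    (htau : IsTau (N + 1) r₀ εt tau) (hD : IsPi M D) (hCa : 0 ≤ Ca) (hN : 1 ≤ N) (c c' : Bool)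
    (j : ℕ) (ht : 0 ≤ t) (h0 : S.OmC α χ hD c (j + 1) t = 0) :
    S.OmC α χ hD c' (j + 1) t = 0 := by
  have hD0 := hD.nonneg
  have hBB : BB r Ca D = (Ca + 2 + 2 * r + 1 + 5 * D) + (D + (Ca + 2) + 2 * r) + D := rfl
  have hle : t ≤ t + BB r Ca D := by linarith
  obtain ⟨a, ha⟩ := S.span_succ α χ h hr hrρ hr0 hεt htau hD hCa hN c j ht (P_mono hle)
    (S.OmC α χ hD c' (j + 1) (t + BB r Ca D))
  rw [S.res_OmC α χ hD c' (j + 1) hle, h0, smul_zero] at ha
  exact ha

theorem up (h : LS.UniqSeg M ρ) (hr : 0 < r) (hrρ : r < ρ) (hr0 : r₀ < r) (hεt : 0 < εt)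
    (htau : IsTau (N + 1) r₀ εt tau) (hD : IsPi M D) (hCa : 0 ≤ Ca) (hN : 1 ≤ N)
    (j : ℕ) (ht : 0 ≤ t) (h0 : S.OmC α χ hD false j (t + BB r Ca D) = 0) :
    S.OmC α χ hD false (j + 1) t = 0 := by
  have hD0 := hD.nonneg
  have hBB : BB r Ca D = (Ca + 2 + 2 * r + 1 + 5 * D) + (D + (Ca + 2) + 2 * r) + D := rfl
  rcases j with _ | j
  · exact absurd h0 (S.OmC_zero_ne α χ hD false _)
  · have h1 := S.compare α χ h hr hrρ hr0 hεt htau hD hCa hN false true j (by linarith) h0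
    have e : t + BB r Ca D = (t + BB r Ca D - D) + D := by ring
    rw [e] at h1
    have h2 := S.ex_of_OmC α χ hD true (j + 1) (t := t + BB r Ca D - D) (by linarith) h1
    have h3 := S.i false (j + 1) (t + D) (by linarith) (h2.mono (P_mono (by linarith)))
    exact S.OmC_of_ex α χ hD false (j + 1 + 1) ht h3

theorem down (h : LS.UniqSeg M ρ) (hr : 0 < r) (hrρ : r < ρ) (hr0 : r₀ < r) (hεt : 0 < εt)
    (htau : IsTau (N + 1) r₀ εt tau) (hD : IsPi M D) (hCa : 0 ≤ Ca) (hN : 1 ≤ N)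
    (j : ℕ) (ht : 0 ≤ t) (h0 : S.OmC α χ hD false (j + 1) (t + BB r Ca D) = 0) :
    S.OmC α χ hD false j t = 0 := by
  have hD0 := hD.nonneg
  have hBB : BB r Ca D = (Ca + 2 + 2 * r + 1 + 5 * D) + (D + (Ca + 2) + 2 * r) + D := rfl
  have e : t + BB r Ca D = (t + BB r Ca D - D) + D := by ring
  rw [e] at h0
  have h2 := S.ex_of_OmC α χ hD false (j + 1) (t := t + BB r Ca D - D) (by linarith) h0
  have h3 : ExL (P x₀ (S.e true) (t + D)) (j * N) (S.om true j) := by
    by_contra hcon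
    exact S.ii false j (t + D) (by linarith) hcon (h2.mono (P_mono (by linarith)))
  have h4 := S.OmC_of_ex α χ hD true j ht h3
  rcases j with _ | j
  · exact absurd h4 (S.OmC_zero_ne α χ hD true _)
  · exact S.compare α χ h hr hrρ hr0 hεt htau hD hCa hN true false j ht h4

/-- **OMEGA**: the stable cohomology of the based loops. -/
noncomputable def omegaOut (h : LS.UniqSeg M ρ) (hr : 0 < r) (hrρ : r < ρ) (hr0 : r₀ < r)
    (hεt : 0 < εt) (htau : IsTau (N + 1) r₀ εt tau) (hD : IsPi M D) (hCa : 0 ≤ Ca)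
    (hN : 1 ≤ N) : B64.OmegaOut M N x₀ (BB r Ca D) k where
  om j t := S.OmC (B64.a0 _) (B64.c0 k) hD false j t
  res_om j s t hst := S.res_OmC _ _ hD false j hst
  span j t ht hX z := by
    have hD0 := hD.nonneg
    have hBB : BB r Ca D = (Ca + 2 + 2 * r + 1 + 5 * D) + (D + (Ca + 2) + 2 * r) + D := rfl
    rcases j with _ | j
    · refine span_deg0 hD ht (by linarith) hX (Nat.zero_mul N) z
        (S.omf_coc hD false 0 t) fun x _ => ?_
      rw [omf, List.map_cons, List.map_nil, S.zero]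
    · exact S.span_succ _ _ h hr hrρ hr0 hεt htau hD hCa hN false j ht hX z
  zero d hd t ht hX z := by
    have hD0 := hD.nonneg
    have hBB : BB r Ca D = (Ca + 2 + 2 * r + 1 + 5 * D) + (D + (Ca + 2) + 2 * r) + D := rfl
    have h1 : d / N * N < d := by
      refine lt_of_le_of_ne (Nat.div_mul_le_self d N) fun he => hd ?_
      exact ⟨d / N, by rw [mul_comm]; exact he.symm⟩
    have h2 : d < (d / N + 1) * N := by
      have := Nat.lt_div_mul_add (a := d) (b := N) (by omega)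
      rw [Nat.add_mul, Nat.one_mul]
      exact this
    exact (S.step h hr hrρ hr0 hεt htau hD hCa hN false (d / N) h1 h2.le ht (by linarith) hX z z).2
      (Or.inl h2)
  om_ne t _ := S.OmC_zero_ne _ _ hD false t
  up j t ht h0 := S.up _ _ h hr hrρ hr0 hεt htau hD hCa hN j ht h0
  down j t ht h0 := S.down _ _ h hr hrρ hr0 hεt htau hD hCa hN j ht h0

end OmSys

end Vale.Agent.P216.Sl
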