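import Vale.Agent.P216.H787.Edges

/-!
# The crossing-swap identity at cochain level

`W = (P × T) × (U × Q)`; `P` : paths `α` (the cycle `z` of dimension `m` lives there), `T` : the
times of `α`, `Q` : paths `y`, `U` : the times of `y`. `c : W → MM` is the pair of points,
`w : W → O` the path on which `om` is evaluated, `v : W → H` the path on which `eta` is evaluated.
The degrees are: `tau` : `n`, `om` : `b`, `eta` : `d`, `z` : `m` with `m + 1 = n + b`.
-/

open Finsupp

namespace Vale.Agent.P216.Sl

variable {k : Type} [Field k]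

theorem Ln_ne {α : Type} {n : ℕ} {c : Ch k α} (hc : c ∈ Sp k (Ln (n + 1))) : c ∈ Sp k Ne :=
  Sp_mono (fun l (hl : l.length = n + 1) => by
    intro h
    rw [h] at hl
    simp at hl) hc

theorem sh_Ln {α β : Type} {p q : ℕ} {c : Ch k α} {c' : Ch k β} (hc : c ∈ Sp k (Ln (p + 1)))
    (hc' : c' ∈ Sp k (Ln (q + 1))) : sh c c' ∈ Sp k (Ln (p + q + 1)) :=
  sh_mem (fun s t l hs ht hl => by
    have h1 : s.length = p + 1 := hs
    have h2 : t.length = q + 1 := ht
    have h3 := hl.1
    change l.length = p + q + 1
    omega) hc hc'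

theorem single_Ln {α : Type} {n : ℕ} {l : List α} (h : l.length = n) (r : k) :
    single l r ∈ Sp k (Ln n) := single_mem h r

section

variable {P T U Q MM O H : Type}
variable (n b : ℕ) (tau : List MM → k) (om : List O → k) (eta : List H → k)
variable (c : (P × T) × (U × Q) → MM) (w : (P × T) × (U × Q) → O) (v : (P × T) × (U × Q) → H)

/-- The product cochain. -/
def psi (l : List ((P × T) × (U × Q))) : k :=
  tau ((l.take (n + 1)).map c) *
    (om (((l.drop n).take (b + 1)).map w) * eta ((l.drop (n + b)).map v))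

variable {n b tau om eta c w v}

theorem drop_one {α : Type} {l : List α} {j : ℕ} (h : l.length = j + 1) (x0 : α) :
    l.drop j = [l.getLastD x0] := by
  rcases List.eq_nil_or_concat l with rfl | ⟨l', x, rfl⟩
  · simp at h
  · rw [List.concat_eq_append] at h ⊢
    rw [List.length_append] at h
    simp only [List.length_cons, List.length_nil] at h
    have hj : l'.length = j := by omega
    rw [← hj, List.drop_left, List.getLastD_concat]

/-- Edge `σ = u1`, one list. -/
theorem edge_s1_list {m d : ℕ} (hm : m + 1 = n + b) (htau : Nrm tau) (hom : Nrm om)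
    {u1 : U} {c1 : P × T → MM} {w1 : P × T → O} (hc1 : ∀ x q, c (x, (u1, q)) = c1 x)
    (hw1 : ∀ x q, w (x, (u1, q)) = w1 x) (x0 : P × T) {ξ : List (P × T)} {y : List Q}
    (hξ : ξ.length = m + 2) (hy : y.length = d + 1) :
    ev (fun l => psi n b tau om eta c w v (l.map (Prod.map id fun q => (u1, q)))) (Sh ξ y) =
      tau ((ξ.take (n + 1)).map c1) * om ((ξ.drop n).map w1) *
        eta (y.map fun q => v (ξ.getLastD x0, (u1, q))) := by
  set J : (P × T) × Q → (P × T) × (U × Q) := Prod.map id fun q => (u1, q) with hJ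
  have hξne : ξ ≠ [] := by rintro rfl; simp at hξ
  have hyne : y ≠ [] := by rintro rfl; simp at hy
  obtain ⟨G2, hG2⟩ : ∃ G2 : List ((P × T) × Q) → k, ∀ l, G2 l = eta (l.map fun x => v (J x)) :=
    ⟨_, fun _ => rfl⟩
  obtain ⟨G, hG⟩ : ∃ G : List ((P × T) × Q) → k, G = fun l' =>
      om (((l'.take (b + 1)).map Prod.fst).map w1) * G2 (l'.drop b) := ⟨_, rfl⟩
  have e1 : (fun l : List ((P × T) × Q) => psi n b tau om eta c w v (l.map J)) =
      fun l => tau (((l.take (n + 1)).map Prod.fst).map c1) * G (l.drop n) := by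
    funext l
    have h1 : ((l.map J).take (n + 1)).map c = ((l.take (n + 1)).map Prod.fst).map c1 := by
      rw [← List.map_take, List.map_map, List.map_map]
      exact List.map_congr_left fun x _ => hc1 _ _
    have h2 : (((l.map J).drop n).take (b + 1)).map w =
        ((((l.drop n).take (b + 1))).map Prod.fst).map w1 := by
      rw [← List.map_drop, ← List.map_take, List.map_map, List.map_map]
      exact List.map_congr_left fun x _ => hw1 _ _
    have h3 : ((l.map J).drop (n + b)).map v = ((l.drop n).drop b).map fun x => v (J x) := by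
      rw [← List.map_drop, List.map_map, List.drop_drop]
      rfl
    simp only [psi, h1, h2, h3, hG, hG2]
  rw [e1, front_left (htau.map c1) G n ξ y (by omega) hξne hyne, if_pos (by omega)]
  have hl : (ξ.drop n).length = b + 1 := by rw [List.length_drop]; omega
  have hne : ξ.drop n ≠ [] := by
    intro h
    rw [h] at hl
    simp at hl
  have htake : (ξ.drop n).take (b + 1) = ξ.drop n := List.take_of_length_le hl.le
  have hlast : ξ.drop (n + b) = [ξ.getLastD x0] := drop_one (by omega) x0
  rw [hG, front_left (hom.map w1) G2 b (ξ.drop n) y (by omega) hne hyne, if_pos (by omega),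
    htake, List.drop_drop, hlast,
    Sh_point_left _ hyne, ev_single, one_mul, hG2, List.map_map, mul_assoc]
  rfl

/-- Edge `σ = u0`, one list. -/
theorem edge_s0_list {m d : ℕ} (hm : m + 1 = n + b) (hd : b < d) (htau : Nrm tau)
    (heta : Nrm eta)
    {u0 : U} {c0 : P × T → MM} {v0 : P × T → H} (hc0 : ∀ x q, c (x, (u0, q)) = c0 x)
    (hv0 : ∀ x q, v (x, (u0, q)) = v0 x) {ξ : List (P × T)} {y : List Q}
    (hξ : ξ.length = m + 2) (hy : y.length = d + 1) :
    ev (fun l => psi n b tau om eta c w v (l.map (Prod.map id fun q => (u0, q)))) (Sh ξ y) = 0 := by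
  set J : (P × T) × Q → (P × T) × (U × Q) := Prod.map id fun q => (u0, q) with hJ
  have hξne : ξ ≠ [] := by rintro rfl; simp at hξ
  have hyne : y ≠ [] := by rintro rfl; simp at hy
  obtain ⟨G, hG⟩ : ∃ G : List ((P × T) × Q) → k, G = fun l' =>
      om ((l'.take (b + 1)).map fun x => w (J x)) *
        eta (((l'.drop b).map Prod.fst).map v0) := ⟨_, rfl⟩
  have e1 : (fun l : List ((P × T) × Q) => psi n b tau om eta c w v (l.map J)) =
      fun l => tau (((l.take (n + 1)).map Prod.fst).map c0) * G (l.drop n) := by
    funext l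
    have h1 : ((l.map J).take (n + 1)).map c = ((l.take (n + 1)).map Prod.fst).map c0 := by
      rw [← List.map_take, List.map_map, List.map_map]
      exact List.map_congr_left fun x _ => hc0 _ _
    have h2 : (((l.map J).drop n).take (b + 1)).map w =
        ((l.drop n).take (b + 1)).map fun x => w (J x) := by
      rw [← List.map_drop, ← List.map_take, List.map_map]
      rfl
    have h3 : ((l.map J).drop (n + b)).map v = (((l.drop n).drop b).map Prod.fst).map v0 := by
      rw [← List.map_drop, List.map_map, List.drop_drop, List.map_map]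
      exact List.map_congr_left fun x _ => hv0 _ _
    simp only [psi, h1, h2, h3, hG]
  rw [e1, front_left (htau.map c0) G n ξ y (by omega) hξne hyne, if_pos (by omega)]
  have hl : (ξ.drop n).length = b + 1 := by rw [List.length_drop]; omega
  have key : ev G (Sh (ξ.drop n) y) = 0 := ?_
  · rw [key, mul_zero]
  rw [hG]
  refine ev_zero_of (P := fun l => Gr (ξ.drop n) y l ∧
    ∀ j, ((l.drop j).map Prod.fst).IsChain (· ≠ ·) → l.length ≤ (ξ.drop n).length + j)
    (fun l hl' => ?_) ?_
  · by_cases hch : ((l.drop b).map Prod.fst).IsChain (· ≠ ·)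
    · exfalso
      have h1 := hl'.2 b hch
      have h2 := hl'.1.1
      omega
    · have : eta (((l.drop b).map Prod.fst).map v0) = 0 := (heta.map v0) _ hch
      rw [this, mul_zero]
  · have h1 := Sh_mem (k := k) _ (ξ.drop n) y rfl
    have h2 := Sh_chain_fst (k := k) _ (ξ.drop n) y rfl
    rw [Finsupp.mem_supported] at h1 h2 ⊢
    exact fun l hl => ⟨h1 hl, h2 hl⟩

/-- Edge `τ = t1`, one pair of lists. -/
theorem edge_r1_list {m d : ℕ} (hm : m + 1 = n + b) (hn : 2 ≤ n) (htau : Nrm tau)
    (heta : Nrm eta)
    {t1 : T} {c0 : U × Q → MM} {v0 : U × Q → H} (hc0 : ∀ p x, c ((p, t1), x) = c0 x)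
    (hv0 : ∀ p x, v ((p, t1), x) = v0 x) {s : List P} {β : List (U × Q)}
    (hs : s.length = m + 1) (hβ : β.length = d + 2) :
    ev (fun l => psi n b tau om eta c w v (l.map (Prod.map (fun p => (p, t1)) id))) (Sh s β) =
      0 := by
  set J : P × (U × Q) → (P × T) × (U × Q) := Prod.map (fun p => (p, t1)) id with hJ
  have hsne : s ≠ [] := by rintro rfl; simp at hs
  have hβne : β ≠ [] := by rintro rfl; simp at hβ
  obtain ⟨G, hG⟩ : ∃ G : List (P × (U × Q)) → k, G = fun l' =>
      om ((l'.take (b + 1)).map fun x => w (J x)) *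
        eta (((l'.drop b).map Prod.snd).map v0) := ⟨_, rfl⟩
  have e1 : (fun l : List (P × (U × Q)) => psi n b tau om eta c w v (l.map J)) =
      fun l => tau (((l.take (n + 1)).map Prod.snd).map c0) * G (l.drop n) := by
    funext l
    have h1 : ((l.map J).take (n + 1)).map c = ((l.take (n + 1)).map Prod.snd).map c0 := by
      rw [← List.map_take, List.map_map, List.map_map]
      exact List.map_congr_left fun x _ => hc0 _ _
    have h2 : (((l.map J).drop n).take (b + 1)).map w =
        ((l.drop n).take (b + 1)).map fun x => w (J x) := by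
      rw [← List.map_drop, ← List.map_take, List.map_map]
      rfl
    have h3 : ((l.map J).drop (n + b)).map v = (((l.drop n).drop b).map Prod.snd).map v0 := by
      rw [← List.map_drop, List.map_map, List.drop_drop, List.map_map]
      exact List.map_congr_left fun x _ => hv0 _ _
    simp only [psi, h1, h2, h3, hG]
  rw [e1, front_right (htau.map c0) G n s β (by omega) hsne hβne]
  split_ifs with hle
  · have hl : (β.drop n).length + n = d + 2 := by rw [List.length_drop]; omega
    have key : ev G (Sh s (β.drop n)) = (0 : k) := by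
      rw [hG]
      refine ev_zero_of (P := fun l => Gr s (β.drop n) l ∧
        ∀ j, ((l.drop j).map Prod.snd).IsChain (· ≠ ·) → l.length ≤ (β.drop n).length + j)
        (fun l hl' => ?_) ?_
      · by_cases hch : ((l.drop b).map Prod.snd).IsChain (· ≠ ·)
        · exfalso
          have h1 := hl'.2 b hch
          have h2 := hl'.1.1
          omega
        · have : eta (((l.drop b).map Prod.snd).map v0) = 0 := (heta.map v0) _ hch
          rw [this, mul_zero]
      · have h1 := Sh_mem (k := k) _ s (β.drop n) rfl
        have h2 := Sh_chain_snd (k := k) _ s (β.drop n) rfl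
        rw [Finsupp.mem_supported] at h1 h2 ⊢
        exact fun l hl => ⟨h1 hl, h2 hl⟩
    rw [key, mul_zero, mul_zero]
  · rfl

/-- Edge `τ = t0`, one pair of lists. -/
theorem edge_r0_list {m d : ℕ} (hm : m + 1 = n + b) (hdm : d ≤ m) (htau : Nrm tau)
    (hom : Nrm om)
    {t0 : T} {c0 : U × Q → MM} {w0 : U × Q → O} (hc0 : ∀ p x, c ((p, t0), x) = c0 x)
    (hw0 : ∀ p x, w ((p, t0), x) = w0 x) (x0 : U × Q) {s : List P} {β : List (U × Q)}
    (hs : s.length = m + 1) (hβ : β.length = d + 2) :
    ev (fun l => psi n b tau om eta c w v (l.map (Prod.map (fun p => (p, t0)) id))) (Sh s β) =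
      if d = m then tau ((β.take (n + 1)).map c0) * om ((β.drop n).map w0) *
        eta (s.map fun p => v ((p, t0), β.getLastD x0)) else 0 := by
  set J : P × (U × Q) → (P × T) × (U × Q) := Prod.map (fun p => (p, t0)) id with hJ
  have hsne : s ≠ [] := by rintro rfl; simp at hs
  have hβne : β ≠ [] := by rintro rfl; simp at hβ
  obtain ⟨G2, hG2⟩ : ∃ G2 : List (P × (U × Q)) → k, ∀ l, G2 l = eta (l.map fun x => v (J x)) :=
    ⟨_, fun _ => rfl⟩
  obtain ⟨G, hG⟩ : ∃ G : List (P × (U × Q)) → k, G = fun l' =>
      om (((l'.take (b + 1)).map Prod.snd).map w0) * G2 (l'.drop b) := ⟨_, rfl⟩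
  have e1 : (fun l : List (P × (U × Q)) => psi n b tau om eta c w v (l.map J)) =
      fun l => tau (((l.take (n + 1)).map Prod.snd).map c0) * G (l.drop n) := by
    funext l
    have h1 : ((l.map J).take (n + 1)).map c = ((l.take (n + 1)).map Prod.snd).map c0 := by
      rw [← List.map_take, List.map_map, List.map_map]
      exact List.map_congr_left fun x _ => hc0 _ _
    have h2 : (((l.map J).drop n).take (b + 1)).map w =
        ((((l.drop n).take (b + 1))).map Prod.snd).map w0 := by
      rw [← List.map_drop, ← List.map_take, List.map_map, List.map_map]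
      exact List.map_congr_left fun x _ => hw0 _ _
    have h3 : ((l.map J).drop (n + b)).map v = ((l.drop n).drop b).map fun x => v (J x) := by
      rw [← List.map_drop, List.map_map, List.drop_drop]
      rfl
    simp only [psi, h1, h2, h3, hG, hG2]
  rw [e1, front_right (htau.map c0) G n s β (by omega) hsne hβne]
  by_cases hle : n + 1 ≤ β.length
  · rw [if_pos hle]
    have hl : (β.drop n).length + n = d + 2 := by rw [List.length_drop]; omega
    have hne : β.drop n ≠ [] := by
      intro h
      rw [h] at hl
      simp only [List.length_nil] at hl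
      omega
    rw [hG, front_right (hom.map w0) G2 b s (β.drop n) (by omega) hsne hne]
    by_cases hdm' : d = m
    · have htake : (β.drop n).take (b + 1) = β.drop n := List.take_of_length_le (by omega)
      have hlast : β.drop (n + b) = [β.getLastD x0] := drop_one (by omega) x0
      rw [if_pos hdm', if_pos (by omega), htake, List.drop_drop, hlast,
        Sh_point_right _ hsne, ev_single, one_mul, hG2, List.map_map, hs]
      have hsg : (-1 : k) ^ ((m + 1 + 1) * n) * (-1) ^ ((m + 1 + 1) * b) = 1 := by
        rw [← pow_add, ← mul_add, ← hm]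
        have he : Even ((m + 1 + 1) * (m + 1)) := by
          rw [mul_comm]
          exact Nat.even_mul_succ_self (m + 1)
        exact he.neg_one_pow
      calc _ = ((-1 : k) ^ ((m + 1 + 1) * n) * (-1) ^ ((m + 1 + 1) * b)) *
            (tau ((β.take (n + 1)).map c0) * (om ((β.drop n).map w0) *
              eta (s.map ((fun x => v (J x)) ∘ fun a => (a, β.getLastD x0))))) := by ring
        _ = _ := by
          rw [hsg, one_mul, mul_assoc]
          rfl
    · rw [if_neg hdm', if_neg (by omega), mul_zero, mul_zero]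
  · rw [if_neg hle, if_neg (by omega)]

/-! ### Stokes -/

variable (n b tau om eta c w v)

/-- The slant product of `psi` with `ζ × κ`. -/
noncomputable def slant (ζ : Ch k (P × T)) (κ : Ch k U) (y : List Q) : k :=
  ev (psi n b tau om eta c w v) (sh ζ (sh κ (single y 1)))

theorem ev_slant (ζ : Ch k (P × T)) (κ : Ch k U) (y : Ch k Q) :
    ev (slant n b tau om eta c w v ζ κ) y = ev (psi n b tau om eta c w v) (sh ζ (sh κ y)) := by
  have := lin_ext_apply (f := ev (slant n b tau om eta c w v ζ κ))
    (g := ev (psi n b tau om eta c w v) ∘ₗ sh ζ ∘ₗ sh κ) (fun l => by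
      simp [slant]) y
  simpa using this

variable {n b tau om eta c w v}

/-- THE CROSSING-SWAP IDENTITY. -/
theorem swap_identity {m d : ℕ} (hm : m + 1 = n + b) (hn : 2 ≤ n) (hd : b < d) (hdm : d ≤ m)
    (htau : Nrm tau) (hom : Nrm om) (heta : Nrm eta)
    {z : Ch k P} (hz : z ∈ Sp k (Ln (m + 1))) (hbz : bd z = 0)
    {ι : Ch k T} (hι : ι ∈ Sp k (Ln 2)) {t0 t1 : T} (hbι : bd ι = single [t1] 1 - single [t0] 1)
    {κ : Ch k U} (hκ : κ ∈ Sp k (Ln 2)) {u0 u1 : U} (hbκ : bd κ = single [u1] 1 - single [u0] 1)
    {cs1 : P × T → MM} {ws1 : P × T → O} (hcs1 : ∀ x q, c (x, (u1, q)) = cs1 x)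
    (hws1 : ∀ x q, w (x, (u1, q)) = ws1 x)
    {cs0 : P × T → MM} {vs0 : P × T → H} (hcs0 : ∀ x q, c (x, (u0, q)) = cs0 x)
    (hvs0 : ∀ x q, v (x, (u0, q)) = vs0 x)
    {cr1 : U × Q → MM} {vr1 : U × Q → H} (hcr1 : ∀ p x, c ((p, t1), x) = cr1 x)
    (hvr1 : ∀ p x, v ((p, t1), x) = vr1 x)
    {cr0 : U × Q → MM} {wr0 : U × Q → O} (hcr0 : ∀ p x, c ((p, t0), x) = cr0 x)
    (hwr0 : ∀ p x, w ((p, t0), x) = wr0 x) (x0 : P × T) (x1 : U × Q)
    {y : List Q} (hy : y.length = d + 1)
    (hcoc : ev (psi n b tau om eta c w v) (bd (sh (sh z ι) (sh κ (single y 1)))) = 0) :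
    ev (fun ξ => tau ((ξ.take (n + 1)).map cs1) * om ((ξ.drop n).map ws1) *
        eta (y.map fun q => v (ξ.getLastD x0, (u1, q)))) (sh z ι) +
      (if d = m then ev (fun β => tau ((β.take (n + 1)).map cr0) * om ((β.drop n).map wr0) *
        ev (fun s => eta (s.map fun p => v ((p, t0), β.getLastD x1))) z)
          (sh κ (single y 1)) else 0) =
      dl (slant n b tau om eta c w v (sh z ι) κ) y := by
  have hym : (single y (1 : k)) ∈ Sp k (Ln (d + 1)) := single_Ln hy 1
  have hζ : sh z ι ∈ Sp k (Ln (m + 1 + 1)) := sh_Ln hz hι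
  have hY : sh κ (single y (1 : k)) ∈ Sp k (Ln (d + 1 + 1)) := by
    have := sh_Ln (p := 1) (q := d) hκ hym
    rwa [show 1 + d + 1 = d + 1 + 1 by omega] at this
  have hyne : (single y (1 : k)) ∈ Sp k Ne := Ln_ne hym
  have hzne : z ∈ Sp k Ne := Ln_ne hz
  -- boundary of ζ
  have hbζ : bd (sh z ι) = (-1 : k) ^ m • (mp (fun p => (p, t1)) z - mp (fun p => (p, t0)) z) := by
    rw [bd_sh (p := m) (q := 1) (by omega) hz hι, hbz, map_zero, LinearMap.zero_apply, zero_add,
      hbι, map_sub, sh_point_right t1 hzne, sh_point_right t0 hzne]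
  have hbY : bd (sh κ (single y (1 : k))) = mp (fun q => (u1, q)) (single y 1) -
      mp (fun q => (u0, q)) (single y 1) - sh κ (bdL y) := by
    rw [bd_sh (p := 1) (q := d) (by omega) hκ hym, hbκ, map_sub, LinearMap.sub_apply,
      sh_point_left u1 hyne, sh_point_left u0 hyne, bd_single, one_smul, pow_one, neg_one_smul]
    abel
  rw [bd_sh (p := m + 1) (q := d + 1) (by omega) hζ hY, hbζ, hbY] at hcoc
  simp only [map_sub, map_smul, LinearMap.smul_apply, LinearMap.sub_apply, map_add] at hcoc
  -- the four edges
  have E1 : ev (psi n b tau om eta c w v) (sh (sh z ι) (mp (fun q => (u1, q)) (single y (1 : k)))) =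
      ev (fun ξ => tau ((ξ.take (n + 1)).map cs1) * om ((ξ.drop n).map ws1) *
        eta (y.map fun q => v (ξ.getLastD x0, (u1, q)))) (sh z ι) := by
    refine eq_of_mem (P := Ln (m + 1 + 1))
      (F := ev (psi n b tau om eta c w v) ∘ₗ
        (sh (k := k) (α := P × T) (β := U × Q)).flip (mp (fun q => (u1, q)) (single y (1 : k))))
      (G := ev (fun ξ => tau ((ξ.take (n + 1)).map cs1) * om ((ξ.drop n).map ws1) *
        eta (y.map fun q => v (ξ.getLastD x0, (u1, q))))) (fun ξ hξ => ?_) hζ
    rw [LinearMap.comp_apply, LinearMap.flip_apply, ev_single, one_mul]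
    have e : sh (single ξ (1 : k)) (mp (fun q : Q => (u1, q)) (single y (1 : k))) =
        mp (Prod.map id fun q => (u1, q)) (Sh ξ y) := by
      rw [← sh_single, ← sh_mp, mp_single id, List.map_id]
    rw [e, ev_mp]
    exact edge_s1_list hm htau hom hcs1 hws1 x0 hξ hy
  have E0 : ev (psi n b tau om eta c w v)
      (sh (sh z ι) (mp (fun q => (u0, q)) (single y (1 : k)))) = 0 := by
    refine eq_of_mem (P := Ln (m + 1 + 1))
      (F := ev (psi n b tau om eta c w v) ∘ₗ
        (sh (k := k) (α := P × T) (β := U × Q)).flip (mp (fun q => (u0, q)) (single y (1 : k))))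
      (G := 0) (fun ξ hξ => ?_) hζ
    rw [LinearMap.comp_apply, LinearMap.flip_apply, LinearMap.zero_apply]
    have e : sh (single ξ (1 : k)) (mp (fun q : Q => (u0, q)) (single y (1 : k))) =
        mp (Prod.map id fun q => (u0, q)) (Sh ξ y) := by
      rw [← sh_single, ← sh_mp, mp_single id, List.map_id]
    rw [e, ev_mp]
    exact edge_s0_list hm hd htau heta hcs0 hvs0 hξ hy
  have F1 : ev (psi n b tau om eta c w v)
      (sh (mp (fun p => (p, t1)) z) (sh κ (single y (1 : k)))) = 0 := by
    have h1 : ∀ s : List P, Ln (m + 1) s → ev (psi n b tau om eta c w v)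
        (sh (mp (fun p => (p, t1)) (single s 1)) (sh κ (single y (1 : k)))) = 0 := by
      intro s hs
      refine eq_of_mem (P := Ln (d + 1 + 1))
        (F := ev (psi n b tau om eta c w v) ∘ₗ
          (sh (k := k) (α := P × T) (β := U × Q)) (mp (fun p => (p, t1)) (single s 1)))
        (G := 0) (fun β hβ => ?_) hY
      rw [LinearMap.comp_apply, LinearMap.zero_apply]
      have e : sh (mp (fun p => (p, t1)) (single s (1 : k))) (single β (1 : k)) =
          mp (Prod.map (fun p => (p, t1)) id) (Sh s β) := by
        rw [← sh_single, ← sh_mp, mp_single id, List.map_id]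
      rw [e, ev_mp]
      exact edge_r1_list hm hn htau heta hcr1 hvr1 hs hβ
    exact eq_of_mem (P := Ln (m + 1))
      (F := ev (psi n b tau om eta c w v) ∘ₗ
        (sh (k := k) (α := P × T) (β := U × Q)).flip (sh κ (single y (1 : k))) ∘ₗ
          mp (fun p => (p, t1)))
      (G := 0) (fun s hs => h1 s hs) hz
  have F0 : ev (psi n b tau om eta c w v)
      (sh (mp (fun p => (p, t0)) z) (sh κ (single y (1 : k)))) =
      if d = m then ev (fun β => tau ((β.take (n + 1)).map cr0) * om ((β.drop n).map wr0) *
        ev (fun s => eta (s.map fun p => v ((p, t0), β.getLastD x1))) z)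
          (sh κ (single y 1)) else 0 := by
    have h1 : ∀ β : List (U × Q), Ln (d + 1 + 1) β → ev (psi n b tau om eta c w v)
        (sh (mp (fun p => (p, t0)) z) (single β (1 : k))) =
        if d = m then tau ((β.take (n + 1)).map cr0) * om ((β.drop n).map wr0) *
          ev (fun s => eta (s.map fun p => v ((p, t0), β.getLastD x1))) z else 0 := by
      intro β hβ
      have h2 : ev (psi n b tau om eta c w v)
          (sh (mp (fun p => (p, t0)) z) (single β (1 : k))) =
          ev (fun s => if d = m then tau ((β.take (n + 1)).map cr0) * om ((β.drop n).map wr0) *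
            eta (s.map fun p => v ((p, t0), β.getLastD x1)) else 0) z := by
        refine eq_of_mem (P := Ln (m + 1))
          (F := ev (psi n b tau om eta c w v) ∘ₗ
            (sh (k := k) (α := P × T) (β := U × Q)).flip (single β (1 : k)) ∘ₗ
              mp (fun p => (p, t0)))
          (G := ev (fun s => if d = m then tau ((β.take (n + 1)).map cr0) *
            om ((β.drop n).map wr0) *
            eta (s.map fun p => v ((p, t0), β.getLastD x1)) else 0)) (fun s hs => ?_) hz
        rw [LinearMap.comp_apply, LinearMap.comp_apply, LinearMap.flip_apply, ev_single, one_mul]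
        have e : sh (mp (fun p => (p, t0)) (single s (1 : k))) (single β (1 : k)) =
            mp (Prod.map (fun p => (p, t0)) id) (Sh s β) := by
          rw [← sh_single, ← sh_mp, mp_single id, List.map_id]
        rw [e, ev_mp]
        exact edge_r0_list hm hdm htau hom hcr0 hwr0 x1 hs hβ
      rw [h2]
      split_ifs with hdm'
      · rw [ev_smul_fun]
      · exact ev_zero_fun z
    have h3 := eq_of_mem (P := Ln (d + 1 + 1))
        (F := ev (psi n b tau om eta c w v) ∘ₗ
          (sh (k := k) (α := P × T) (β := U × Q)) (mp (fun p => (p, t0)) z))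
        (G := ev (fun β => if d = m then tau ((β.take (n + 1)).map cr0) *
          om ((β.drop n).map wr0) *
          ev (fun s => eta (s.map fun p => v ((p, t0), β.getLastD x1))) z else 0))
        (fun β hβ => by
          rw [LinearMap.comp_apply, ev_single, one_mul]
          exact h1 β hβ) hY
    rw [LinearMap.comp_apply] at h3
    rw [h3]
    split_ifs with hdm'
    · rfl
    · exact ev_zero_fun _
  rw [E1, E0, F1, F0, ← ev_slant, sub_zero, zero_sub] at hcoc
  rw [dl]
  rcases neg_one_pow_eq_or k m with h | h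
  · simp only [smul_eq_mul, pow_succ, h] at hcoc
    linear_combination (-1 : k) * hcoc
  · simp only [smul_eq_mul, pow_succ, h] at hcoc
    linear_combination hcoc

end

end Vale.Agent.P216.Sl
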