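import Vale.Agent.P216.H787.Swap

/-!
# Cup products, fibre integrals, mesh chains, and the cocycle property of `psi`
-/

open Finsupp

namespace Vale.Agent.P216.Sl

variable {k : Type} [Field k]
variable {α β γ : Type}

/-! ### The coboundary -/

theorem dl_cons (f : List α → k) (x : α) (l : List α) :
    dl f (x :: l) = f l - dl (fun l' => f (x :: l')) l := by
  rw [dl, bdL_cons, map_sub, ev_single, one_mul, ev_cons, dl]

theorem dl_nil (f : List α → k) : dl f [] = 0 := by rw [dl, bdL_nil, map_zero]

theorem dl_one (f : List α → k) (x : α) : dl f [x] = f [] := by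
  rw [dl_cons, dl_nil, sub_zero]

theorem dl_map (f : List β → k) (g : α → β) (l : List α) :
    dl (fun l' : List α => f (l'.map g)) l = dl f (l.map g) := by
  have h : mp g (bdL l : Ch k α) = bdL (l.map g) := by
    have := bd_mp (k := k) g (single l 1)
    rw [mp_single, bd_single, bd_single, one_smul, one_smul] at this
    exact this.symm
  rw [dl, dl, ← h, ev_mp]

theorem dl_dl (f : List α → k) (l : List α) : dl (dl f) l = 0 := by
  rw [dl, ev_dl]
  have := bd_bd (k := k) (single l 1)
  rw [bd_single, one_smul] at this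
  rw [this, map_zero]

theorem dl_add (f g : List α → k) (l : List α) :
    dl (fun l' => f l' + g l') l = dl f l + dl g l := by rw [dl, ev_add_fun]; rfl

theorem dl_mul_left (a : k) (f : List α → k) (l : List α) :
    dl (fun l' => a * f l') l = a * dl f l := by rw [dl, ev_smul_fun]; rfl

theorem dl_congr {f g : List α → k} {l : List α} (h : ∀ l', l'.length + 1 = l.length →
    (∀ x ∈ l', x ∈ l) → f l' = g l') : dl f l = dl g l := by
  have hm : (bdL l : Ch k α) ∈ Sp k (fun l' => l'.length + 1 = l.length ∧ ∀ x ∈ l', x ∈ l) := by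
    clear h
    induction l with
    | nil => exact Submodule.zero_mem _
    | cons x l ih =>
      rw [bdL_cons]
      refine Submodule.sub_mem _ (single_mem (P := fun l' => l'.length + 1 = (x :: l).length ∧
        ∀ y ∈ l', y ∈ x :: l) ⟨by simp, fun y hy => List.mem_cons_of_mem _ hy⟩ _) ?_
      refine map_mem _ (fun l' hl' => ?_) ih
      rw [cons_single]
      refine single_mem ⟨by simp only [List.length_cons, hl'.1], fun y hy => ?_⟩ _
      rcases List.mem_cons.1 hy with rfl | hy
      · exact List.mem_cons_self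
      · exact List.mem_cons_of_mem _ (hl'.2 y hy)
  exact ev_congr (fun l' hl' => h l' hl'.1 hl'.2) hm

/-! ### Cup products -/

/-- Cup product of a `p`-cochain with a cochain. -/
def cup (p : ℕ) (f g : List α → k) (l : List α) : k := f (l.take (p + 1)) * g (l.drop p)

theorem dl_cup (p : ℕ) : ∀ (f g : List α → k) (l : List α), p + 2 ≤ l.length →
    dl (cup p f g) l = cup (p + 1) (dl f) g l + (-1 : k) ^ p * cup p f (dl g) l := by
  induction p with
  | zero =>
    intro f g l hl
    rcases l with _ | ⟨x, l⟩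
    · simp at hl
    rcases l with _ | ⟨y, l⟩
    · simp at hl
    rw [dl_cons]
    have h1 : (fun l' => cup 0 f g (x :: l')) = fun l' => f [x] * g (x :: l') := by
      funext l'
      simp [cup]
    rw [h1, dl_mul_left]
    simp only [cup, List.take_succ_cons, List.take_zero, List.drop_zero, List.drop_succ_cons,
      zero_add, pow_zero, one_mul, dl_cons, dl_nil, sub_zero]
    ring
  | succ p ih =>
    intro f g l hl
    rcases l with _ | ⟨x, l⟩
    · simp at hl
    simp only [List.length_cons] at hl
    rw [dl_cons]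
    have h1 : (fun l' => cup (p + 1) f g (x :: l')) = cup p (fun l' => f (x :: l')) g := by
      funext l'
      simp [cup]
    rw [h1, ih _ _ _ (by omega)]
    simp only [cup, List.take_succ_cons, List.drop_succ_cons, dl_cons, pow_succ]
    ring

theorem cup_cup (n b : ℕ) (f g h : List α → k) (l : List α) :
    cup n f (cup b g h) l =
      f (l.take (n + 1)) * (g ((l.drop n).take (b + 1)) * h (l.drop (n + b))) := by
  simp only [cup, List.drop_drop]

/-! ### Lattice paths of lists with repetitions -/

theorem Sh_head (a : α) (s : List α) (b : β) (t : List β) :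
    (Sh (a :: s) (b :: t) : Ch k (α × β)) ∈ Sp k (fun l => ∃ l', l = (a, b) :: l') := by
  rw [Sh]
  exact map_mem _ (fun l _ => by
    rw [cons_single]; exact single_mem ⟨l, rfl⟩ _)
    (P := fun _ => True) (by simp [Finsupp.mem_supported])

/-- A repetition in `s` gives a repetition in every lattice path. -/
theorem Sh_dup_left (n : ℕ) : ∀ (s : List α) (t : List β), s.length + t.length = n →
    ¬ s.IsChain (· ≠ ·) → (Sh s t : Ch k (α × β)) ∈ Sp k (fun l => ¬ l.IsChain (· ≠ ·)) := by
  induction n with
  | zero =>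
    intro s t h _
    have hs : s = [] := List.length_eq_zero_iff.1 (by omega)
    subst hs
    rw [Sh_nil_left]
    exact Submodule.zero_mem _
  | succ n ih =>
    intro s t h hs
    rcases s with _ | ⟨a, s⟩
    · exact absurd List.isChain_nil hs
    rcases t with _ | ⟨b, t⟩
    · rw [Sh_nil_right]; exact Submodule.zero_mem _
    rcases s with _ | ⟨a', s⟩
    · exact absurd (List.isChain_singleton a) hs
    simp only [List.length_cons] at h
    rw [Sh_cons (by simp), map_add, map_smul]
    have h2 := ih (a :: a' :: s) t (by simp only [List.length_cons]; omega) hs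
    refine Submodule.add_mem _ ?_ (Submodule.smul_mem _ _ ?_)
    · by_cases haa : a = a'
      · subst haa
        refine map_mem _ (fun l hl => ?_) (Sh_head (k := k) a s b t)
        obtain ⟨l', rfl⟩ := hl
        rw [cons_single]
        refine single_mem (fun hc => ?_) _
        rw [List.isChain_cons_cons] at hc
        exact hc.1 rfl
      · have hs' : ¬ (a' :: s).IsChain (· ≠ ·) := fun hc => hs (by
          rw [List.isChain_cons_cons]
          exact ⟨haa, hc⟩)
        have h1 := ih (a' :: s) (b :: t) (by simp only [List.length_cons]; omega) hs'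
        refine map_mem _ (fun l hl => ?_) h1
        rw [cons_single]
        exact single_mem (fun hc => hl hc.tail) _
    · refine map_mem _ (fun l hl => ?_) h2
      rw [cons_single]
      exact single_mem (fun hc => hl hc.tail) _

theorem Sh_dup_right (n : ℕ) : ∀ (s : List α) (t : List β), s.length + t.length = n →
    ¬ t.IsChain (· ≠ ·) → (Sh s t : Ch k (α × β)) ∈ Sp k (fun l => ¬ l.IsChain (· ≠ ·)) := by
  induction n with
  | zero =>
    intro s t h _
    have hs : s = [] := List.length_eq_zero_iff.1 (by omega)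
    subst hs
    rw [Sh_nil_left]
    exact Submodule.zero_mem _
  | succ n ih =>
    intro s t h ht
    rcases s with _ | ⟨a, s⟩
    · rw [Sh_nil_left]; exact Submodule.zero_mem _
    rcases t with _ | ⟨b, t⟩
    · exact absurd List.isChain_nil ht
    rcases t with _ | ⟨b', t⟩
    · exact absurd (List.isChain_singleton b) ht
    simp only [List.length_cons] at h
    rw [Sh_cons (by simp), map_add, map_smul]
    have h1 := ih s (b :: b' :: t) (by simp only [List.length_cons]; omega) ht
    refine Submodule.add_mem _ ?_ (Submodule.smul_mem _ _ ?_)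
    · refine map_mem _ (fun l hl => ?_) h1
      rw [cons_single]
      exact single_mem (fun hc => hl hc.tail) _
    · by_cases hbb : b = b'
      · subst hbb
        refine map_mem _ (fun l hl => ?_) (Sh_head (k := k) a s b t)
        obtain ⟨l', rfl⟩ := hl
        rw [cons_single]
        refine single_mem (fun hc => ?_) _
        rw [List.isChain_cons_cons] at hc
        exact hc.1 rfl
      · have ht' : ¬ (b' :: t).IsChain (· ≠ ·) := fun hc => ht (by
          rw [List.isChain_cons_cons]
          exact ⟨hbb, hc⟩)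
        have h2 := ih (a :: s) (b' :: t) (by simp only [List.length_cons]; omega) ht'
        refine map_mem _ (fun l hl => ?_) h2
        rw [cons_single]
        exact single_mem (fun hc => hl hc.tail) _

/-! ### Fibre integrals -/

/-- Integration of `f` over the chain `ι` of the second factor. -/
noncomputable def fib (f : List (α × β) → k) (ι : Ch k β) (s : List α) : k :=
  ev f (sh (single s 1) ι)

theorem ev_fib (f : List (α × β) → k) (ι : Ch k β) (c : Ch k α) :
    ev (fib f ι) c = ev f (sh c ι) := by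
  have := lin_ext_apply (f := ev (fib f ι))
    (g := ev f ∘ₗ (sh (k := k) (α := α) (β := β)).flip ι) (fun l => by simp [fib]) c
  simpa using this

theorem Nrm.fib {f : List (α × β) → k} (hf : Nrm f) (ι : Ch k β) : Nrm (fib f ι) := by
  intro s hs
  have := lin_ext_apply (f := ev f ∘ₗ (sh (k := k) (α := α) (β := β)) (single s 1)) (g := 0)
    (fun t => by
      rw [LinearMap.comp_apply, sh_single, LinearMap.zero_apply]
      exact ev_zero_of (fun l hl => hf l hl) (Sh_dup_left _ s t rfl hs)) ι
  simpa [Sl.fib] using this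

/-- Integration over the chain `ι` of the first factor. -/
noncomputable def fibL (f : List (α × β) → k) (ι : Ch k α) (t : List β) : k :=
  ev f (sh ι (single t 1))

theorem ev_fibL (f : List (α × β) → k) (ι : Ch k α) (c : Ch k β) :
    ev (fibL f ι) c = ev f (sh ι c) := by
  have := lin_ext_apply (f := ev (fibL f ι))
    (g := ev f ∘ₗ (sh (k := k) (α := α) (β := β)) ι) (fun l => by simp [fibL]) c
  simpa using this

theorem Nrm.fibL {f : List (α × β) → k} (hf : Nrm f) (ι : Ch k α) : Nrm (fibL f ι) := by
  intro t ht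
  have := lin_ext_apply (f := ev f ∘ₗ (sh (k := k) (α := α) (β := β)).flip (single t 1)) (g := 0)
    (fun s => by
      rw [LinearMap.comp_apply, LinearMap.flip_apply, sh_single, LinearMap.zero_apply]
      exact ev_zero_of (fun l hl => hf l hl) (Sh_dup_right _ s t rfl ht)) ι
  simpa [Sl.fibL] using this

/-- The coboundary of a fibre integral over a chain of length-two lists. -/
theorem dl_fib (f : List (α × β) → k) {ι : Ch k β} (hι : ι ∈ Sp k (Ln 2)) {t0 t1 : β}
    (hb : bd ι = single [t1] 1 - single [t0] 1) {p : ℕ} {s : List α} (hs : s.length = p + 1) :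
    dl (fib f ι) s = fib (dl f) ι s -
      (-1 : k) ^ p * (f (s.map fun a => (a, t1)) - f (s.map fun a => (a, t0))) := by
  have h1 : (single s (1 : k)) ∈ Sp k (Ln (p + 1)) := single_Ln hs 1
  have h2 := bd_sh (p := p) (q := 1) (by omega) h1 hι
  rw [bd_single, one_smul, hb, map_sub, sh_point_right t1 (Ln_ne h1),
    sh_point_right t0 (Ln_ne h1), mp_single, mp_single] at h2
  have h3 := congrArg (ev f) h2
  rw [← ev_dl, map_add, map_smul, map_sub, ev_single, ev_single, one_mul, one_mul, smul_eq_mul]
    at h3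
  rw [dl, ev_fib, Sl.fib, h3]
  ring

/-- The coboundary of a fibre integral over a cycle in the first factor. -/
theorem dl_fibL_cycle (f : List (α × β) → k) {m : ℕ} {z : Ch k α} (hz : z ∈ Sp k (Ln (m + 1)))
    (hb : bd z = 0) {q : ℕ} (hq : 1 ≤ m + q) {t : List β} (ht : t.length = q + 1) :
    dl (fibL f z) t = (-1 : k) ^ m * fibL (dl f) z t := by
  have h1 : (single t (1 : k)) ∈ Sp k (Ln (q + 1)) := single_Ln ht 1
  have h2 := bd_sh (p := m) (q := q) hq hz h1
  rw [bd_single, one_smul, hb, map_zero, LinearMap.zero_apply, zero_add] at h2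
  have h3 := congrArg (ev f) h2
  rw [← ev_dl, map_smul, smul_eq_mul] at h3
  rw [dl, ev_fibL, Sl.fibL, h3, ← mul_assoc, ← pow_add, ← two_mul]
  simp

/-- The same for a cycle in the second factor. -/
theorem dl_fib_cycle (f : List (α × β) → k) {m : ℕ} {z : Ch k β} (hz : z ∈ Sp k (Ln (m + 1)))
    (hb : bd z = 0) {p : ℕ} (hp : 1 ≤ p + m) {s : List α} (hs : s.length = p + 1) :
    dl (fib f z) s = fib (dl f) z s := by
  have h1 : (single s (1 : k)) ∈ Sp k (Ln (p + 1)) := single_Ln hs 1
  have h2 := bd_sh (p := p) (q := m) hp h1 hz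
  rw [bd_single, one_smul, hb, map_zero, smul_zero, add_zero] at h2
  have h3 := congrArg (ev f) h2
  rw [← ev_dl] at h3
  rw [dl, ev_fib, Sl.fib, h3]

/-! ### Mesh chains -/

/-- The chain of the `N` edges `[a + j δ, a + (j + 1) δ]`. -/
noncomputable def mesh (k : Type) [Field k] (a δ : ℝ) (N : ℕ) : Ch k ℝ :=
  ∑ j ∈ Finset.range N, single [a + j * δ, a + (j + 1 : ℕ) * δ] 1

theorem mesh_mem (a δ : ℝ) (N : ℕ) : mesh k a δ N ∈ Sp k (Ln 2) :=
  Submodule.sum_mem _ fun _ _ => single_Ln rfl 1

theorem bd_mesh (a δ : ℝ) (N : ℕ) :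
    bd (mesh k a δ N) = single [a + N * δ] 1 - single [a] 1 := by
  have h : ∀ j : ℕ, bd (single [a + j * δ, a + (j + 1 : ℕ) * δ] (1 : k)) =
      single [a + (j + 1 : ℕ) * δ] 1 - single [a + (j : ℕ) * δ] 1 := by
    intro j
    rw [bd_single, one_smul, bdL_cons, bdL_cons, bdL_nil, map_zero, sub_zero, cons_single]
  rw [mesh, map_sum, Finset.sum_congr rfl fun j _ => h j,
    Finset.sum_range_sub (fun j : ℕ => (single [a + (j : ℕ) * δ] (1 : k)))]
  simp

/-- Entries of the lists of a mesh chain. -/
theorem mesh_mem' (a δ : ℝ) (N : ℕ) : mesh k a δ N ∈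
    Sp k (fun l => ∃ j < N, l = [a + j * δ, a + (j + 1 : ℕ) * δ]) :=
  Submodule.sum_mem _ fun j hj => single_mem ⟨j, Finset.mem_range.1 hj, rfl⟩ _

/-! ### `psi` is a cocycle -/

section

variable {P T U Q MM O H : Type}
variable {n b : ℕ} {tau : List MM → k} {om : List O → k} {eta : List H → k}
variable {c : (P × T) × (U × Q) → MM} {w : (P × T) × (U × Q) → O} {v : (P × T) × (U × Q) → H}

theorem psi_eq_cup : psi n b tau om eta c w v =
    cup n (fun l => tau (l.map c)) (cup b (fun l => om (l.map w)) fun l => eta (l.map v)) := by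
  funext l
  rw [cup_cup]
  rfl

theorem dl_psi {l : List ((P × T) × (U × Q))} (hl : n + b + 2 ≤ l.length)
    (h1 : dl tau ((l.take (n + 2)).map c) = 0)
    (h2 : tau ((l.take (n + 1)).map c) ≠ 0 → dl om (((l.drop n).take (b + 2)).map w) = 0)
    (h3 : tau ((l.take (n + 1)).map c) ≠ 0 → om (((l.drop n).take (b + 1)).map w) ≠ 0 →
      dl eta ((l.drop (n + b)).map v) = 0) : dl (psi n b tau om eta c w v) l = 0 := by
  rw [psi_eq_cup, dl_cup n _ _ _ (by omega)]
  simp only [cup, dl_map]
  rw [show n + 1 + 1 = n + 2 from rfl, h1, zero_mul, zero_add]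
  by_cases ht : tau ((l.take (n + 1)).map c) = 0
  · rw [ht, zero_mul, mul_zero]
  · have h4 : dl (cup b (fun l => om (l.map w)) fun l => eta (l.map v)) (l.drop n) = 0 := by
      rw [dl_cup b _ _ _ (by rw [List.length_drop]; omega)]
      simp only [cup, dl_map, List.drop_drop]
      rw [show b + 1 + 1 = b + 2 from rfl, h2 ht, zero_mul, zero_add]
      by_cases ho : om (((l.drop n).take (b + 1)).map w) = 0
      · rw [ho, zero_mul, mul_zero]
      · rw [h3 ht ho, mul_zero, mul_zero]
    rw [h4, mul_zero, mul_zero]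

/-- The entries of a list `l` come from `s`, `i`, `j`, `y`. -/
def Ent (s : List P) (i : List T) (j : List U) (y : List Q) (l : List ((P × T) × (U × Q))) :
    Prop := ∀ x ∈ l, x.1.1 ∈ s ∧ x.1.2 ∈ i ∧ x.2.1 ∈ j ∧ x.2.2 ∈ y

/-- The hypothesis `hcoc` of `swap_identity` from the cocycle property on lists. -/
theorem coc_of {f : List ((P × T) × (U × Q)) → k} {m d : ℕ} {z : Ch k P}
    (hz : z ∈ Sp k (Ln (m + 1))) {ι : Ch k T} (hι : ι ∈ Sp k (Ln 2)) {κ : Ch k U}
    (hκ : κ ∈ Sp k (Ln 2)) {y : List Q} (hy : y.length = d + 1)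
    (h : ∀ l : List ((P × T) × (U × Q)), l.length = m + d + 3 →
      (∃ s ∈ z.support, ∃ i ∈ ι.support, ∃ j ∈ κ.support, Ent s i j y l) → dl f l = 0) :
    ev f (bd (sh (sh z ι) (sh κ (single y 1)))) = 0 := by
  rw [← ev_dl]
  have hz' : z ∈ Sp k (fun s => s.length = m + 1 ∧ s ∈ z.support) := by
    rw [Finsupp.mem_supported] at hz ⊢
    exact fun s hs => ⟨hz hs, hs⟩
  have hι' : ι ∈ Sp k (fun s => s.length = 2 ∧ s ∈ ι.support) := by
    rw [Finsupp.mem_supported] at hι ⊢
    exact fun s hs => ⟨hι hs, hs⟩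
  have hκ' : κ ∈ Sp k (fun s => s.length = 2 ∧ s ∈ κ.support) := by
    rw [Finsupp.mem_supported] at hκ ⊢
    exact fun s hs => ⟨hκ hs, hs⟩
  have hy' : single y (1 : k) ∈ Sp k (fun s => s = y) := single_mem (P := fun s => s = y) rfl 1
  have h1 : sh z ι ∈ Sp k (fun ξ : List (P × T) => ξ.length = m + 2 ∧
      ∃ s ∈ z.support, ∃ i ∈ ι.support, ∀ x ∈ ξ, x.1 ∈ s ∧ x.2 ∈ i) :=
    sh_mem (fun s t l hs ht hl => ⟨by have := hl.1; omega, s, hs.2, t, ht.2, hl.2⟩) hz' hι'
  have h2 : sh κ (single y 1) ∈ Sp k (fun β : List (U × Q) => β.length = d + 2 ∧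
      ∃ j ∈ κ.support, ∀ x ∈ β, x.1 ∈ j ∧ x.2 ∈ y) :=
    sh_mem (fun s t l hs ht hl => by
      subst ht
      exact ⟨by have := hl.1; omega, s, hs.2, hl.2⟩) hκ' hy'
  have h3 : sh (sh z ι) (sh κ (single y 1)) ∈ Sp k (fun l : List ((P × T) × (U × Q)) =>
      l.length = m + d + 3 ∧
      ∃ s ∈ z.support, ∃ i ∈ ι.support, ∃ j ∈ κ.support, Ent s i j y l) :=
    sh_mem (fun ξ β l hξ hβ hl => by
      obtain ⟨h4, s, hs, i, hi, h5⟩ := hξ
      obtain ⟨h6, j, hj, h7⟩ := hβ
      refine ⟨by have := hl.1; omega, s, hs, i, hi, j, hj, fun x hx => ?_⟩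
      have h8 := hl.2 x hx
      exact ⟨(h5 _ h8.1).1, (h5 _ h8.1).2, (h7 _ h8.2).1, (h7 _ h8.2).2⟩) h1 h2
  exact ev_zero_of (fun l hl => h l hl.1 hl.2) h3

end

end Vale.Agent.P216.Sl
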