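import Vale.Agent.P216.H754.NormAS
import Vale.Agent.P216.AS.Htpy
import Vale.Agent.P216.H311.Points
import Vale.Agent.P216.H787.Fib

/-!
# Cohomology classes of list cochains (no symmetries)
-/

open Set Finsupp

namespace Vale.Agent.P216.Sl

open AS PS

variable {k : Type} [Field k] {E E' : Type} [PseudoMetricSpace E] [PseudoMetricSpace E']
variable {I : Type} [IsEmpty I]

/-- `f` is a cocycle of degree `n` on the small lists of `X`. -/
def CocL (X : Set E) (n : ℕ) (f : List E → k) : Prop :=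
  ∃ ε > 0, ∀ l, l.length = n + 2 → SmL X ε l → dl f l = 0

/-- `f` is a coboundary on the small lists of `X` (zero if `n = 0`). -/
def ExL (X : Set E) (n : ℕ) (f : List E → k) : Prop :=
  ∃ g : List E → k, (n = 0 → ∀ l, g l = 0) ∧
    ∃ ε > 0, ∀ l, l.length = n + 1 → SmL X ε l → f l = dl g l

theorem CocL.mono {X Y : Set E} {n : ℕ} {f : List E → k} (h : CocL Y n f) (hX : X ⊆ Y) :
    CocL X n f := by
  obtain ⟨ε, hε, h⟩ := h
  exact ⟨ε, hε, fun l hl hs => h l hl (hs.mono hX le_rfl)⟩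

theorem ExL.mono {X Y : Set E} {n : ℕ} {f : List E → k} (h : ExL Y n f) (hX : X ⊆ Y) :
    ExL X n f := by
  obtain ⟨g, hg, ε, hε, h⟩ := h
  exact ⟨g, hg, ε, hε, fun l hl hs => h l hl (hs.mono hX le_rfl)⟩

omit [PseudoMetricSpace E] in
theorem dl_ofL {n : ℕ} (f : List E → k) (x : Fin (n + 2) → E) :
    P265.AS.d (ofL (n + 1) f) x = dl f (List.ofFn x) := by
  have h1 := toL_d (ofL (n + 1) f) (List.ofFn x)
  rw [toL_ofFn] at h1
  rw [h1]
  refine dl_congr fun l' hl' _ => toL_ofL f ?_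
  rw [List.length_ofFn] at hl'
  omega

theorem smL_ofFn {X : Set E} {ε : ℝ} {n : ℕ} {x : Fin n → E} :
    SmL X ε (List.ofFn x) ↔ Sm X ε x := by
  constructor
  · intro h
    exact ⟨fun j => h.1 _ (List.mem_ofFn.2 ⟨j, rfl⟩), fun i j =>
      h.2 _ (List.mem_ofFn.2 ⟨i, rfl⟩) _ (List.mem_ofFn.2 ⟨j, rfl⟩)⟩
  · intro h
    constructor
    · intro y hy
      obtain ⟨j, rfl⟩ := List.mem_ofFn.1 hy
      exact h.1 j
    · intro y hy y' hy'
      obtain ⟨j, rfl⟩ := List.mem_ofFn.1 hy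
      obtain ⟨j', rfl⟩ := List.mem_ofFn.1 hy'
      exact h.2 j j'

theorem mem_Zc_ofL (a : I → E → E) (χ : I → k) {X : Set E} {n : ℕ} {f : List E → k}
    (h : CocL X n f) : ofL (n + 1) f ∈ Zc (Cc a χ X) (Zr a χ X X) n := by
  obtain ⟨ε, hε, h⟩ := h
  refine mem_Zc_abs.2 ⟨fun i => isEmptyElim i, ε, hε, fun x hx => ?_⟩
  rw [dl_ofL]
  exact h _ (List.length_ofFn) (smL_ofFn.2 hx)

omit [IsEmpty I] in
theorem mk_congr {a : I → E → E} {χ : I → k} {X : Set E} {n : ℕ} {x y : (ASK E k).K n}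
    (h : x = y) {hx : x ∈ Zc (Cc a χ X) (Zr a χ X X) n} {hy : y ∈ Zc (Cc a χ X) (Zr a χ X X) n} :
    (H.mk x hx : Ha a χ X n) = H.mk y hy := by
  subst h
  rfl

/-- The class of a list cochain. -/
def cls (a : I → E → E) (χ : I → k) {X : Set E} {n : ℕ} (f : List E → k) (h : CocL X n f) :
    Ha a χ X n := H.mk (ofL (n + 1) f) (mem_Zc_ofL a χ h)

variable {a : I → E → E} {a' : I → E' → E'} {χ : I → k} {X Y : Set E} {X' : Set E'} {n : ℕ}

/-- Every class is the class of a normalised list cochain. -/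
theorem exists_cls (z : Ha a χ X n) :
    ∃ (f : List E → k) (h : CocL X n f), Nrm f ∧ cls a χ f h = z := by
  obtain ⟨x, hx, hN, rfl⟩ := exists_mk_Nrm Stb_Cc Stb_Zr z
  obtain ⟨ε, hε, h⟩ := (mem_Zc_abs.1 hx).2
  have hc : CocL X n (toL x) := by
    refine ⟨ε, hε, fun l hl hs => ?_⟩
    obtain ⟨y, rfl⟩ := exists_ofFn hl
    rw [← toL_d, toL_ofFn]
    exact h y (smL_ofFn.1 hs)
  exact ⟨toL x, hc, hN, mk_congr (ofL_toL x)⟩

/-- The class is zero iff the cochain is a coboundary at some scale. -/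
theorem cls_eq_zero {f : List E → k} {h : CocL X n f} : cls a χ f h = 0 ↔ ExL X n f := by
  rw [cls, H.mk_eq_zero]
  cases n with
  | zero =>
    rw [mem_Bc_zero]
    constructor
    · rintro ⟨-, ε, hε, h1⟩
      refine ⟨fun _ => 0, fun _ _ => rfl, ε, hε, fun l hl hs => ?_⟩
      obtain ⟨y, rfl⟩ := exists_ofFn hl
      rw [PS.dl_zero_fun]
      exact h1 y (smL_ofFn.1 hs)
    · rintro ⟨g, hg, ε, hε, h1⟩
      refine ⟨fun i => isEmptyElim i, ε, hε, fun x hx => ?_⟩
      have h2 := h1 (List.ofFn x) List.length_ofFn (smL_ofFn.2 hx)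
      have h3 : g = fun _ => 0 := funext (hg rfl)
      rw [h3, PS.dl_zero_fun] at h2
      exact h2
  | succ n =>
    rw [mem_Bc_succ]
    constructor
    · rintro ⟨y, -, -, ε, hε, h1⟩
      refine ⟨toL y, fun h0 => absurd h0 (Nat.succ_ne_zero n), ε, hε, fun l hl hs => ?_⟩
      obtain ⟨x, rfl⟩ := exists_ofFn hl
      have h2 := h1 x (smL_ofFn.1 hs)
      have h3 : ofL (n + 2) f x - P265.AS.d y x = 0 := h2
      rw [← toL_d, toL_ofFn, ← sub_eq_zero]
      exact h3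
    · rintro ⟨g, -, ε, hε, h1⟩
      refine ⟨ofL (n + 1) g, fun i => isEmptyElim i, fun i => isEmptyElim i, ε, hε, fun x hx => ?_⟩
      change ofL (n + 2) f x - P265.AS.d (ofL (n + 1) g) x = 0
      rw [dl_ofL, sub_eq_zero]
      exact h1 _ List.length_ofFn (smL_ofFn.2 hx)

theorem CocL.sub {f g : List E → k} (hf : CocL X n f) (hg : CocL X n g) :
    CocL X n fun l => f l - g l := by
  obtain ⟨ε, hε, h⟩ := hf
  obtain ⟨ε', hε', h'⟩ := hg
  refine ⟨min ε ε', lt_min hε hε', fun l hl hs => ?_⟩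
  have e : (fun l => f l - g l) = fun l => f l + (-1) * g l := by funext l; ring
  rw [e, dl_add, dl_mul_left, h l hl (hs.mono le_rfl (min_le_left _ _)),
    h' l hl (hs.mono le_rfl (min_le_right _ _))]
  ring

theorem CocL.add {f g : List E → k} (hf : CocL X n f) (hg : CocL X n g) :
    CocL X n fun l => f l + g l := by
  obtain ⟨ε, hε, h⟩ := hf
  obtain ⟨ε', hε', h'⟩ := hg
  refine ⟨min ε ε', lt_min hε hε', fun l hl hs => ?_⟩
  rw [dl_add, h l hl (hs.mono le_rfl (min_le_left _ _)),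
    h' l hl (hs.mono le_rfl (min_le_right _ _)), add_zero]

theorem CocL.smul {f : List E → k} (c : k) (hf : CocL X n f) : CocL X n fun l => c * f l := by
  obtain ⟨ε, hε, h⟩ := hf
  refine ⟨ε, hε, fun l hl hs => ?_⟩
  rw [dl_mul_left, h l hl hs, mul_zero]

theorem cls_add {f g : List E → k} (hf : CocL X n f) (hg : CocL X n g) :
    cls a χ f hf + cls a χ g hg = cls a χ _ (hf.add hg) :=
  (H.mk_add (mem_Zc_ofL a χ hf) (mem_Zc_ofL a χ hg)).symm

theorem cls_sub {f g : List E → k} (hf : CocL X n f) (hg : CocL X n g) :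
    cls a χ f hf - cls a χ g hg = cls a χ _ (hf.sub hg) :=
  (H.mk_sub (mem_Zc_ofL a χ hf) (mem_Zc_ofL a χ hg)).symm

theorem cls_smul {f : List E → k} (c : k) (hf : CocL X n f) :
    c • cls a χ f hf = cls a χ _ (hf.smul c) :=
  (H.mk_smul c (mem_Zc_ofL a χ hf)).symm

theorem cls_eq_cls {f g : List E → k} {hf : CocL X n f} {hg : CocL X n g} :
    cls a χ f hf = cls a χ g hg ↔ ExL X n fun l => f l - g l := by
  rw [← sub_eq_zero, cls_sub, cls_eq_zero]

omit [IsEmpty I] in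
theorem CocL.map {F : E → E'} (hF : IsMap a a' X X' F) {f : List E' → k} (hf : CocL X' n f) :
    CocL X n fun l => f (l.map F) := by
  obtain ⟨ε, hε, h⟩ := hf
  obtain ⟨δ, hδ, h'⟩ := hF.uc ε hε
  refine ⟨δ, hδ, fun l hl hs => ?_⟩
  rw [dl_map]
  refine h _ (by rw [List.length_map, hl]) ⟨fun y hy => ?_, fun y hy y' hy' => ?_⟩
  · obtain ⟨x, hx, rfl⟩ := List.mem_map.1 hy
    exact hF.mapsX (hs.1 x hx)
  · obtain ⟨x, hx, rfl⟩ := List.mem_map.1 hy
    obtain ⟨x', hx', rfl⟩ := List.mem_map.1 hy'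
    exact h' x (hs.1 x hx) x' (hs.1 x' hx') (hs.2 x hx x' hx')

/-- Pull-back of a class. -/
theorem pull_cls {F : E → E'} (hF : IsMap a a' X X' F) {f : List E' → k} (hf : CocL X' n f) :
    pull χ hF n (cls a' χ f hf) = cls a χ _ (hf.map hF) := by
  have e : P265.AS.pb F (ofL (n + 1) f) = ofL (n + 1) fun l => f (l.map F) := by
    funext x
    change f (List.ofFn fun i => F (x i)) = f ((List.ofFn x).map F)
    rw [List.map_ofFn]
    rfl
  rw [cls, pull_mk]
  exact mk_congr e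

/-- Restriction of a class. -/
theorem res_cls (hY : Y ⊆ X) {f : List E → k} (hf : CocL X n f) :
    res hY n (cls a χ f hf) = cls a χ f (hf.mono hY) := rfl

end Vale.Agent.P216.Sl
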