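import Vale.Agent.P216.H787.Cls
import Vale.Agent.P216.N970.Inst2
import Vale.Agent.P216.H250.Move
import Vale.Agent.P216.H250.Pi0P

/-!
# One step of the crossing-swap argument: images of rank at most one
-/

open Set Finsupp Topology BoundedContinuousFunction

namespace Vale.Agent.P216.Sl

open PS Sg

variable {k : Type} [Field k] {M : Type} [MetricSpace M] [CompactSpace M]
variable {x₀ x₁ x₂ x₃ : M} {C t r ρ r₀ c' εt D G : ℝ} {n b m d : ℕ}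
variable {tau : List (M × M) → k} {om eta eta' : List (ℝ →ᵇ M) → k}

/-- `tau` is a normalised cocycle of degree `n` on the `ε`-small lists, zero at distance `≥ r₀`. -/
structure IsTau (n : ℕ) (r₀ ε : ℝ) (tau : List (M × M) → k) : Prop where
  nrm : Nrm tau
  coc : ∀ l : List (M × M), l.length = n + 2 → SmL univ ε l → dl tau l = 0
  far : ∀ l : List (M × M), l.length = n + 1 → SmL univ ε l →
    (∃ p ∈ l, r₀ ≤ dist p.1 p.2) → tau l = 0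

/-- The constant of `PI0`. -/
structure IsPi (M : Type) [MetricSpace M] (D : ℝ) : Prop where
  nonneg : 0 ≤ D
  ne : ∀ a b : M, (P a b D).Nonempty
  join : ∀ (a b : M) (u : ℝ), 0 ≤ u → ∀ w ∈ P a b u, ∀ w' ∈ P a b u, JoinedIn (P a b (u + D)) w w'

/-- Fine cycles detecting the fibre integral. -/
def Det (n : ℕ) (tau : List (M × M) → k) (om : List (ℝ →ᵇ M) → k) (r : ℝ) (x₀ x₁ x₃ : M)
    (m : ℕ) (C : ℝ) : Prop :=
  ∀ δ > 0, ∃ z ∈ Sp k (fun l => l.length = m + 1 ∧ SmL (P x₀ x₁ C) δ l), bd z = 0 ∧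
    ∃ ι : Ch k ℝ, ι ∈ Sp k (fun l => l.length = 2 ∧ SmL (Icc 0 C) δ l) ∧
      bd ι = single [C] 1 - single [0] 1 ∧ ev (aL n tau om r x₃) (sh z ι) = 1

theorem exists_fine (k : Type) [Field k] {t δ : ℝ} (ht : 0 ≤ t) (hδ : 0 < δ) :
    ∃ κ : Ch k ℝ, κ ∈ Sp k (fun l => l.length = 2 ∧ SmL (Icc 0 t) δ l) ∧
      bd κ = single [t] 1 - single [0] 1 := by
  obtain ⟨N, -, h1, h2, h3⟩ := exists_seg k ht (half_pos hδ)
  refine ⟨seg k 0 t N, ?_, h3⟩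
  have h4 := and_mem h2 h1
  refine Sp_mono (fun l hl => ⟨hl.1, hl.2.1, fun x hx y hy => ?_⟩) h4
  exact (hl.2.2 x hx y hy).trans_lt (half_lt_self hδ)

/-- **One step, list level.** -/
theorem step_list (h : LS.UniqSeg M ρ) (hr : 0 < r) (hrρ : r < ρ) (hr0 : r₀ < r)
    (hC : 0 ≤ C) (ht : 0 ≤ t) (hm : m + 1 = n + b) (hn : 2 ≤ n) (hd : b < d) (hdm : d ≤ m)
    (hεt : 0 < εt) (htau : IsTau n r₀ εt tau) (nom : Nrm om)
    (hom1 : CocL (P x₀ x₃ (C + r + t)) b om)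
    (hom0 : ∃ ε > 0, ∀ l : List (ℝ →ᵇ M), l.length = b + 1 → SmL (P x₀ x₃ c') ε l → om l = 0)
    (hz : Det n tau om r x₀ x₁ x₃ m C) (hD : IsPi M D) (hG0 : 0 ≤ G) (hG : C - c' ≤ G)
    {v₀ : ℝ →ᵇ M} (hv₀ : v₀ ∈ P x₃ x₁ (G + 2 * r + 1 + D))
    (neta : Nrm eta) (heta : CocL (P x₂ x₁ (t + (G + 2 * r + 1 + D + D))) d eta)
    (neta' : Nrm eta') (heta' : CocL (P x₂ x₁ (t + (G + 2 * r + 1 + D + D))) d eta') :
    (∃ a a' : k, (a ≠ 0 ∨ a' ≠ 0) ∧ ExL (P x₂ x₃ t) d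
      fun y => a * eta (y.map fun q => cat t q v₀) + a' * eta' (y.map fun q => cat t q v₀)) ∧
    ((d < m ∨ t + 2 * r ≤ c') → ExL (P x₂ x₃ t) d fun y => eta (y.map fun q => cat t q v₀)) := by
  obtain ⟨εo, hεo, ho1⟩ := hom1
  obtain ⟨εo', hεo', ho0⟩ := hom0
  obtain ⟨εe, hεe, he⟩ := heta
  obtain ⟨εe', hεe', he'⟩ := heta'
  have hD0 := hD.nonneg
  set s2 : ℝ := max D (t + 2 * r - c' + 1) with hs2
  obtain ⟨w₀, hw₀⟩ : (P x₂ x₀ s2).Nonempty := (hD.ne x₂ x₀).mono (P_mono (le_max_left _ _))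
  have hb : d = m → c' < t + 2 * r → t + 2 * r - c' < s2 ∧ 0 ≤ s2 ∧
      s2 + D + C ≤ t + (G + 2 * r + 1 + D + D) ∧ w₀ ∈ P x₂ x₀ s2 := by
    intro _ hc
    refine ⟨?_, hD0.trans (le_max_left _ _), ?_, hw₀⟩
    · exact lt_of_lt_of_le (by linarith) (le_max_right D (t + 2 * r - c' + 1))
    · have : s2 ≤ t + (G + 2 * r + 1 + D + D) - D - C :=
        max_le (by linarith) (by linarith)
      linarith
  obtain ⟨δ, hδ, I⟩ := inst2 (s2 := s2) (w₀ := w₀) (εo := min εo εo') h hr hrρ hr0 hC ht hm hn hd hdm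
    htau.nrm nom neta hεt
    (lt_min hεo hεo') hεe htau.coc htau.far
    (fun l hl hs => ho1 l hl (hs.mono le_rfl (min_le_left _ _)))
    (fun l hl hs => ho0 l hl (hs.mono le_rfl (min_le_right _ _))) he hD0 hD.join
    (s1 := G + 2 * r + 1 + D) (by linarith) (by linarith) (by linarith) hv₀ hb
  obtain ⟨δ', hδ', I'⟩ := inst2 (s2 := s2) (w₀ := w₀) (εo := min εo εo') h hr hrρ hr0 hC ht hm hn hd
    hdm htau.nrm nom neta'
    hεt (lt_min hεo hεo') hεe' htau.coc htau.far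
    (fun l hl hs => ho1 l hl (hs.mono le_rfl (min_le_left _ _)))
    (fun l hl hs => ho0 l hl (hs.mono le_rfl (min_le_right _ _))) he' hD0 hD.join
    (s1 := G + 2 * r + 1 + D) (by linarith) (by linarith) (by linarith) hv₀ hb
  have hδδ : 0 < min δ δ' := lt_min hδ hδ'
  have m1 : min δ δ' ≤ δ := min_le_left _ _
  have m2 : min δ δ' ≤ δ' := min_le_right _ _
  obtain ⟨z, hzm, hbz, ι, hι, hbι, h1⟩ := hz (min δ δ') hδδ
  obtain ⟨κ, hκ, hbκ⟩ := exists_fine k ht hδδ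
  obtain ⟨g, hg⟩ := I z (Sp_mono (fun l hl => ⟨hl.1, hl.2.mono le_rfl m1⟩) hzm) hbz ι
    (Sp_mono (fun l hl => ⟨hl.1, hl.2.mono le_rfl m1⟩) hι) hbι κ
    (Sp_mono (fun l hl => ⟨hl.1, hl.2.mono le_rfl m1⟩) hκ) hbκ
  obtain ⟨g', hg'⟩ := I' z (Sp_mono (fun l hl => ⟨hl.1, hl.2.mono le_rfl m2⟩) hzm) hbz ι
    (Sp_mono (fun l hl => ⟨hl.1, hl.2.mono le_rfl m2⟩) hι) hbι κ
    (Sp_mono (fun l hl => ⟨hl.1, hl.2.mono le_rfl m2⟩) hκ) hbκ
  have hd0 : ∀ {g : List (ℝ →ᵇ M) → k}, d = 0 → ∀ l, g l = 0 := fun h0 => by omega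
  have key : (d < m ∨ t + 2 * r ≤ c') →
      ExL (P x₂ x₃ t) d fun y => eta (y.map fun q => cat t q v₀) := by
    intro hc
    refine ⟨g, hd0, δ, hδ, fun y hy hs => ?_⟩
    rw [← hg y hy hs, h1, one_mul, if_neg, add_zero]
    rintro ⟨h2, h3⟩
    rcases hc with hc | hc
    · omega
    · linarith
  refine ⟨?_, key⟩
  by_cases hc : d < m ∨ t + 2 * r ≤ c'
  · refine ⟨1, 0, Or.inl one_ne_zero, ?_⟩
    simpa using key hc
  · push Not at hc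
    have hdm' : d = m := le_antisymm hdm hc.1
    by_cases hl : ev (fun l => eta (l.map fun p => cat s2 w₀ p)) z = 0
    · refine ⟨1, 0, Or.inl one_ne_zero, g, hd0, δ, hδ, fun y hy hs => ?_⟩
      rw [← hg y hy hs, h1, if_pos ⟨hdm', hc.2⟩, hl]
      ring
    · refine ⟨ev (fun l => eta' (l.map fun p => cat s2 w₀ p)) z,
        -ev (fun l => eta (l.map fun p => cat s2 w₀ p)) z, Or.inr (neg_ne_zero.2 hl),
        fun y => ev (fun l => eta' (l.map fun p => cat s2 w₀ p)) z * g y +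
          (-ev (fun l => eta (l.map fun p => cat s2 w₀ p)) z) * g' y, hd0, min δ δ', hδδ,
        fun y hy hs => ?_⟩
      rw [dl_add, dl_mul_left, dl_mul_left, ← hg y hy (hs.mono le_rfl m1),
        ← hg' y hy (hs.mono le_rfl m2), h1, if_pos ⟨hdm', hc.2⟩, if_pos ⟨hdm', hc.2⟩]
      ring

section AS

open AS H250

variable {I : Type} [IsEmpty I] {α : I → (ℝ →ᵇ M) → (ℝ →ᵇ M)} {χ : I → k}

/-- **One step, classes.** -/
theorem step_cls (h : LS.UniqSeg M ρ) (hr : 0 < r) (hrρ : r < ρ) (hr0 : r₀ < r)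
    (hC : 0 ≤ C) (ht : 0 ≤ t) (hm : m + 1 = n + b) (hn : 2 ≤ n) (hd : b < d) (hdm : d ≤ m)
    (hεt : 0 < εt) (htau : IsTau n r₀ εt tau) (nom : Nrm om)
    (hom1 : CocL (P x₀ x₃ (C + r + t)) b om)
    (hom0 : ∃ ε > 0, ∀ l : List (ℝ →ᵇ M), l.length = b + 1 → SmL (P x₀ x₃ c') ε l → om l = 0)
    (hz : Det n tau om r x₀ x₁ x₃ m C) (hD : IsPi M D) (hG0 : 0 ≤ G) (hG : C - c' ≤ G)
    {v₀ : ℝ →ᵇ M} (hv₀ : v₀ ∈ P x₃ x₁ (G + 2 * r + 1 + D))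
    (hF : IsMap α α (P x₂ x₃ t) (P x₂ x₁ (t + (G + 2 * r + 1 + D + D))) (catR t v₀))
    (z z' : Ha α χ (P x₂ x₁ (t + (G + 2 * r + 1 + D + D))) d) :
    (∃ a a' : k, (a ≠ 0 ∨ a' ≠ 0) ∧ a • pull χ hF d z + a' • pull χ hF d z' = 0) ∧
    ((d < m ∨ t + 2 * r ≤ c') → pull χ hF d z = 0) := by
  obtain ⟨f, hf, nf, rfl⟩ := exists_cls z
  obtain ⟨f', hf', nf', rfl⟩ := exists_cls z'
  obtain ⟨⟨a, a', ha, h1⟩, h2⟩ := step_list h hr hrρ hr0 hC ht hm hn hd hdm hεt htau nom hom1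
    hom0 hz hD hG0 hG hv₀ nf hf nf' hf'
  constructor
  · refine ⟨a, a', ha, ?_⟩
    rw [pull_cls, pull_cls, cls_smul, cls_smul, cls_add, cls_eq_zero]
    exact h1
  · intro hc
    rw [pull_cls, cls_eq_zero]
    exact h2 hc

end AS

end Vale.Agent.P216.Sl
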