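import Vale.Agent.P216.H977C.Sys

/-!
# P216-C, C13-SIGN (P5): cup products with exact classes, and the classes `W` on loops

`exL_cup_left`: the cup product of an exact cochain with a cocycle is exact.
`exL_cup_rev`: behaviour of a cup product under an isometry.
`W_catR`: `W b j` does not change when a fixed path is appended (on lists).
`W_loop_ne`: the classes `W b j` do not vanish on long loops at the base point.
-/

open Finsupp Set BoundedContinuousFunction

namespace Vale.Agent.P216.Sg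

open Vale.Agent.P216.Sl Vale.Agent.P216.PS Vale.Agent.P216.N929

section

variable {k : Type} [Field k] {α β : Type} [PseudoMetricSpace α] [PseudoMetricSpace β]

theorem exL_add {X : Set α} {m : ℕ} {f g : List α → k} (hf : ExL X m f) (hg : ExL X m g) :
    ExL X m fun l => f l + g l := by
  obtain ⟨s, hs0, ε, hε, hs⟩ := hf
  obtain ⟨s', hs0', ε', hε', hs'⟩ := hg
  refine ⟨fun l => s l + s' l, fun h0 l => by simp only [hs0 h0, hs0' h0, add_zero], min ε ε',
    lt_min hε hε', fun l hl hl' => ?_⟩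
  rw [N929.dl_add_fun, ← hs l hl (hl'.mono le_rfl (min_le_left _ _)),
    ← hs' l hl (hl'.mono le_rfl (min_le_right _ _))]

theorem exL_smul {X : Set α} {m : ℕ} {f : List α → k} (c : k) (hf : ExL X m f) :
    ExL X m fun l => c * f l := by
  obtain ⟨s, hs0, ε, hε, hs⟩ := hf
  refine ⟨fun l => c * s l, fun h0 l => by simp only [hs0 h0, mul_zero], ε, hε, fun l hl hl' => ?_⟩
  rw [N929.dl_smul_fun, ← hs l hl hl']

theorem exL_congr {X : Set α} {m : ℕ} {f g : List α → k} {ε : ℝ} (hε : 0 < ε)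
    (h : ∀ l, l.length = m + 1 → Fine X ε l → f l = g l) (hf : ExL X m f) : ExL X m g := by
  obtain ⟨s, hs0, ε', hε', hs⟩ := hf
  refine ⟨s, hs0, min ε ε', lt_min hε hε', fun l hl hl' => ?_⟩
  rw [← h l hl (Fine.mono hl' le_rfl (min_le_left _ _)),
    hs l hl (hl'.mono le_rfl (min_le_right _ _))]

/-- Pull back of an exact class under a map which does not increase the distances. -/
theorem exL_map {X : Set α} {Y : Set β} {m : ℕ} {f : List β → k} {θ : α → β}
    (h1 : ∀ x ∈ X, θ x ∈ Y) (h2 : ∀ x ∈ X, ∀ y ∈ X, dist (θ x) (θ y) ≤ dist x y)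
    (hf : ExL Y m f) : ExL X m fun l => f (l.map θ) := by
  obtain ⟨s, hs0, ε, hε, hs⟩ := hf
  refine ⟨fun l => s (l.map θ), fun h0 l => hs0 h0 _, ε, hε, fun l hl hl' => ?_⟩
  rw [N929.dl_map]
  refine hs _ (by rw [List.length_map, hl]) ⟨fun y hy => ?_, fun y hy z hz => ?_⟩
  · obtain ⟨x, hx, rfl⟩ := List.mem_map.1 hy
    exact h1 x (hl'.1 x hx)
  · obtain ⟨x, hx, rfl⟩ := List.mem_map.1 hy
    obtain ⟨x', hx', rfl⟩ := List.mem_map.1 hz
    exact (h2 x (hl'.1 x hx) x' (hl'.1 x' hx')).trans_lt (hl'.2 x hx x' hx')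

theorem coc_map {X : Set α} {Y : Set β} {m : ℕ} {ε : ℝ} {f : List β → k} {θ : α → β}
    (h1 : ∀ x ∈ X, θ x ∈ Y) (h2 : ∀ x ∈ X, ∀ y ∈ X, dist (θ x) (θ y) ≤ dist x y)
    (hf : Coc Y ε m f) : Coc X ε m fun l => f (l.map θ) := by
  intro l hl hl'
  rw [N929.dl_map]
  refine hf _ (by rw [List.length_map, hl]) ⟨fun y hy => ?_, fun y hy z hz => ?_⟩
  · obtain ⟨x, hx, rfl⟩ := List.mem_map.1 hy
    exact h1 x (hl'.1 x hx)
  · obtain ⟨x, hx, rfl⟩ := List.mem_map.1 hy
    obtain ⟨x', hx', rfl⟩ := List.mem_map.1 hz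
    exact (h2 x (hl'.1 x hx) x' (hl'.1 x' hx')).trans_lt (hl'.2 x hx x' hx')

/-- The cup product of an exact cochain with a cocycle is exact. -/
theorem exL_cup_left {X : Set α} {ε : ℝ} (hε : 0 < ε) {e m : ℕ} {f g : List α → k} (he : 1 ≤ e)
    (hf : ExL X e f) (hg : Coc X ε m g) : ExL X (m + e) (N929.cup e f g) := by
  obtain ⟨s, -, ε', hε', hs⟩ := hf
  obtain ⟨e, rfl⟩ : ∃ e', e = e' + 1 := ⟨e - 1, by omega⟩
  refine ⟨N929.cup e s g, fun h0 => by omega, min ε ε', lt_min hε hε', fun l hl hl' => ?_⟩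
  have h1 : f (l.take (e + 1 + 1)) = dl s (l.take (e + 1 + 1)) :=
    hs _ (by rw [List.length_take]; omega)
      (SmL.mono (Fine.sub hl' fun x hx => List.mem_of_mem_take hx) le_rfl (min_le_right _ _))
  have h2 : dl g (l.drop e) = 0 :=
    hg _ (by rw [List.length_drop]; omega)
      ((Fine.sub hl' fun x hx => List.mem_of_mem_drop hx).mono le_rfl (min_le_left _ _))
  rw [N929.dl_cup _ _ _ _ (by omega), N929.cup, h1, h2]
  ring

/-- The cup product of two classes under an isometry. -/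
theorem exL_cup_rev {X : Set α} {ε : ℝ} (hε : 0 < ε) {e m : ℕ} {f g : List α → k} {θ : α → α}
    {c : k} (he : 1 ≤ e) (h1 : ∀ x ∈ X, θ x ∈ X)
    (h2 : ∀ x ∈ X, ∀ y ∈ X, dist (θ x) (θ y) ≤ dist x y) (hf : Coc X ε e f) (hg : Coc X ε m g)
    (hf' : ExL X e fun l => f (l.map θ) + f l)
    (hg' : ExL X m fun l => g (l.map θ) - c * g l) :
    ExL X (m + e) fun l => N929.cup e f g (l.map θ) + c * N929.cup e f g l := by
  have a1 := exL_cup_left hε he hf' (coc_map h1 h2 hg)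
  have a2 := exL_smul (-1) (H977C.exL_cup hε he hf hg')
  refine exL_congr one_pos (fun l _ _ => ?_) (exL_add a1 a2)
  simp only [N929.cup, ← List.map_take, ← List.map_drop]
  ring

end

section

variable {k : Type} [Field k] {M : Type} [MetricSpace M] [CompactSpace M]
variable {n e D : ℕ} (G : Geo M n) (τ : Tau k M n G.ρ₁) (E : H977C.Eta k M e) (hD : D + 1 = n + e)

open H977C

/-- **On lists**: `W b j` of a concatenation, when the second paths change less than `n - 1`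
times; any junction `q` and any end point `q'` away from `y (!b)`. -/
theorem W_catg (b : Bool) (j : ℕ) {a q q' : M} {c : ℕ} {s : ℝ} (hs : 0 ≤ s)
    (hq : G.ρ₁ ≤ dist q (G.y (!b))) (hq' : G.ρ₁ ≤ dist q' (G.y (!b)))
    {l : List ((ℝ →ᵇ M) × (ℝ →ᵇ M))} (hl : l.length = j * D + 1)
    (hm : ∀ x ∈ l, x.1 ∈ P a q c ∧ x.2 ∈ P q q' s) (hc : chg (l.map Prod.snd) + 1 < n) :
    W G τ E hD b j (l.map (catc c)) = W G τ E hD b j (l.map Prod.fst) := by
  rcases j with _ | j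
  · rw [W_zero, one1, one1, List.length_map, List.length_map]
  have hne : l ≠ [] := by rintro rfl; simp at hl
  obtain ⟨N, hN, hW⟩ := W_succ G τ E hD b j
  have hN0 : (0 : ℝ) < (N : ℝ) + 1 := by positivity
  have hδ0 : (0 : ℝ) < 1 / ((N : ℝ) + 1) := by positivity
  rw [hW, stp_eq (T := c + s) (x₀ := a) (y' := q') (N := c * (N + 1) + ⌈s⌉₊ * (N + 1)) τ hq' hδ0 ?_
      (by simpa using hne) ?_,
    stp_eq (T := c) (x₀ := a) (y' := q) (N := c * (N + 1)) τ hq hδ0 ?_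
      (by simpa using hne) ?_, fib_mesh, fib_mesh, Finset.sum_range_add]
  rotate_left
  · push_cast
    rw [mul_one_div, mul_div_assoc, div_self hN0.ne', mul_one]
  · intro w hw
    obtain ⟨x, hx, rfl⟩ := List.mem_map.1 hw
    exact (hm x hx).1
  · have := Nat.le_ceil s
    push_cast
    rw [← add_mul, mul_assoc, mul_one_div, div_self hN0.ne', mul_one]
    linarith
  · intro w hw
    obtain ⟨x, hx, rfl⟩ := List.mem_map.1 hw
    exact cat_mem (Nat.cast_nonneg c) hs (hm x hx).1 (hm x hx).2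
  set δ : ℝ := 1 / ((N : ℝ) + 1) with hδ
  have hcδ : ((c * (N + 1) : ℕ) : ℝ) * δ = c := by
    rw [hδ]
    push_cast
    rw [mul_one_div, mul_div_assoc, div_self hN0.ne', mul_one]
  have key0 : ∀ (i : ℕ) (L : List (((ℝ →ᵇ M) × (ℝ →ᵇ M)) × ℝ)),
      Gr l [(i : ℝ) * δ, ((i + 1 : ℕ) : ℝ) * δ] L → ∀ p ∈ L, p.1 ∈ l ∧
        ((i : ℝ) * δ ≤ p.2 ∧ p.2 ≤ ((i + 1 : ℕ) : ℝ) * δ) := by
    intro i L hL p hp
    refine ⟨(hL.2 p hp).1, ?_⟩
    have := (hL.2 p hp).2
    have h2 : (i : ℝ) * δ ≤ ((i + 1 : ℕ) : ℝ) * δ := by push_cast; nlinarith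
    simp only [List.mem_cons, List.not_mem_nil, or_false] at this
    rcases this with h | h <;> rw [h]
    · exact ⟨le_rfl, h2⟩
    · exact ⟨h2, le_rfl⟩
  have hmem : ∀ i : ℕ, edge k δ i ∈ Sp k (fun t => t = [(i : ℝ) * δ, ((i + 1 : ℕ) : ℝ) * δ]) :=
    fun i => single_mem (P := fun t => t = [(i : ℝ) * δ, ((i + 1 : ℕ) : ℝ) * δ]) rfl 1
  have hz : ∀ i ∈ Finset.range (⌈s⌉₊ * (N + 1)),
      N929.fib (edge k δ (c * (N + 1) + i)) (intg n τ.f (A G τ E hD (!b) j) G.r (G.y (!b)))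
        (l.map (catc c)) = 0 := by
    intro i _
    rw [fib_map, N929.fib]
    refine ev_zero_of (fun L hL => ?_) (sh_chg_mem (k := k) Prod.snd l (hmem _))
    obtain ⟨t, rfl, hG, hch⟩ := hL
    rw [intg_eq']
    have e1 : (L.map (Prod.map (catc (c : ℝ)) id)).map (evp (G.y (!b))) =
        (L.map (Prod.map Prod.snd id)).map fun q : (ℝ →ᵇ M) × ℝ =>
          ((q.1 (q.2 - c) : M), G.y (!b)) := by
      rw [List.map_map, List.map_map]
      refine List.map_congr_left fun p hp => ?_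
      obtain ⟨h1, h2, h3⟩ := key0 _ L hG p hp
      have h4 : (c : ℝ) ≤ p.2 := by
        refine le_trans ?_ h2
        rw [← hcδ]
        exact mul_le_mul_of_nonneg_right (by push_cast; linarith [(Nat.cast_nonneg i : (0 : ℝ) ≤ i)])
          hδ0.le
      exact congrArg (fun m => (m, G.y (!b))) (catc_right (hm _ h1).1 (hm _ h1).2 h4)
    have hlen : n + 1 ≤ L.length := by
      have h5 := hG.1
      have h6 := deg_succ hD j
      simp only [List.length_cons, List.length_nil] at h5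
      omega
    have h7 : τ.f (((L.map (Prod.map (catc (c : ℝ)) id)).map (evp (G.y (!b)))).take (n + 1)) =
        0 := by
      refine Nrm_zero τ.nrm ?_
      rw [List.length_take, List.length_map, List.length_map, min_eq_left hlen, e1]
      have h8 := chg_take (n + 1) ((L.map (Prod.map Prod.snd id)).map
        fun q : (ℝ →ᵇ M) × ℝ => ((q.1 (q.2 - c) : M), G.y (!b)))
      have h9 := chg_map (fun q : (ℝ →ᵇ M) × ℝ => ((q.1 (q.2 - c) : M), G.y (!b)))
        (L.map (Prod.map Prod.snd id))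
      have h10 := chg_le_length [((c * (N + 1) + i : ℕ) : ℝ) * δ,
        ((c * (N + 1) + i + 1 : ℕ) : ℝ) * δ]
      simp only [List.length_cons, List.length_nil] at h10
      omega
    rw [h7, zero_mul]
  rw [Finset.sum_eq_zero hz, add_zero]
  refine Finset.sum_congr rfl fun i hi => ?_
  rw [fib_map, fib_map]
  refine fib_congr (hmem i) fun t ht L hL => ?_
  subst ht
  have hi' : ((i + 1 : ℕ) : ℝ) * δ ≤ c := by
    rw [← hcδ]
    exact mul_le_mul_of_nonneg_right (by exact_mod_cast Finset.mem_range.1 hi) hδ0.le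
  rw [intg_eq', intg_eq', List.map_map, List.map_map, List.map_map, List.map_map]
  have e1 : L.map (evp (G.y (!b)) ∘ Prod.map (catc (c : ℝ)) id) =
      L.map (evp (G.y (!b)) ∘ Prod.map Prod.fst id) :=
    List.map_congr_left fun p hp => by
      obtain ⟨h1, h2, h3⟩ := key0 _ L hL p hp
      exact evp_left (hm _ h1).1 (hm _ h1).2 (h3.trans hi')
  have e2 : L.map (cutp G.r (G.y (!b)) ∘ Prod.map (catc (c : ℝ)) id) =
      L.map (cutp G.r (G.y (!b)) ∘ Prod.map Prod.fst id) :=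
    List.map_congr_left fun p hp => by
      obtain ⟨h1, h2, h3⟩ := key0 _ L hL p hp
      exact cutp_left G.hr (hm _ h1).1 (hm _ h1).2 (h3.trans hi')
  rw [e1, e2]

/-- Appending a fixed path does not change `W b j`. -/
theorem W_catR (b : Bool) (j : ℕ) {a q q' : M} {c : ℕ} {s : ℝ} (hs : 0 ≤ s)
    (hq : G.ρ₁ ≤ dist q (G.y (!b))) (hq' : G.ρ₁ ≤ dist q' (G.y (!b))) {v : ℝ →ᵇ M}
    (hv : v ∈ P q q' s) {l : List (ℝ →ᵇ M)} (hl : l.length = j * D + 1)
    (hm : ∀ w ∈ l, w ∈ P a q c) :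
    W G τ E hD b j (l.map fun w => cat c w v) = W G τ E hD b j l := by
  have h := W_catg G τ E hD b j hs hq hq' (l := l.map fun w => (w, v)) (a := a) (c := c)
    (by rw [List.length_map, hl]) (fun x hx => by
      obtain ⟨w, hw, rfl⟩ := List.mem_map.1 hx
      exact ⟨hm w hw, hv⟩) (by
      have hn := G.hn
      have h4 : ∀ N, chg (List.replicate N v) = 0 := by
        intro N
        induction N with
        | zero => simp
        | succ N ih =>
          rcases N with _ | N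
          · simp
          · rw [List.replicate_succ, List.replicate_succ, chg_eq, ← List.replicate_succ, ih]
      rw [List.map_map, show (Prod.snd ∘ fun w : ℝ →ᵇ M => (w, v)) = fun _ => v from rfl,
        List.map_const', h4]
      omega)
  rw [List.map_map, List.map_map] at h
  have e1 : l.map (Prod.fst ∘ fun w : ℝ →ᵇ M => (w, v)) = l := by
    conv_rhs => rw [← List.map_id l]
    rfl
  rw [e1] at h
  exact h

/-- `W b j` on the paths from `x₀` to `y b`: non-zero for long durations. -/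
theorem W_end_ne (hE : AddE E.f) (he : 1 ≤ e) (hen : e + 1 < n) {s t₀ : ℝ} {ℓ : ℕ} (hs : 0 ≤ s)
    (ht₀ : 0 ≤ t₀) (hv : ∀ b, ∃ v : ℝ →ᵇ M, v ∈ P (G.y (!b)) (G.y b) ℓ)
    (h₀ : ∀ b, ∃ v : ℝ →ᵇ M, v ∈ P G.x₀ (G.y b) t₀) (hmid : Mid (D := D) G τ E s) :
    ∀ (j : ℕ) (b : Bool), ¬ ExL (P G.x₀ (G.y b) (t₀ + j * (1 + ℓ + s))) (j * D)
      (W G τ E hD b j) := by
  intro j
  induction j with
  | zero =>
    intro b h
    obtain ⟨v, hv⟩ := h₀ b
    rw [Nat.zero_mul] at h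
    have h1 := exL_zero h (x := v) (P_mono (by simp) hv)
    rw [W_zero, one1, List.length_singleton, if_pos rfl] at h1
    exact one_ne_zero h1
  | succ j ih =>
    intro b h
    obtain ⟨v, hv⟩ := hv b
    have hℓ : (0 : ℝ) ≤ ℓ := Nat.cast_nonneg ℓ
    have hj : (0 : ℝ) ≤ j := Nat.cast_nonneg j
    refine W_up G τ E hD hE he hen b j (t := t₀ + j * (1 + ℓ + s)) (by positivity) hs hv hmid
      (ih (!b)) (h.mono (P_mono (le_of_eq ?_)))
    push_cast
    ring

/-- `W b j` on the loops at `x₀`: non-zero for long durations. -/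
theorem W_loop_ne (hE : AddE E.f) (he : 1 ≤ e) (hen : e + 1 < n) {s t₀ : ℝ} {ℓ : ℕ} (hs : 0 ≤ s)
    (ht₀ : 0 ≤ t₀) (hv : ∀ b, ∃ v : ℝ →ᵇ M, v ∈ P (G.y (!b)) (G.y b) ℓ)
    (h₀ : ∀ b, ∃ v : ℝ →ᵇ M, v ∈ P G.x₀ (G.y b) t₀)
    (h₁ : ∀ b, ∃ v : ℝ →ᵇ M, v ∈ P (G.y b) G.x₀ t₀) (hmid : Mid (D := D) G τ E s) (j : ℕ)
    (b : Bool) {t : ℝ} (ht : 2 * t₀ + j * (1 + ℓ + s) + 1 ≤ t) :
    ¬ ExL (P G.x₀ G.x₀ t) (j * D) (W G τ E hD b j) := by
  intro h
  have hℓ : (0 : ℝ) ≤ ℓ := Nat.cast_nonneg ℓ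
  have hj : (0 : ℝ) ≤ j := Nat.cast_nonneg j
  have hT : 0 ≤ t₀ + j * (1 + ℓ + s) := by positivity
  refine W_end_ne G τ E hD hE he hen hs ht₀ hv h₀ hmid j b ?_
  obtain ⟨v, hv⟩ := h₁ b
  set c : ℕ := ⌈t₀ + j * (1 + ℓ + s)⌉₊ with hc
  have hc1 : t₀ + j * (1 + ℓ + s) ≤ c := Nat.le_ceil _
  have hc2 : (c : ℝ) ≤ t₀ + j * (1 + ℓ + s) + 1 := (Nat.ceil_lt_add_one hT).le
  refine ExL.mono ?_ (P_mono hc1)
  have hjn : ∀ w ∈ P G.x₀ (G.y b) (c : ℝ), w c = v 0 := fun w hw => by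
    rw [eq_right hw le_rfl, eq_left hv le_rfl]
  refine exL_congr one_pos (fun l hl hl' => ?_) (exL_map (θ := fun w => cat c w v)
    (X := P G.x₀ (G.y b) (c : ℝ)) (Y := P G.x₀ G.x₀ t) (fun w hw => ?_)
    (fun w hw w' hw' => ?_) h)
  · exact W_catR G τ E hD b j (a := G.x₀) ht₀ (G.hy b) (G.hx _) hv hl hl'.1
  · exact P_mono (by linarith) (cat_mem (Nat.cast_nonneg c) ht₀ hw hv)
  · refine (dist_cat_cat_le hw.1 hw'.1 hv.1 hv.1 (hjn w hw) (hjn w' hw')).trans ?_
    rw [dist_self]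
    exact max_le le_rfl dist_nonneg
end

end Vale.Agent.P216.Sg
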