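import Vale.Agent.P216.B64.Contract

/-!
# P216-C: the stable cohomology of the based loops, contract

`q = d - 1` (degree of `eta`), `N = (h + 1) d - 2` (degree of `W 1`).
-/

open Set Topology BoundedContinuousFunction

namespace Vale.Agent.P216.B64

open AS

/-- The stable cohomology of the based Moore loops `P x₀ x₀ t` is spanned by classes `W j` of
degree `j * N` and `A j` of degree `j * N + q`, with the constant `B` (independent of the field).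
Births: `W j ≤ A j + B`, `A j ≤ W (j + 1) + B`, `W (j + 1) ≤ W j + B`. -/
structure OmegaOutC (M : Type) [MetricSpace M] (q N : ℕ) (x₀ : M) (B : ℝ) (k : Type) [Field k]
    where
  W : ∀ (j : ℕ) (t : ℝ), HU k (PS.P x₀ x₀ t) (j * N)
  A : ∀ (j : ℕ) (t : ℝ), HU k (PS.P x₀ x₀ t) (j * N + q)
  res_W : ∀ j s t (h : s ≤ t), hres k (PS.P_mono h) (j * N) (W j t) = W j s
  res_A : ∀ j s t (h : s ≤ t), hres k (PS.P_mono h) (j * N + q) (A j t) = A j s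
  spanW : ∀ j t, 0 ≤ t → ∀ (h : PS.P x₀ x₀ t ⊆ PS.P x₀ x₀ (t + B))
    (z : HU k (PS.P x₀ x₀ (t + B)) (j * N)), ∃ c : k, hres k h (j * N) z = c • W j t
  spanA : ∀ j t, 0 ≤ t → ∀ (h : PS.P x₀ x₀ t ⊆ PS.P x₀ x₀ (t + B))
    (z : HU k (PS.P x₀ x₀ (t + B)) (j * N + q)), ∃ c : k, hres k h (j * N + q) z = c • A j t
  zero : ∀ d, (∀ j, d ≠ j * N) → (∀ j, d ≠ j * N + q) → ∀ t, 0 ≤ t →
    ∀ (h : PS.P x₀ x₀ t ⊆ PS.P x₀ x₀ (t + B)) (z : HU k (PS.P x₀ x₀ (t + B)) d),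
    hres k h d z = 0
  W_ne : ∀ t, 0 ≤ t → W 0 t ≠ 0
  b1 : ∀ j t, 0 ≤ t → A j t ≠ 0 → W j (t + B) ≠ 0
  b2 : ∀ j t, 0 ≤ t → W (j + 1) t ≠ 0 → A j (t + B) ≠ 0
  b3 : ∀ j t, 0 ≤ t → W j t ≠ 0 → W (j + 1) (t + B) ≠ 0

end Vale.Agent.P216.B64
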