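import Vale.Agent.P216.H787.COmega
import Vale.Agent.P216.C313.Low

/-!
# P216-C: `LowL`, `LowZ` from `LowC`, and `OmegaOutC` from `OmSysC` and `LowC`
-/

open Set Finsupp Topology BoundedContinuousFunction

namespace Vale.Agent.P216.Sl

open PS Sg AS

variable {k : Type} [Field k] {M : Type} [MetricSpace M] {q : ℕ} {B0 : ℝ}

theorem lowL_of (hL : C313.LowC M q B0) (hB0 : 0 ≤ B0) (h2 : (2 : k) ≠ 0) {j : ℕ} (hj : 0 < j)
    (hjq : j ≤ q) : LowL k M B0 j := by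
  intro a b t ht f f' nf nf' hf hf'
  have hX : P a b t ⊆ P a b (t + B0) := P_mono (by linarith)
  obtain ⟨c, c', hc, h1⟩ := (hL k h2 a b t ht hX j hj hjq).1
    (cls (B64.a0 _) (B64.c0 k) f hf) (cls (B64.a0 _) (B64.c0 k) f' hf')
  refine ⟨c, c', hc, ?_⟩
  rw [B64.hres, cls_smul, cls_smul, cls_add, res_cls, cls_eq_zero] at h1
  exact h1

theorem lowZ_of (hL : C313.LowC M q B0) (hB0 : 0 ≤ B0) (h2 : (2 : k) ≠ 0) {j : ℕ} (hj : 0 < j)
    (hjq : j < q) : LowZ k M B0 j := by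
  intro a b t ht f nf hf
  have hX : P a b t ⊆ P a b (t + B0) := P_mono (by linarith)
  have h1 := (hL k h2 a b t ht hX j hj hjq.le).2 hjq (cls (B64.a0 _) (B64.c0 k) f hf)
  rw [B64.hres, res_cls, cls_eq_zero] at h1
  exact h1

/-- **OMEGA of P216-C**: from the classes `OmSysC` and the low degrees `LowC`. -/
noncomputable def OmSysC.out [CompactSpace M] {n N : ℕ} {r Ca ρ r₀ εt D : ℝ} {x₀ : M}
    {tau : List (M × M) → k} (S : OmSysC k M n q N r Ca x₀ tau) (h : LS.UniqSeg M ρ)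
    (hr : 0 < r) (hrρ : r < ρ) (hr0 : r₀ < r) (hεt : 0 < εt) (htau : IsTau n r₀ εt tau)
    (hD : IsPi M D) (hCa : 0 ≤ Ca) (hn : 2 ≤ n) (hN : N + 1 = n + q) (hq : 1 ≤ q)
    (hB0 : 0 ≤ B0) (hL : C313.LowC M q B0) (h2 : (2 : k) ≠ 0) :
    B64.OmegaOutC M q N x₀ (OmSysC.BC r Ca D B0) k :=
  S.omegaOutC h hr hrρ hr0 hεt htau hD hCa hn hN hq hB0
    (fun _ hi hiq => lowL_of hL hB0 h2 hi hiq) fun _ hi hiq => lowZ_of hL hB0 h2 hi hiq

end Vale.Agent.P216.Sl
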