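import Vale.Agent.P216.H787.CRed

/-!
# P216-C: one step of the crossing-swap argument in the degrees `m + j`, `1 ≤ j`
-/

open Set Finsupp Topology BoundedContinuousFunction

namespace Vale.Agent.P216.Sl

open PS Sg

variable {k : Type} [Field k] {M : Type} [MetricSpace M] [CompactSpace M]
variable {x₀ x₁ x₂ x₃ : M} {C t r ρ r₀ c' εt D G B0 s L : ℝ} {n b m d j : ℕ}
variable {tau : List (M × M) → k} {om eta eta' : List (ℝ →ᵇ M) → k}

/-- The images of the restrictions in degree `j` are lines. -/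
def LowL (k : Type) [Field k] (M : Type) [MetricSpace M] (B0 : ℝ) (j : ℕ) : Prop :=
  ∀ (a b : M) (t : ℝ), 0 ≤ t → ∀ f f' : List (ℝ →ᵇ M) → k, Nrm f → Nrm f' →
    CocL (P a b (t + B0)) j f → CocL (P a b (t + B0)) j f' →
    ∃ c c' : k, (c ≠ 0 ∨ c' ≠ 0) ∧ ExL (P a b t) j fun l => c * f l + c' * f' l

/-- The images of the restrictions in degree `j` are zero. -/
def LowZ (k : Type) [Field k] (M : Type) [MetricSpace M] (B0 : ℝ) (j : ℕ) : Prop :=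
  ∀ (a b : M) (t : ℝ), 0 ≤ t → ∀ f : List (ℝ →ᵇ M) → k, Nrm f →
    CocL (P a b (t + B0)) j f → ExL (P a b t) j f

theorem fibL_cup_lin {α β : Type} (N : ℕ) (f g g' : List (α × β) → k) (κ : Ch k α) (y : List β)
    (a a' : k) : fibL (cup N f fun l => a * g l + a' * g' l) κ y =
      a * fibL (cup N f g) κ y + a' * fibL (cup N f g') κ y := by
  rw [fibL, fibL, fibL, ← ev_smul_fun, ← ev_smul_fun, ← ev_add_fun]
  congr 2
  funext l
  rw [cup, cup, cup]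
  ring

theorem fibL_cup_zero {α β : Type} (N : ℕ) (f : List (α × β) → k) (κ : Ch k α) (y : List β) :
    fibL (cup N f fun _ => 0) κ y = 0 := by
  have : (cup N f fun _ => 0) = fun _ => (0 : k) := by
    funext l
    rw [cup, mul_zero]
  rw [fibL, this, ev_zero_fun]

/-- The common part of the two conclusions of `step_listC`. -/
theorem core (h : LS.UniqSeg M ρ) (hr : 0 < r) (hrρ : r < ρ) (hr0 : r₀ < r)
    (hC : 0 ≤ C) (ht : 0 ≤ t) (hm : m + 1 = n + b) (hn : 2 ≤ n) (hj : 1 ≤ j) (hd : d = m + j)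
    (hbd : b < d) (hεt : 0 < εt) (htau : IsTau n r₀ εt tau) (nom : Nrm om)
    (hom1 : CocL (P x₀ x₃ (C + r + t)) b om)
    (hom0 : ∃ ε > 0, ∀ l : List (ℝ →ᵇ M), l.length = b + 1 → SmL (P x₀ x₃ c') ε l → om l = 0)
    (hD : IsPi M D) (hG : C - c' ≤ G) (hG0 : 0 ≤ G) (hB0 : 0 ≤ B0)
    (hL1 : G + 2 * r + 1 + D + D ≤ L)
    (hL2 : G + 2 * r + 1 + B0 ≤ L) (hs : s = t + 2 * r - c' + 1) (hct : c' < t + 2 * r)
    {v₀ : ℝ →ᵇ M} (hv₀ : v₀ ∈ P x₃ x₁ (G + 2 * r + 1 + D))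
    (neta : Nrm eta) (heta : CocL (P x₂ x₁ (t + L)) d eta)
    (neta' : Nrm eta') (heta' : CocL (P x₂ x₁ (t + L)) d eta') :
    ∃ δ > 0, ∀ z : Ch k (ℝ →ᵇ M),
      z ∈ Sp k (fun l => l.length = m + 1 ∧ SmL (P x₀ x₁ C) δ l) → bd z = 0 →
      ∀ ι : Ch k ℝ, ι ∈ Sp k (fun l => l.length = 2 ∧ SmL (Icc 0 C) δ l) →
      bd ι = single [C] 1 - single [0] 1 → ev (aL n tau om r x₃) (sh z ι) = 1 →
      CocL (P x₂ x₀ (s + B0)) j (A1 eta (s + B0) z) ∧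
      CocL (P x₂ x₀ (s + B0)) j (A1 eta' (s + B0) z) ∧
      ∀ a a' : k, ExL (P x₂ x₀ s) j (fun l => a * A1 eta (s + B0) z l +
        a' * A1 eta' (s + B0) z l) → ExL (P x₂ x₃ t) d
        fun y => a * eta (y.map fun q => cat t q v₀) + a' * eta' (y.map fun q => cat t q v₀) := by
  obtain ⟨εo, hεo, ho1⟩ := hom1
  obtain ⟨εo', hεo', ho0⟩ := hom0
  obtain ⟨εe, hεe, he⟩ := heta
  obtain ⟨εe', hεe', he'⟩ := heta'
  have hD0 := hD.nonneg
  have hs0 : 0 ≤ s := by linarith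
  have hoo : 0 < min εo εo' := lt_min hεo hεo'
  have ho1' : ∀ l : List (ℝ →ᵇ M), l.length = b + 2 → SmL (P x₀ x₃ (C + r + t)) (min εo εo') l →
      dl om l = 0 := fun l hl hs => ho1 l hl (hs.mono le_rfl (min_le_left _ _))
  have ho0' : ∀ l : List (ℝ →ᵇ M), l.length = b + 1 → SmL (P x₀ x₃ c') (min εo εo') l →
      om l = 0 := fun l hl hs => ho0 l hl (hs.mono le_rfl (min_le_right _ _))
  obtain ⟨δ1, hδ1, I⟩ := instC (d := d) (εo := min εo εo') (s1 := G + 2 * r + 1 + D) h hr hrρ hr0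
    hC ht hm hn hbd (by omega) htau.nrm nom neta hεt hoo hεe htau.coc htau.far ho1' ho0' he hD0
    hD.join (by linarith) (by linarith) (by linarith) hv₀
  obtain ⟨δ2, hδ2, I'⟩ := instC (d := d) (εo := min εo εo') (s1 := G + 2 * r + 1 + D) h hr hrρ hr0
    hC ht hm hn hbd (by omega) htau.nrm nom neta' hεt hoo hεe' htau.coc htau.far ho1' ho0' he' hD0
    hD.join (by linarith) (by linarith) (by linarith) hv₀
  have hsC : s + B0 + C ≤ t + L := by linarith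
  have he2 : ∀ l : List (ℝ →ᵇ M), l.length = d + 2 → SmL (P x₂ x₁ (s + B0 + C)) εe l →
      dl eta l = 0 := fun l hl hS => he l hl (hS.mono (P_mono hsC) le_rfl)
  have he2' : ∀ l : List (ℝ →ᵇ M), l.length = d + 2 → SmL (P x₂ x₁ (s + B0 + C)) εe' l →
      dl eta' l = 0 := fun l hl hS => he' l hl (hS.mono (P_mono hsC) le_rfl)
  obtain ⟨δ3, hδ3, J⟩ := A0_A1 (x₀ := x₀) (x₃ := x₃) (t := t) (s₂ := s + B0) h hr hrρ hd hj hs0
    (by linarith) hC hεe he2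
  obtain ⟨δ4, hδ4, J'⟩ := A0_A1 (x₀ := x₀) (x₃ := x₃) (t := t) (s₂ := s + B0) h hr hrρ hd hj hs0
    (by linarith) hC hεe' he2'
  obtain ⟨δ5, hδ5, hcut⟩ := exists_Ucut (x₀ := x₀) (x₂ := x₂) (x₃ := x₃) h hr hrρ ht hoo
  obtain ⟨δ, hδ, a1, a2, a3, a4, a5, a6, a7⟩ := exists_delta (g2 := min (min δ1 δ2) (min δ3 δ4))
    (g3 := min δ5 (min εe εe')) (g4 := 1) (g5 := 1) (g6 := 1) hεt (sub_pos.2 hr0)
    (lt_min (lt_min hδ1 hδ2) (lt_min hδ3 hδ4)) (lt_min hδ5 (lt_min hεe hεe')) one_pos one_pos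
    one_pos
  have d1 : δ ≤ δ1 := a3.trans ((min_le_left _ _).trans (min_le_left _ _))
  have d2 : δ ≤ δ2 := a3.trans ((min_le_left _ _).trans (min_le_right _ _))
  have d3 : δ ≤ δ3 := a3.trans ((min_le_right _ _).trans (min_le_left _ _))
  have d4 : δ ≤ δ4 := a3.trans ((min_le_right _ _).trans (min_le_right _ _))
  have d5 : δ ≤ δ5 := a4.trans (min_le_left _ _)
  have d6 : δ ≤ εe := a4.trans ((min_le_right _ _).trans (min_le_left _ _))
  have d7 : δ ≤ εe' := a4.trans ((min_le_right _ _).trans (min_le_right _ _))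
  refine ⟨δ, hδ, fun z hz hbz ι hι hbι h1 => ⟨?_, ?_, fun a a' hE => ?_⟩⟩
  · exact coc_A1 (x₁ := x₁) hd (by linarith) hC hεe he2
      (Sp_mono (fun l hl => ⟨hl.1, hl.2.mono le_rfl d6⟩) hz) hbz
  · exact coc_A1 (x₁ := x₁) hd (by linarith) hC hεe' he2'
      (Sp_mono (fun l hl => ⟨hl.1, hl.2.mono le_rfl d7⟩) hz) hbz
  obtain ⟨g3, -, ε3, hε3, hg3⟩ := hE
  obtain ⟨δ6, hδ6, hw⟩ := uc_of_continuousOn (isCompact_Dw (x₀ := x₀) (x₂ := x₂) (x₃ := x₃)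
    (t := t) (r := r) (s := s)) (continuousOn_wL h hr hrρ hs0) hε3
  have hδδ : 0 < min δ δ6 := lt_min hδ hδ6
  have m1 : min δ δ6 ≤ δ := min_le_left _ _
  have m2 : min δ δ6 ≤ δ6 := min_le_right _ _
  obtain ⟨κ, hκ, hbκ⟩ := exists_fine k ht hδδ
  obtain ⟨g4, hg4⟩ := J δ hδ d3 z hz hbz
  obtain ⟨g5, hg5⟩ := J' δ hδ d4 z hz hbz
  have hz1 : z ∈ Sp k (fun l => l.length = m + 1 ∧ SmL (P x₀ x₁ C) δ1 l) :=
    Sp_mono (fun l hl => ⟨hl.1, hl.2.mono le_rfl d1⟩) hz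
  have hz2 : z ∈ Sp k (fun l => l.length = m + 1 ∧ SmL (P x₀ x₁ C) δ2 l) :=
    Sp_mono (fun l hl => ⟨hl.1, hl.2.mono le_rfl d2⟩) hz
  obtain ⟨g, hg⟩ := I z hz1 hbz ι (Sp_mono (fun l hl => ⟨hl.1, hl.2.mono le_rfl d1⟩) hι) hbι κ
    (Sp_mono (fun l hl => ⟨hl.1, hl.2.mono le_rfl (m1.trans d1)⟩) hκ) hbκ
  obtain ⟨g', hg'⟩ := I' z hz2 hbz ι (Sp_mono (fun l hl => ⟨hl.1, hl.2.mono le_rfl d2⟩) hι) hbι κ
    (Sp_mono (fun l hl => ⟨hl.1, hl.2.mono le_rfl (m1.trans d2)⟩) hκ) hbκ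
  obtain ⟨g6, hg6⟩ := red (n := n) (b := b) (j := j) (δ := min δ δ6) (s := s) (c' := c')
    (tau := tau) (om := om) (εt := εt) (εo := min εo εo') (r₀ := r₀) (x₀ := x₀) (x₂ := x₂)
    (x₃ := x₃) h hr hrρ (by omega) htau.nrm (by linarith) (by linarith) htau.coc htau.far
    (fun l hl hS => ho1' l hl (hS.mono (P_mono (by linarith)) le_rfl)) ho0'
    (fun x hx x' hx' e1 e2 e3 => hcut x hx x' hx' e1 e2 (e3.trans_le (m1.trans d5)))
    (by linarith) hj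
    (g1 := fun l => a * A0 eta r z l + a' * A0 eta' r z l) (g2 := fun _ => 0)
    (g3 := fun l => (a * g4 l + a' * g5 l) + g3 (l.map (wL r x₀)))
    (fun β hβ hβS => by
      have e1 := hg4 β hβ (hβS.mono le_rfl m1)
      have e2 := hg5 β hβ (hβS.mono le_rfl m1)
      have e3 := hg3 (β.map (wL r x₀)) (by rw [List.length_map, hβ])
        (SmL_map (fun x hx => wL_mem h hr hrρ (hβS.1 x hx)) fun x hx x' hx' =>
          hw x (hβS.1 x hx) x' (hβS.1 x' hx') ((hβS.2 x hx x' hx').trans_le m2))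
      have e4 : dl (fun l : List (ℝ × (ℝ →ᵇ M)) => g3 (l.map (wL r x₀))) β =
          dl g3 (β.map (wL r x₀)) := dl_map _ _ _
      rw [dl_add, dl_add, dl_mul_left, dl_mul_left, e4, ← e3, ← e1, ← e2]
      ring) hκ hbκ
  refine ⟨fun y => (a * g y + a' * g' y) + (-1) * g6 y, fun h0 => by omega, min δ δ6, hδδ,
    fun y hy hyS => ?_⟩
  have f1 := hg y hy (hyS.mono le_rfl (m1.trans d1))
  have f2 := hg' y hy (hyS.mono le_rfl (m1.trans d2))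
  have f3 := hg6 y (by omega) hyS
  rw [fibL_cup_zero, fibL_cup_lin, sub_zero] at f3
  rw [dl_add, dl_add, dl_mul_left, dl_mul_left, dl_mul_left, ← f1, ← f2, ← f3, h1]
  ring

/-- **One step in degree `m + j`, list level.** -/
theorem step_listC (h : LS.UniqSeg M ρ) (hr : 0 < r) (hrρ : r < ρ) (hr0 : r₀ < r)
    (hC : 0 ≤ C) (ht : 0 ≤ t) (hm : m + 1 = n + b) (hn : 2 ≤ n) (hj : 1 ≤ j) (hd : d = m + j)
    (hbd : b < d) (hεt : 0 < εt) (htau : IsTau n r₀ εt tau) (nom : Nrm om)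
    (hom1 : CocL (P x₀ x₃ (C + r + t)) b om)
    (hom0 : ∃ ε > 0, ∀ l : List (ℝ →ᵇ M), l.length = b + 1 → SmL (P x₀ x₃ c') ε l → om l = 0)
    (hz : Det n tau om r x₀ x₁ x₃ m C)
    (hD : IsPi M D) (hG : C - c' ≤ G) (hG0 : 0 ≤ G) (hB0 : 0 ≤ B0)
    (hL1 : G + 2 * r + 1 + D + D ≤ L) (hL2 : G + 2 * r + 1 + B0 ≤ L)
    {v₀ : ℝ →ᵇ M} (hv₀ : v₀ ∈ P x₃ x₁ (G + 2 * r + 1 + D))
    (neta : Nrm eta) (heta : CocL (P x₂ x₁ (t + L)) d eta)
    (neta' : Nrm eta') (heta' : CocL (P x₂ x₁ (t + L)) d eta') (hlow : LowL k M B0 j) :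
    (∃ a a' : k, (a ≠ 0 ∨ a' ≠ 0) ∧ ExL (P x₂ x₃ t) d
      fun y => a * eta (y.map fun q => cat t q v₀) + a' * eta' (y.map fun q => cat t q v₀)) ∧
    ((LowZ k M B0 j ∨ t + 2 * r ≤ c') →
      ExL (P x₂ x₃ t) d fun y => eta (y.map fun q => cat t q v₀)) := by
  have hD0 := hD.nonneg
  by_cases hct : c' < t + 2 * r
  · have hs0 : 0 ≤ t + 2 * r - c' + 1 := by linarith
    obtain ⟨δ, hδ, K⟩ := core (s := t + 2 * r - c' + 1) h hr hrρ hr0 hC ht hm hn hj hd hbd hεt htau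
      nom hom1 hom0 hD hG hG0 hB0 hL1 hL2 rfl hct hv₀ neta heta neta' heta'
    obtain ⟨z, hzm, hbz, ι, hι, hbι, h1⟩ := hz δ hδ
    obtain ⟨k1, k2, k3⟩ := K z hzm hbz ι hι hbι h1
    constructor
    · obtain ⟨a, a', ha, hE⟩ := hlow x₂ x₀ _ hs0 _ _ (nrm_A1 neta z) (nrm_A1 neta' z) k1 k2
      exact ⟨a, a', ha, k3 a a' hE⟩
    · rintro (hZ | hc)
      · have hE := hZ x₂ x₀ _ hs0 _ (nrm_A1 neta z) k1
        have := k3 1 0 (by simpa using hE)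
        simpa using this
      · exact absurd hct (not_lt.2 hc)
  · -- no edge
    push Not at hct
    have key : ExL (P x₂ x₃ t) d fun y => eta (y.map fun q => cat t q v₀) := by
      obtain ⟨εo, hεo, ho1⟩ := hom1
      obtain ⟨εo', hεo', ho0⟩ := hom0
      obtain ⟨εe, hεe, he⟩ := heta
      have hoo : 0 < min εo εo' := lt_min hεo hεo'
      have ho0' : ∀ l : List (ℝ →ᵇ M), l.length = b + 1 → SmL (P x₀ x₃ c') (min εo εo') l →
          om l = 0 := fun l hl hs => ho0 l hl (hs.mono le_rfl (min_le_right _ _))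
      obtain ⟨δ1, hδ1, I⟩ := instC (d := d) (εo := min εo εo') (s1 := G + 2 * r + 1 + D) h hr hrρ
        hr0 hC ht hm hn hbd (by omega) htau.nrm nom neta hεt hoo hεe htau.coc htau.far
        (fun l hl hs => ho1 l hl (hs.mono le_rfl (min_le_left _ _))) ho0' he hD0
        hD.join (by linarith) (by linarith) (by linarith) hv₀
      obtain ⟨δ5, hδ5, hcut⟩ := exists_Ucut (x₀ := x₀) (x₂ := x₂) (x₃ := x₃) h hr hrρ ht hoo
      obtain ⟨δ, hδ, a1, a2, a3, a4, a5, a6, a7⟩ := exists_delta (g2 := δ1)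
        (g3 := δ5) (g4 := r) (g5 := 1) (g6 := 1) hεt (sub_pos.2 hr0) hδ1 hδ5 hr one_pos one_pos
      obtain ⟨z, hzm, hbz, ι, hι, hbι, h1⟩ := hz δ hδ
      obtain ⟨κ, hκ, hbκ⟩ := exists_fine k ht hδ
      obtain ⟨g, hg⟩ := I z (Sp_mono (fun l hl => ⟨hl.1, hl.2.mono le_rfl a3⟩) hzm) hbz ι
        (Sp_mono (fun l hl => ⟨hl.1, hl.2.mono le_rfl a3⟩) hι) hbι κ
        (Sp_mono (fun l hl => ⟨hl.1, hl.2.mono le_rfl a3⟩) hκ) hbκ
      refine ⟨g, fun h0 => by omega, δ, hδ, fun y hy hyS => ?_⟩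
      have f1 := hg y hy (hyS.mono le_rfl a3)
      have f2 : fibL (cup (n + b) (aR n tau om r x₀) (A0 eta r z)) κ y = 0 := by
        rw [fibL]
        refine ev_zero_of (fun β hβ => ?_) (Sp_SmL_sh (p := 1) (q := d) hκ
          (single_mem ⟨hy, hyS⟩ 1))
        obtain ⟨hβl, hβS⟩ := hβ
        rw [cup]
        by_cases ha : aR n tau om r x₀ (β.take (n + b + 1)) = 0
        · rw [ha, zero_mul]
        exfalso
        have hall := edge_bottom_gen (c' := c') h hr hrρ a1 a2 htau.far ho0'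
          (fun x hx x' hx' e1 e2 e3 => hcut x hx x' hx' e1 e2 (e3.trans_le a4)) hβS
          (by omega) ha
        obtain ⟨x, hx⟩ := List.exists_mem_of_ne_nil β (by
          rintro rfl
          simp at hβl)
        have h3 := (hall x hx).2
        have h4 := (hβS.1 x hx).1.1
        linarith
      rw [f2, h1, one_mul, add_zero] at f1
      exact f1
    refine ⟨⟨1, 0, Or.inl one_ne_zero, ?_⟩, fun _ => key⟩
    simpa using key

section AS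

open AS H250

variable {I : Type} [IsEmpty I] {α : I → (ℝ →ᵇ M) → (ℝ →ᵇ M)} {χ : I → k}

/-- **One step in degree `m + j`, classes.** -/
theorem step_clsC (h : LS.UniqSeg M ρ) (hr : 0 < r) (hrρ : r < ρ) (hr0 : r₀ < r)
    (hC : 0 ≤ C) (ht : 0 ≤ t) (hm : m + 1 = n + b) (hn : 2 ≤ n) (hj : 1 ≤ j) (hd : d = m + j)
    (hbd : b < d) (hεt : 0 < εt) (htau : IsTau n r₀ εt tau) (nom : Nrm om)
    (hom1 : CocL (P x₀ x₃ (C + r + t)) b om)
    (hom0 : ∃ ε > 0, ∀ l : List (ℝ →ᵇ M), l.length = b + 1 → SmL (P x₀ x₃ c') ε l → om l = 0)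
    (hz : Det n tau om r x₀ x₁ x₃ m C)
    (hD : IsPi M D) (hG : C - c' ≤ G) (hG0 : 0 ≤ G) (hB0 : 0 ≤ B0)
    (hL1 : G + 2 * r + 1 + D + D ≤ L) (hL2 : G + 2 * r + 1 + B0 ≤ L)
    {v₀ : ℝ →ᵇ M} (hv₀ : v₀ ∈ P x₃ x₁ (G + 2 * r + 1 + D)) (hlow : LowL k M B0 j)
    (hF : IsMap α α (P x₂ x₃ t) (P x₂ x₁ (t + L)) (catR t v₀))
    (z z' : Ha α χ (P x₂ x₁ (t + L)) d) :
    (∃ a a' : k, (a ≠ 0 ∨ a' ≠ 0) ∧ a • pull χ hF d z + a' • pull χ hF d z' = 0) ∧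
    ((LowZ k M B0 j ∨ t + 2 * r ≤ c') → pull χ hF d z = 0) := by
  obtain ⟨f, hf, nf, rfl⟩ := exists_cls z
  obtain ⟨f', hf', nf', rfl⟩ := exists_cls z'
  obtain ⟨⟨a, a', ha, h1⟩, h2⟩ := step_listC h hr hrρ hr0 hC ht hm hn hj hd hbd hεt htau nom hom1
    hom0 hz hD hG hG0 hB0 hL1 hL2 hv₀ nf hf nf' hf' hlow
  constructor
  · refine ⟨a, a', ha, ?_⟩
    rw [pull_cls, pull_cls, cls_smul, cls_smul, cls_add, cls_eq_zero]
    exact h1
  · intro hc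
    rw [pull_cls, cls_eq_zero]
    exact h2 hc

end AS

end Vale.Agent.P216.Sl
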