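import Vale.Agent.P216.H787.COm
import Vale.Agent.P216.H787.COut
import Vale.Agent.P216.H787.CStep
import Vale.Agent.P216.H787.Omega

/-!
# P216-C: the stable cohomology of the based loops, `OmegaOutC` from `OmSysC`
-/

open Set Finsupp Topology BoundedContinuousFunction

namespace Vale.Agent.P216.Sl

open PS Sg AS
open Vale.Agent.P216.H250 (catR isMap_catR cat_apply' pull_catR_res)

/-! ### Transport of a cochain to the based loops -/

section Tr

variable {k : Type} [Field k] {M : Type} [MetricSpace M] [CompactSpace M] {D : ℝ}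
variable {I : Type} [IsEmpty I] (α : I → (ℝ →ᵇ M) → (ℝ →ᵇ M)) (χ : I → k)
variable (hD : IsPi M D) (x₀ e : M) (f : List (ℝ →ᵇ M) → k) {p : ℕ}
  (hf : ∀ T, CocL (P x₀ e T) p f)

/-- The chosen path from `x₀` to `e`. -/
noncomputable def vv : ℝ →ᵇ M := (hD.ne x₀ e).some

theorem vv_mem : vv hD x₀ e ∈ P x₀ e D := (hD.ne x₀ e).some_mem

/-- `f` transported to the based loops. -/
noncomputable def tf (t : ℝ) (l : List (ℝ →ᵇ M)) : k := f (l.map (catR (max t 0) (vv hD x₀ e)))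

include hf in
theorem tf_coc (t : ℝ) : CocL (P x₀ x₀ t) p (tf hD x₀ e f t) :=
  ((hf (max t 0 + D)).map (umapR (I := Empty) (fun e => e.elim) x₀ (le_max_right t 0)
    hD.nonneg (vv_mem hD x₀ e) le_rfl)).mono (P_mono (le_max_left t 0))

/-- The class of `f` on the based loops. -/
noncomputable def TC (t : ℝ) : Ha α χ (P x₀ x₀ t) p :=
  cls α χ (tf hD x₀ e f t) (tf_coc hD x₀ e f hf t)

theorem TC_eq {t : ℝ} (ht : 0 ≤ t) {s : ℝ} (hs : t + D ≤ s) :
    TC α χ hD x₀ e f hf t = pull χ (umapR α x₀ ht hD.nonneg (vv_mem hD x₀ e) hs) p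
      (cls α χ f (hf s)) := by
  rw [pull_cls]
  refine cls_congr fun l => ?_
  rw [tf, max_eq_left ht]

theorem res_TC {s t : ℝ} (h : s ≤ t) :
    res (P_mono h) p (TC α χ hD x₀ e f hf t) = TC α χ hD x₀ e f hf s := by
  have hst : max s 0 ≤ max t 0 := max_le_max h le_rfl
  have h1 := pull_catR_res (a := x₀) (α := α) (χ := χ) (n := p) (le_max_right s 0) hst
    hD.nonneg (vv_mem hD x₀ e) (cls α χ f (hf (max t 0 + D)))
  rw [pull_cls, res_cls, res_cls, pull_cls] at h1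
  have h2 := congrArg (res (P_mono (le_max_left s 0)) p) h1
  rw [res_cls, res_cls] at h2
  exact h2

/-- (Z1) -/
theorem ex_of_TC {t : ℝ} (ht : 0 ≤ t) (h : TC α χ hD x₀ e f hf (t + D) = 0) :
    ExL (P x₀ e t) p f := by
  have hD0 := hD.nonneg
  obtain ⟨vb, hvb⟩ := hD.ne e x₀
  have htD : 0 ≤ t + D := by linarith
  have hF : IsMap α α (P x₀ e t) (P x₀ x₀ (t + D)) (catR t vb) := umapR α x₀ ht hD0 hvb le_rfl
  have hG : IsMap α α (P x₀ x₀ (t + D)) (P x₀ e (t + 4 * D)) (catR (t + D) (vv hD x₀ e)) :=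
    umapR α x₀ htD hD0 (vv_mem hD x₀ e) (by linarith)
  rw [TC_eq α χ hD x₀ e f hf htD (s := t + 4 * D) (by linarith)] at h
  have h1 := congrArg (pull χ hF p) h
  rw [map_zero, ← pull_comp hG hF] at h1
  have hvb' : vb ∈ P e x₀ (t + D - t) := by rwa [add_sub_cancel_left]
  have hℓ : cat (t + D - t) vb (vv hD x₀ e) ∈ P e e (t + D - t + D) :=
    cat_mem (by linarith) hD0 hvb' (vv_mem hD x₀ e)
  have h2 := pull_loop (χ := χ) (n := p) (u := t + D - t + D) ht (by linarith) hD hℓ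
    (by linarith) (by linarith) (hG.comp hF) (fun w hw => by
      change cat (t + D) (cat t w vb) (vv hD x₀ e) = _
      exact cat_assoc' ht (by linarith) hD0 hw hvb' (vv_mem hD x₀ e))
    (cls α χ f (hf (t + 4 * D)))
  rw [h2, res_cls, cls_eq_zero] at h1
  exact h1

/-- (Z2) -/
theorem TC_of_ex {t : ℝ} (ht : 0 ≤ t) (h : ExL (P x₀ e (t + D)) p f) :
    TC α χ hD x₀ e f hf t = 0 := by
  rw [TC_eq α χ hD x₀ e f hf ht le_rfl, cls_eq_zero.2 h, map_zero]

end Tr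

/-! ### From the paths to the based loops -/

section Loops

variable {k : Type} [Field k] {M : Type} [MetricSpace M] [CompactSpace M]
variable {I : Type} [IsEmpty I] {α : I → (ℝ →ᵇ M) → (ℝ →ᵇ M)} {χ : I → k}

theorem loops {x₀ x₁ x₃ : M} {D t s L u₀ : ℝ} {d : ℕ} (hD : IsPi M D) (ht : 0 ≤ t)
    (hu₀ : 0 ≤ u₀) (hL : u₀ ≤ L) {v₀ : ℝ →ᵇ M} (hv₀ : v₀ ∈ P x₃ x₁ u₀)
    (hs : t + (L + 3 * D) ≤ s)
    (hF2 : IsMap α α (P x₀ x₃ (t + D)) (P x₀ x₁ (t + D + L)) (catR (t + D) v₀)) {Z : Prop}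
    (H : ∀ y y' : Ha α χ (P x₀ x₁ (t + D + L)) d,
      (∃ a a' : k, (a ≠ 0 ∨ a' ≠ 0) ∧ a • pull χ hF2 d y + a' • pull χ hF2 d y' = 0) ∧
      (Z → pull χ hF2 d y = 0))
    (hX : P x₀ x₀ t ⊆ P x₀ x₀ s) (z z' : Ha α χ (P x₀ x₀ s) d) :
    (∃ a a' : k, (a ≠ 0 ∨ a' ≠ 0) ∧ a • res hX d z + a' • res hX d z' = 0) ∧
      (Z → res hX d z = 0) := by
  have hD0 := hD.nonneg
  obtain ⟨u, hu⟩ := hD.ne x₀ x₃
  obtain ⟨vb, hvb⟩ := hD.ne x₁ x₀
  set T : ℝ := t + D + L with hT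
  have htD : 0 ≤ t + D := by linarith
  have hT0 : 0 ≤ T := by linarith
  have hF1 : IsMap α α (P x₀ x₀ t) (P x₀ x₃ (t + D)) (catR t u) := umapR α x₀ ht hD0 hu le_rfl
  have hF3 : IsMap α α (P x₀ x₁ T) (P x₀ x₀ s) (catR T vb) :=
    umapR α x₀ hT0 hD0 hvb (by linarith)
  have hu' : u ∈ P x₀ x₃ (t + D - t) := by rwa [add_sub_cancel_left]
  have huv : cat (t + D - t) u v₀ ∈ P x₀ x₁ (T - t) := by
    refine P_mono (by linarith) (cat_mem (t := t + D - t) (by linarith) hu₀ hu' hv₀)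
  have hℓ : cat (T - t) (cat (t + D - t) u v₀) vb ∈ P x₀ x₀ (T - t + D) :=
    cat_mem (by linarith) hD0 huv hvb
  have hcomp : ∀ w ∈ P x₀ x₀ t, (catR T vb ∘ catR (t + D) v₀ ∘ catR t u) w =
      cat t w (cat (T - t) (cat (t + D - t) u v₀) vb) := by
    intro w hw
    change cat T (cat (t + D) (cat t w u) v₀) vb = _
    rw [cat_assoc' ht (by linarith) hu₀ hw hu' hv₀,
      cat_assoc' ht (by linarith) hD0 hw huv hvb]
  have hres : ∀ y : Ha α χ (P x₀ x₀ s) d,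
      pull χ hF1 d (pull χ hF2 d (pull χ hF3 d y)) = res hX d y := by
    intro y
    rw [← pull_comp hF3 hF2, ← pull_comp (hF3.comp hF2) hF1]
    exact pull_loop (u := T - t + D) ht (by linarith) hD hℓ (by linarith) (by linarith)
      ((hF3.comp hF2).comp hF1) hcomp y
  obtain ⟨⟨a, a', ha, h1⟩, h2⟩ := H (pull χ hF3 d z) (pull χ hF3 d z')
  constructor
  · refine ⟨a, a', ha, ?_⟩
    have h3 := congrArg (pull χ hF1 d) h1
    rwa [map_add, map_smul, map_smul, hres, hres, map_zero] at h3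
  · intro hc
    rw [← hres z, h2 hc, map_zero]

/-- Low degrees on the based loops. -/
theorem low_line {a b : M} {B0 t s : ℝ} {j : ℕ} (hlow : LowL k M B0 j) (ht : 0 ≤ t)
    (hs : t + B0 ≤ s) (hX : P a b t ⊆ P a b s) (z z' : Ha α χ (P a b s) j) :
    ∃ c c' : k, (c ≠ 0 ∨ c' ≠ 0) ∧ c • res hX j z + c' • res hX j z' = 0 := by
  obtain ⟨f, hf, nf, rfl⟩ := exists_cls z
  obtain ⟨f', hf', nf', rfl⟩ := exists_cls z'
  obtain ⟨c, c', hc, hE⟩ := hlow a b t ht f f' nf nf' (hf.mono (P_mono hs))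
    (hf'.mono (P_mono hs))
  refine ⟨c, c', hc, ?_⟩
  rw [res_cls, res_cls, cls_smul, cls_smul, cls_add, cls_eq_zero]
  exact hE

theorem low_zero {a b : M} {B0 t s : ℝ} {j : ℕ} (hlow : LowZ k M B0 j) (ht : 0 ≤ t)
    (hs : t + B0 ≤ s) (hX : P a b t ⊆ P a b s) (z : Ha α χ (P a b s) j) : res hX j z = 0 := by
  obtain ⟨f, hf, nf, rfl⟩ := exists_cls z
  rw [res_cls, cls_eq_zero]
  exact hlow a b t ht f nf (hf.mono (P_mono hs))

end Loops

namespace OmSysC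

variable {k : Type} [Field k] {M : Type} [MetricSpace M] [CompactSpace M] {n q N : ℕ}
  {r Ca : ℝ} {x₀ : M} {tau : List (M × M) → k} (S : OmSysC k M n q N r Ca x₀ tau)
  {D ρ r₀ εt t B0 : ℝ}

include S

theorem not_ex_zero (c : Bool) (h : (P x₀ (S.e c) t).Nonempty) :
    ¬ ExL (P x₀ (S.e c) t) (0 * N) (S.W c 0) := by
  obtain ⟨w, hw⟩ := h
  rw [Nat.zero_mul]
  intro hE
  have := exL_zero hE hw
  rw [S.zero] at this
  exact one_ne_zero this

theorem exists_not_exW (hD : IsPi M D) (hCa : 0 ≤ Ca) (c : Bool) (j : ℕ) :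
    ∃ t, 0 ≤ t ∧ ¬ ExL (P x₀ (S.e c) t) (j * N) (S.W c j) := by
  induction j generalizing c with
  | zero => exact ⟨D, hD.nonneg, S.not_ex_zero c (hD.ne _ _)⟩
  | succ j ih =>
    obtain ⟨t, ht, h⟩ := ih (!c)
    exact ⟨t + Ca, by linarith, S.ii c j t ht h⟩

/-- births: `C (A j) ≤ C (W (j + 1)) + r`, other form. -/
theorem exA_up (c : Bool) (j : ℕ) (ht : 0 ≤ t) (h : ExL (P x₀ (S.e c) (t + r)) (j * N + q)
    (S.A c j)) : ExL (P x₀ (S.e !c) t) ((j + 1) * N) (S.W (!c) (j + 1)) := by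
  refine S.iW (!c) j t ht ?_
  rwa [Bool.not_not]

/-- births: `C (W (j + 1)) ≤ C (W j) + Ca`, other form. -/
theorem exW_down (c : Bool) (j : ℕ) (ht : 0 ≤ t)
    (h : ExL (P x₀ (S.e !c) (t + Ca)) ((j + 1) * N) (S.W (!c) (j + 1))) :
    ExL (P x₀ (S.e c) t) (j * N) (S.W c j) := by
  by_contra hcon
  refine S.ii (!c) j t ht ?_ h
  rwa [Bool.not_not]

/-- births: `C (A j) ≤ C (W j) + Ca + r`. -/
theorem exA_down (hCa : 0 ≤ Ca) (c : Bool) (j : ℕ) (ht : 0 ≤ t)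
    (h : ExL (P x₀ (S.e c) (t + Ca + r)) (j * N + q) (S.A c j)) :
    ExL (P x₀ (S.e c) t) (j * N) (S.W c j) :=
  S.exW_down c j ht (S.exA_up c j (by linarith) h)

theorem exists_not_exA (hr : 0 < r) (hD : IsPi M D) (hCa : 0 ≤ Ca) (c : Bool) (j : ℕ) :
    ∃ t, 0 ≤ t ∧ ¬ ExL (P x₀ (S.e c) t) (j * N + q) (S.A c j) := by
  obtain ⟨t, ht, h⟩ := S.exists_not_exW hD hCa c j
  exact ⟨t + Ca + r, by linarith, fun hE => h (S.exA_down hCa c j ht hE)⟩

theorem exists_window (hr : 0 < r) (hD : IsPi M D) (hCa : 0 ≤ Ca) (c : Bool) (j : ℕ) :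
    ∃ C c', 0 ≤ C ∧ C - c' ≤ Ca + 2 ∧ ExL (P x₀ (S.e !c) c') (j * N + q) (S.A (!c) j) ∧
      ¬ ExL (P x₀ (S.e c) C) ((j + 1) * N) (S.W c (j + 1)) := by
  set T : Set ℝ := {t | 0 ≤ t ∧ ¬ ExL (P x₀ (S.e !c) t) (j * N + q) (S.A (!c) j)} with hT
  have hne : T.Nonempty := S.exists_not_exA hr hD hCa (!c) j
  have hbd : BddBelow T := ⟨0, fun t ht => ht.1⟩
  obtain ⟨t, ht, hts⟩ := exists_lt_of_csInf_lt hne (lt_add_one (sInf T))
  refine ⟨t + Ca, sInf T - 1, by linarith [ht.1], by linarith, ?_, S.ii c j t ht.1 fun hE =>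
    ht.2 (S.iA (!c) j t ht.1 hE)⟩
  by_contra hcon
  rcases lt_or_ge (sInf T - 1) 0 with h | h
  · exact hcon (exL_of_empty (P_empty_of_neg (S.ne _) h) _ _)
  · have := csInf_le hbd (show sInf T - 1 ∈ T from ⟨h, hcon⟩)
    linarith

variable {I : Type} [IsEmpty I] {α : I → (ℝ →ᵇ M) → (ℝ →ᵇ M)} {χ : I → k}

/-- **The step on the based loops.** -/
theorem step (h : LS.UniqSeg M ρ) (hr : 0 < r) (hrρ : r < ρ) (hr0 : r₀ < r) (hεt : 0 < εt)
    (htau : IsTau n r₀ εt tau) (hD : IsPi M D) (hCa : 0 ≤ Ca) (hn : 2 ≤ n) (hN : N + 1 = n + q)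
    (hq : 1 ≤ q) (hB0 : 0 ≤ B0) (hL : ∀ i, 0 < i → i ≤ q → LowL k M B0 i)
    (hZ : ∀ i, 0 < i → i < q → LowZ k M B0 i) (c : Bool)
    (j : ℕ) {d : ℕ} (hd : j * N + q < d) (hdm : d ≤ (j + 1) * N + q) {t s : ℝ} (ht : 0 ≤ t)
    (hs : t + (Ca + 2 + 2 * r + 1 + 5 * D + B0) ≤ s) (hX : P x₀ x₀ t ⊆ P x₀ x₀ s)
    (z z' : Ha α χ (P x₀ x₀ s) d) :
    (∃ a a' : k, (a ≠ 0 ∨ a' ≠ 0) ∧ a • res hX d z + a' • res hX d z' = 0) ∧
    (((d ≠ (j + 1) * N ∧ d ≠ (j + 1) * N + q) ∨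
      ExL (P x₀ (S.e c) (t + (D + (Ca + 2) + 2 * r))) ((j + 1) * N) (S.W c (j + 1))) →
      res hX d z = 0) := by
  have hD0 := hD.nonneg
  obtain ⟨C, c', hC, hG, hex, hne⟩ := S.exists_window hr hD hCa c j
  obtain ⟨g, hgN, ε, hε, hg⟩ := S.prim (!c) j c' hex
  have hz : Det n tau (fun l => S.A (!c) j l - dl g l) r x₀ (S.e c) (S.e !c)
      ((j + 1) * N) C := S.det c j C g hC hgN hne
  obtain ⟨v₀, hv₀⟩ : (P (S.e !c) (S.e c) (Ca + 2 + 2 * r + 1 + D)).Nonempty :=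
    (hD.ne _ _).mono (P_mono (by linarith))
  set G : ℝ := Ca + 2 with hGdef
  have htD : 0 ≤ t + D := by linarith
  have hom1 : CocL (P x₀ (S.e !c) (C + r + (t + D))) (j * N + q)
      (fun l => S.A (!c) j l - dl g l) :=
    (S.cocA (!c) j _).sub ⟨1, one_pos, fun l _ _ => dl_dl g l⟩
  have hmb : (j + 1) * N + 1 = n + (j * N + q) := by
    rw [Nat.add_mul, Nat.one_mul, add_assoc, hN]
    ring
  have hfar : ExL (P x₀ (S.e c) (t + (D + (Ca + 2) + 2 * r))) ((j + 1) * N) (S.W c (j + 1)) →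
      t + D + 2 * r ≤ c' := by
    intro hc
    by_contra hcon
    refine hne (hc.mono (P_mono ?_))
    linarith
  by_cases hdm' : d ≤ (j + 1) * N
  · have hF2 : IsMap α α (P x₀ (S.e !c) (t + D))
        (P x₀ (S.e c) (t + D + (G + 2 * r + 1 + D + D))) (catR (t + D) v₀) :=
      umapR α x₀ htD (by linarith) hv₀ (by linarith)
    have H := loops (χ := χ) (d := d) (s := s) (Z := (d < (j + 1) * N ∨ t + D + 2 * r ≤ c')) hD ht
      (u₀ := G + 2 * r + 1 + D) (by linarith) (by linarith) hv₀ (by linarith) hF2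
      (fun y y' => step_cls (n := n) (b := j * N + q) (d := d) (m := (j + 1) * N)
        (D := D) (G := G) (C := C) (c' := c') (t := t + D) (x₀ := x₀) (x₁ := S.e c) (x₂ := x₀)
        (x₃ := S.e !c) h hr hrρ hr0 hC htD hmb hn hd hdm' hεt htau
        ((S.nrmA _ _).sub hgN.dl) hom1
        ⟨ε, hε, fun l hl hs => by rw [hg l hl hs, sub_self]⟩ hz hD (by linarith) hG hv₀ hF2 y y')
      hX z z'
    refine ⟨H.1, fun hc => H.2 ?_⟩
    rcases hc with hc | hc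
    · exact Or.inl (lt_of_le_of_ne hdm' hc.1)
    · exact Or.inr (hfar hc)
  · push Not at hdm'
    have hF2 : IsMap α α (P x₀ (S.e !c) (t + D))
        (P x₀ (S.e c) (t + D + (G + 2 * r + 1 + D + D + B0))) (catR (t + D) v₀) :=
      umapR α x₀ htD (by linarith) hv₀ (by linarith)
    obtain ⟨i, hi⟩ : ∃ i, d = (j + 1) * N + i := ⟨d - (j + 1) * N, by omega⟩
    have H := loops (χ := χ) (d := d) (s := s) (Z := (LowZ k M B0 i ∨ t + D + 2 * r ≤ c')) hD ht
      (u₀ := G + 2 * r + 1 + D) (by linarith) (by linarith) hv₀ (by linarith) hF2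
      (fun y y' => step_clsC (n := n) (b := j * N + q) (d := d) (m := (j + 1) * N) (j := i)
        (B0 := B0) (L := G + 2 * r + 1 + D + D + B0)
        (D := D) (G := G) (C := C) (c' := c') (t := t + D) (x₀ := x₀) (x₁ := S.e c) (x₂ := x₀)
        (x₃ := S.e !c) h hr hrρ hr0 hC htD hmb hn (by omega) hi hd hεt htau
        ((S.nrmA _ _).sub hgN.dl) hom1
        ⟨ε, hε, fun l hl hs => by rw [hg l hl hs, sub_self]⟩ hz hD hG (by linarith) hB0
        (by linarith) (by linarith) hv₀ (hL i (by omega) (by omega)) hF2 y y')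
      hX z z'
    refine ⟨H.1, fun hc => H.2 ?_⟩
    rcases hc with hc | hc
    · exact Or.inl (hZ i (by omega) (by omega))
    · exact Or.inr (hfar hc)

variable (α χ)

/-- `W c j` on the based loops. -/
noncomputable def WC (hD : IsPi M D) (c : Bool) (j : ℕ) (t : ℝ) : Ha α χ (P x₀ x₀ t) (j * N) :=
  TC α χ hD x₀ (S.e c) (S.W c j) (S.cocW c j) t

/-- `A c j` on the based loops. -/
noncomputable def AC (hD : IsPi M D) (c : Bool) (j : ℕ) (t : ℝ) :
    Ha α χ (P x₀ x₀ t) (j * N + q) :=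
  TC α χ hD x₀ (S.e c) (S.A c j) (S.cocA c j) t

theorem WC_zero_ne (hD : IsPi M D) (c : Bool) (t : ℝ) : S.WC α χ hD c 0 t ≠ 0 := by
  intro h
  have h1 : ExL (P x₀ x₀ t) (0 * N) (tf hD x₀ (S.e c) (S.W c 0) t) :=
    (cls_eq_zero (h := tf_coc hD x₀ (S.e c) (S.W c 0) (S.cocW c 0) t)).1 h
  rw [Nat.zero_mul] at h1
  have h2 := exL_zero h1 (cst_mem x₀ t)
  rw [tf, List.map_cons, List.map_nil, S.zero] at h2
  exact one_ne_zero h2

theorem AC_zero_ne (hr : 0 < r) (hD : IsPi M D) (hCa : 0 ≤ Ca) (c : Bool)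
    (ht : D + Ca + r + D ≤ t) : S.AC α χ hD c 0 t ≠ 0 := by
  intro h
  have hD0 := hD.nonneg
  rw [AC, show t = (t - D) + D by ring] at h
  have h1 := ex_of_TC α χ hD x₀ (S.e c) (S.A c 0) (S.cocA c 0) (t := t - D) (by linarith) h
  rw [show t - D = (t - D - Ca - r) + Ca + r by ring] at h1
  exact S.not_ex_zero c ((hD.ne _ _).mono (P_mono (by linarith)))
    (S.exA_down hCa c 0 (by linarith) h1)

/-- The constant of `OmegaOutC`. -/
def BC (r Ca D B0 : ℝ) : ℝ :=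
  (Ca + 2 + 2 * r + 1 + 5 * D + B0) + (D + (Ca + 2) + 2 * r) + (D + Ca + r) + D

/-- A line spanned by a compatible family, given what happens when it is dead. -/
theorem span_of {p : ℕ} {t t1 s : ℝ} {F : ∀ t, Ha α χ (P x₀ x₀ t) p}
    (hF : ∀ s t (h : s ≤ t), res (P_mono h) p (F t) = F s) (ht1 : t ≤ t1) (hs : t1 ≤ s)
    (z : Ha α χ (P x₀ x₀ s) p)
    (h1 : ∃ a a' : k, (a ≠ 0 ∨ a' ≠ 0) ∧
      a • res (P_mono hs) p z + a' • res (P_mono hs) p (F s) = 0)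
    (h2 : F t1 = 0 → res (P_mono (ht1.trans hs)) p z = 0) :
    ∃ a : k, res (P_mono (ht1.trans hs)) p z = a • F t := by
  obtain ⟨a, a', ha, h1⟩ := h1
  rw [hF _ _ hs] at h1
  by_cases ha0 : a = 0
  · have ha' : a' ≠ 0 := by
      rcases ha with ha | ha
      · exact absurd ha0 ha
      · exact ha
    rw [ha0, zero_smul, zero_add] at h1
    exact ⟨0, by rw [h2 ((smul_eq_zero.1 h1).resolve_left ha'), zero_smul]⟩
  · refine ⟨-(a⁻¹ * a'), ?_⟩
    have h3 : res (P_mono hs) p z = (-(a⁻¹ * a')) • F t1 := by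
      have h4 := congrArg (fun y => a⁻¹ • y) h1
      simp only [smul_add, smul_smul, inv_mul_cancel₀ ha0, one_smul, smul_zero] at h4
      rw [neg_smul]
      exact eq_neg_of_add_eq_zero_left h4
    have h5 := congrArg (res (P_mono ht1) p) h3
    rw [res_res, map_smul, hF _ _ ht1] at h5
    exact h5

theorem span_W (h : LS.UniqSeg M ρ) (hr : 0 < r) (hrρ : r < ρ) (hr0 : r₀ < r) (hεt : 0 < εt)
    (htau : IsTau n r₀ εt tau) (hD : IsPi M D) (hCa : 0 ≤ Ca) (hn : 2 ≤ n) (hN : N + 1 = n + q)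
    (hq : 1 ≤ q) (hB0 : 0 ≤ B0) (hL : ∀ i, 0 < i → i ≤ q → LowL k M B0 i)
    (hZ : ∀ i, 0 < i → i < q → LowZ k M B0 i) (c : Bool)
    (j : ℕ) (ht : 0 ≤ t) (hX : P x₀ x₀ t ⊆ P x₀ x₀ (t + BC r Ca D B0))
    (z : Ha α χ (P x₀ x₀ (t + BC r Ca D B0)) ((j + 1) * N)) :
    ∃ a : k, res hX ((j + 1) * N) z = a • S.WC α χ hD c (j + 1) t := by
  have hD0 := hD.nonneg
  have hBB : BC r Ca D B0 = (Ca + 2 + 2 * r + 1 + 5 * D + B0) + (D + (Ca + 2) + 2 * r) +
    (D + Ca + r) + D := rfl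
  have hN1 : 1 ≤ N := by omega
  have hb : j * N + q < (j + 1) * N := by
    rw [Nat.add_mul, Nat.one_mul]
    omega
  set t0 : ℝ := t + (D + (Ca + 2) + 2 * r) with ht0
  have ht0' : 0 ≤ t0 := by linarith
  refine span_of (t1 := t0 + D) (F := fun t => S.WC α χ hD c (j + 1) t) S α χ
    (fun s t h => res_TC α χ hD x₀ (S.e c) (S.W c (j + 1)) (S.cocW c (j + 1)) h)
    (by linarith) (by linarith) z ?_ fun h0 => ?_
  · exact (S.step h hr hrρ hr0 hεt htau hD hCa hn hN hq hB0 hL hZ c j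
      hb (by omega) (by linarith) (by linarith) (P_mono (by linarith)) z _).1
  · exact (S.step h hr hrρ hr0 hεt htau hD hCa hn hN hq hB0 hL hZ c j
      hb (by omega) ht (by linarith) (P_mono (by linarith)) z z).2
      (Or.inr (ex_of_TC α χ hD x₀ (S.e c) (S.W c (j + 1)) (S.cocW c (j + 1)) ht0' h0))

theorem span_A (h : LS.UniqSeg M ρ) (hr : 0 < r) (hrρ : r < ρ) (hr0 : r₀ < r) (hεt : 0 < εt)
    (htau : IsTau n r₀ εt tau) (hD : IsPi M D) (hCa : 0 ≤ Ca) (hn : 2 ≤ n) (hN : N + 1 = n + q)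
    (hq : 1 ≤ q) (hB0 : 0 ≤ B0) (hL : ∀ i, 0 < i → i ≤ q → LowL k M B0 i)
    (hZ : ∀ i, 0 < i → i < q → LowZ k M B0 i) (c : Bool)
    (j : ℕ) (ht : 0 ≤ t) (hX : P x₀ x₀ t ⊆ P x₀ x₀ (t + BC r Ca D B0))
    (z : Ha α χ (P x₀ x₀ (t + BC r Ca D B0)) (j * N + q)) :
    ∃ a : k, res hX (j * N + q) z = a • S.AC α χ hD c j t := by
  have hD0 := hD.nonneg
  have hBB : BC r Ca D B0 = (Ca + 2 + 2 * r + 1 + 5 * D + B0) + (D + (Ca + 2) + 2 * r) +
    (D + Ca + r) + D := rfl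
  have hN1 : 1 ≤ N := by omega
  set t0 : ℝ := t + (D + (Ca + 2) + 2 * r) with ht0
  have ht0' : 0 ≤ t0 := by linarith
  refine span_of (t1 := t0 + Ca + r + D) (F := fun t => S.AC α χ hD c j t) S α χ
    (fun s t h => res_TC α χ hD x₀ (S.e c) (S.A c j) (S.cocA c j) h)
    (by linarith) (by linarith) z ?_ fun h0 => ?_
  · rcases j with _ | j
    · have hL' : LowL k M B0 (0 * N + q) := by
        rw [Nat.zero_mul, Nat.zero_add]
        exact hL q (by omega) le_rfl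
      exact low_line hL' (by linarith) (by linarith) (P_mono (by linarith)) z _
    · exact (S.step h hr hrρ hr0 hεt htau hD hCa hn hN hq hB0 hL hZ c j
        (by rw [Nat.add_mul, Nat.one_mul]; omega) le_rfl (by linarith) (by linarith)
        (P_mono (by linarith)) z _).1
  · rcases j with _ | j
    · exact absurd h0 (S.AC_zero_ne α χ hr hD hCa c (by linarith))
    · have h1 := ex_of_TC α χ hD x₀ (S.e c) (S.A c (j + 1)) (S.cocA c (j + 1))
        (t := t0 + Ca + r) (by linarith) h0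
      exact (S.step h hr hrρ hr0 hεt htau hD hCa hn hN hq hB0 hL hZ c j
        (by rw [Nat.add_mul, Nat.one_mul]; omega) le_rfl ht (by linarith)
        (P_mono (by linarith)) z z).2 (Or.inr (S.exA_down hCa c (j + 1) ht0' h1))

theorem compare (h : LS.UniqSeg M ρ) (hr : 0 < r) (hrρ : r < ρ) (hr0 : r₀ < r) (hεt : 0 < εt)
    (htau : IsTau n r₀ εt tau) (hD : IsPi M D) (hCa : 0 ≤ Ca) (hn : 2 ≤ n) (hN : N + 1 = n + q)
    (hq : 1 ≤ q) (hB0 : 0 ≤ B0) (hL : ∀ i, 0 < i → i ≤ q → LowL k M B0 i)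
    (hZ : ∀ i, 0 < i → i < q → LowZ k M B0 i) (c c' : Bool)
    (j : ℕ) (ht : 0 ≤ t) (h0 : S.WC α χ hD c (j + 1) t = 0) :
    S.WC α χ hD c' (j + 1) t = 0 := by
  have hD0 := hD.nonneg
  have hBB : BC r Ca D B0 = (Ca + 2 + 2 * r + 1 + 5 * D + B0) + (D + (Ca + 2) + 2 * r) +
    (D + Ca + r) + D := rfl
  have hle : t ≤ t + BC r Ca D B0 := by linarith
  obtain ⟨a, ha⟩ := S.span_W α χ h hr hrρ hr0 hεt htau hD hCa hn hN hq hB0 hL hZ c j ht
    (P_mono hle) (S.WC α χ hD c' (j + 1) (t + BC r Ca D B0))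
  rw [WC, res_TC α χ hD x₀ (S.e c') (S.W c' (j + 1)) (S.cocW c' (j + 1)) hle, h0, smul_zero] at ha
  exact ha

/-- **OMEGA**: the stable cohomology of the based loops, P216-C. -/
noncomputable def omegaOutC (h : LS.UniqSeg M ρ) (hr : 0 < r) (hrρ : r < ρ) (hr0 : r₀ < r)
    (hεt : 0 < εt) (htau : IsTau n r₀ εt tau) (hD : IsPi M D) (hCa : 0 ≤ Ca) (hn : 2 ≤ n)
    (hN : N + 1 = n + q) (hq : 1 ≤ q) (hB0 : 0 ≤ B0)
    (hL : ∀ i, 0 < i → i ≤ q → LowL k M B0 i) (hZ : ∀ i, 0 < i → i < q → LowZ k M B0 i) :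
    B64.OmegaOutC M q N x₀ (BC r Ca D B0) k where
  W j t := S.WC (B64.a0 _) (B64.c0 k) hD false j t
  A j t := S.AC (B64.a0 _) (B64.c0 k) hD false j t
  res_W j s t hst := res_TC _ _ hD x₀ (S.e false) (S.W false j) (S.cocW false j) hst
  res_A j s t hst := res_TC _ _ hD x₀ (S.e false) (S.A false j) (S.cocA false j) hst
  spanW j t ht hX z := by
    have hD0 := hD.nonneg
    have hBB : BC r Ca D B0 = (Ca + 2 + 2 * r + 1 + 5 * D + B0) + (D + (Ca + 2) + 2 * r) +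
      (D + Ca + r) + D := rfl
    rcases j with _ | j
    · refine span_deg0 hD ht (by linarith) hX (Nat.zero_mul N) z
        (tf_coc hD x₀ (S.e false) (S.W false 0) (S.cocW false 0) t) fun x _ => ?_
      rw [tf, List.map_cons, List.map_nil, S.zero]
    · exact S.span_W _ _ h hr hrρ hr0 hεt htau hD hCa hn hN hq hB0 hL hZ false j ht hX z
  spanA j t ht hX z :=
    S.span_A _ _ h hr hrρ hr0 hεt htau hD hCa hn hN hq hB0 hL hZ false j ht hX z
  zero d hd hd' t ht hX z := by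
    have hD0 := hD.nonneg
    have hBB : BC r Ca D B0 = (Ca + 2 + 2 * r + 1 + 5 * D + B0) + (D + (Ca + 2) + 2 * r) +
      (D + Ca + r) + D := rfl
    have h0 := hd 0
    have h0' := hd' 0
    rw [Nat.zero_mul] at h0
    rw [Nat.zero_mul, Nat.zero_add] at h0'
    by_cases hdq : d < q
    · exact low_zero (hZ d (by omega) hdq) ht (by linarith) hX z
    · have hN1 : 1 ≤ N := by omega
      obtain ⟨e, he⟩ : ∃ e, d = q + 1 + e := ⟨d - (q + 1), by omega⟩
      have h1 : e / N * N ≤ e := Nat.div_mul_le_self e N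
      have h2 : e < (e / N + 1) * N := by
        have := Nat.lt_div_mul_add (a := e) (b := N) (by omega)
        rw [Nat.add_mul, Nat.one_mul]
        exact this
      exact (S.step h hr hrρ hr0 hεt htau hD hCa hn hN hq hB0 hL hZ false (e / N) (by omega)
        (by omega) ht (by linarith) hX z z).2 (Or.inl ⟨hd _, hd' _⟩)
  W_ne t _ := S.WC_zero_ne _ _ hD false t
  b1 j t ht hA hW := by
    have hD0 := hD.nonneg
    have hBB : BC r Ca D B0 = (Ca + 2 + 2 * r + 1 + 5 * D + B0) + (D + (Ca + 2) + 2 * r) +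
      (D + Ca + r) + D := rfl
    apply hA
    rw [show t + BC r Ca D B0 = (t + BC r Ca D B0 - D) + D by ring] at hW
    have h1 := ex_of_TC _ _ hD x₀ (S.e false) (S.W false j) (S.cocW false j)
      (t := t + BC r Ca D B0 - D) (by linarith) hW
    have h2 := S.iA false j _ (by linarith) h1
    exact TC_of_ex _ _ hD x₀ (S.e false) (S.A false j) (S.cocA false j) ht
      (h2.mono (P_mono (by linarith)))
  b2 j t ht hW hA := by
    have hD0 := hD.nonneg
    have hBB : BC r Ca D B0 = (Ca + 2 + 2 * r + 1 + 5 * D + B0) + (D + (Ca + 2) + 2 * r) +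
      (D + Ca + r) + D := rfl
    apply hW
    rw [show t + BC r Ca D B0 = (t + BC r Ca D B0 - D) + D by ring] at hA
    have h1 := ex_of_TC _ _ hD x₀ (S.e false) (S.A false j) (S.cocA false j)
      (t := t + BC r Ca D B0 - D) (by linarith) hA
    rw [show t + BC r Ca D B0 - D = (t + BC r Ca D B0 - D - r) + r by ring] at h1
    have h2 := S.exA_up false j (by linarith) h1
    have h3 : S.WC (B64.a0 _) (B64.c0 k) hD true (j + 1) t = 0 :=
      TC_of_ex _ _ hD x₀ (S.e true) (S.W true (j + 1)) (S.cocW true (j + 1)) ht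
        (h2.mono (P_mono (by linarith)))
    exact S.compare _ _ h hr hrρ hr0 hεt htau hD hCa hn hN hq hB0 hL hZ true false j ht h3
  b3 j t ht hW hW' := by
    have hD0 := hD.nonneg
    have hBB : BC r Ca D B0 = (Ca + 2 + 2 * r + 1 + 5 * D + B0) + (D + (Ca + 2) + 2 * r) +
      (D + Ca + r) + D := rfl
    apply hW
    rw [show t + BC r Ca D B0 = (t + BC r Ca D B0 - D) + D by ring] at hW'
    have h1 := ex_of_TC _ _ hD x₀ (S.e false) (S.W false (j + 1)) (S.cocW false (j + 1))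
      (t := t + BC r Ca D B0 - D) (by linarith) hW'
    rw [show t + BC r Ca D B0 - D = (t + BC r Ca D B0 - D - Ca) + Ca by ring] at h1
    have h2 := S.exW_down true j (t := t + BC r Ca D B0 - D - Ca) (by linarith) h1
    have h3 : S.WC (B64.a0 _) (B64.c0 k) hD true j t = 0 :=
      TC_of_ex _ _ hD x₀ (S.e true) (S.W true j) (S.cocW true j) ht
        (h2.mono (P_mono (by linarith)))
    rcases j with _ | j
    · exact absurd h3 (S.WC_zero_ne _ _ hD true t)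
    · exact S.compare _ _ h hr hrρ hr0 hεt htau hD hCa hn hN hq hB0 hL hZ true false j ht h3

end OmSysC

end Vale.Agent.P216.Sl
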