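import Vale.Agent.P216.N929.Om2

/-!
# Pro-cycles

A `ProCy` is a sequence of finer and finer cycles, two consecutive ones being homologous at the
scale of the first. On a totally bounded set a cocycle which is not exact is detected by a
pro-cycle.
-/

open Finsupp Set

namespace Vale.Agent.P216.Sl

open PS N929

variable {k : Type} [Field k]

/-- A compatible sequence of finer and finer cycles of degree `D`. -/
structure ProCy (k : Type) [Field k] {E : Type} [PseudoMetricSpace E] (X : Set E) (D : ℕ) where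
  ε : ℕ → ℝ
  pos : ∀ i, 0 < ε i
  anti : Antitone ε
  lim : ∀ δ > 0, ∃ i, ε i < δ
  h : ℕ → Ch k E
  cy : ∀ i, Cy X (ε i) D (h i)
  hom : ∀ i, ∃ c ∈ Sp k (fun l : List E => l.length = D + 2 ∧ Fine X (ε i) l),
    h i - h (i + 1) = bd c

section

variable {E : Type} [PseudoMetricSpace E] {X : Set E} {D : ℕ}

namespace ProCy

variable (H : ProCy k X D)

theorem hom' {i j : ℕ} (h : i ≤ j) :
    ∃ c ∈ Sp k (fun l : List E => l.length = D + 2 ∧ Fine X (H.ε i) l), H.h i - H.h j = bd c := by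
  induction j, h using Nat.le_induction with
  | base => exact ⟨0, Submodule.zero_mem _, by rw [sub_self, map_zero]⟩
  | succ j hij ih =>
    obtain ⟨c, hc, e⟩ := ih
    obtain ⟨c', hc', e'⟩ := H.hom j
    refine ⟨c + c', Submodule.add_mem _ hc (Sp_mono (fun l hl => ⟨hl.1,
      hl.2.mono le_rfl (H.anti hij)⟩) hc'), ?_⟩
    rw [map_add, ← e, ← e']
    abel

/-- The value of a cocycle does not depend on the index. -/
theorem ev_eq {f : List E → k} {ε' : ℝ} (hf : Coc X ε' D f) {i j : ℕ} (hi : H.ε i ≤ ε')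
    (hj : H.ε j ≤ ε') : ev f (H.h i) = ev f (H.h j) := by
  have key : ∀ i j : ℕ, i ≤ j → H.ε i ≤ ε' → ev f (H.h i) = ev f (H.h j) := by
    intro i j hij hi
    obtain ⟨c, hc, e⟩ := H.hom' hij
    have h1 := congrArg (ev f) e
    rw [map_sub, ← ev_dl, ev_zero_of (fun l hl => hf l hl.1 (hl.2.mono le_rfl hi)) hc] at h1
    exact sub_eq_zero.1 h1
  rcases le_total i j with h | h
  · exact key i j h hi
  · exact (key j i h hj).symm

/-- Exact cocycles vanish. -/
theorem ev_zero {f : List E → k} {ε' : ℝ} (hf : Coc X ε' D f) (he : ExL X D f) {i : ℕ}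
    (hi : H.ε i ≤ ε') : ev f (H.h i) = 0 := by
  obtain ⟨δ, hδ, h1⟩ := ex_iff.2 he
  obtain ⟨j, hj⟩ := H.lim (min δ ε') (lt_min hδ ((H.pos i).trans_le hi))
  rw [H.ev_eq hf hi (hj.le.trans (min_le_right _ _))]
  exact h1 _ ((H.cy j).mono le_rfl (hj.le.trans (min_le_left _ _)))

/-- Forget the first indices. -/
def drop (i₀ : ℕ) : ProCy k X D where
  ε i := H.ε (i₀ + i)
  pos i := H.pos _
  anti i j h := H.anti (Nat.add_le_add_left h _)
  lim δ hδ := by
    obtain ⟨i, hi⟩ := H.lim δ hδ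
    exact ⟨i, (H.anti (Nat.le_add_left i i₀)).trans_lt hi⟩
  h i := H.h (i₀ + i)
  cy i := H.cy _
  hom i := H.hom _

end ProCy

/-! ### Finite rank -/

/-- Fine cycles. -/
noncomputable def Zc (k : Type) [Field k] (X : Set E) (D : ℕ) (ε : ℝ) : Submodule k (Ch k E) :=
  Sp k (fun l : List E => l.length = D + 1 ∧ Fine X ε l) ⊓ LinearMap.ker bd

/-- Fine boundaries. -/
noncomputable def Bc (k : Type) [Field k] (X : Set E) (D : ℕ) (ε : ℝ) : Submodule k (Ch k E) :=
  (Sp k (fun l : List E => l.length = D + 2 ∧ Fine X ε l)).map bd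

theorem Zc_mono {ε ε' : ℝ} (h : ε ≤ ε') : Zc k X D ε ≤ Zc k X D ε' := fun _ hz =>
  ⟨Sp_mono (fun _ hl => ⟨hl.1, hl.2.mono le_rfl h⟩) hz.1, hz.2⟩

theorem Bc_mono {ε ε' : ℝ} (h : ε ≤ ε') : Bc k X D ε ≤ Bc k X D ε' :=
  Submodule.map_mono (Sp_mono (fun _ hl => ⟨hl.1, hl.2.mono le_rfl h⟩))

omit [PseudoMetricSpace E] in
theorem finite_lists (F : Set E) (hF : F.Finite) (n : ℕ) :
    {l : List E | l.length = n ∧ ∀ x ∈ l, x ∈ F}.Finite := by
  induction n with
  | zero =>
    refine (Set.finite_singleton ([] : List E)).subset fun l hl => ?_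
    exact List.length_eq_zero_iff.1 hl.1
  | succ n ih =>
    refine (Set.Finite.image2 (fun (x : E) (l : List E) => x :: l) hF ih).subset fun l hl => ?_
    rcases l with _ | ⟨x, l⟩
    · simp at hl
    · exact ⟨x, hl.2 x List.mem_cons_self, l, ⟨by simpa using hl.1,
        fun y hy => hl.2 y (List.mem_cons_of_mem _ hy)⟩, rfl⟩

/-- Nearby maps on cycles. -/
theorem net_cycle {ν : E → E} {η : ℝ} (hν : ∀ x ∈ X, ν x ∈ X ∧ dist x (ν x) < η)
    {z : Ch k E} (hz : z ∈ Zc k X D η) : z - mp ν z ∈ Bc k X D (3 * η) := by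
  have hbz : bd z = 0 := hz.2
  have hzn : z ∈ Sp k (Ln (D + 1)) := Sp_mono (fun l hl => hl.1) hz.1
  set c : Ch k E := mp (two id ν) (sh z (single [false, true] 1)) with hc
  have hi : (single [false, true] (1 : k)) ∈ Sp k (Ln 2) := single_Ln rfl 1
  have hbi : bd (single [false, true] (1 : k)) = single [true] 1 - single [false] 1 := by
    rw [bd_single, one_smul, Sg.bdL_pair]
  have h1 : bd c = (-1 : k) ^ D • (mp ν z - z) := by
    rw [hc, bd_mp, bd_sh (p := D) (q := 1) (by omega) hzn hi, hbz, map_zero, LinearMap.zero_apply,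
      zero_add, hbi, map_sub, sh_point_right true (Ln_ne hzn), sh_point_right false (Ln_ne hzn),
      map_smul, map_sub]
    have e1 : mp (two id ν) (mp (fun p : E => (p, true)) z) = mp ν z := by
      have := lin_ext_apply (f := mp (k := k) (two id ν) ∘ₗ mp (fun p : E => (p, true)))
        (g := mp ν) (fun l => by
          rw [LinearMap.comp_apply, mp_single, mp_single, mp_single, List.map_map]
          rfl) z
      simpa using this
    have e2 : mp (two id ν) (mp (fun p : E => (p, false)) z) = z := by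
      have := lin_ext_apply (f := mp (k := k) (two id ν) ∘ₗ mp (fun p : E => (p, false)))
        (g := LinearMap.id) (fun l => by
          rw [LinearMap.comp_apply, mp_single, mp_single, List.map_map, LinearMap.id_apply]
          congr 1
          exact List.map_id l) z
      simpa using this
    rw [e1, e2]
  have h2 : c ∈ Sp k (fun l : List E => l.length = D + 2 ∧ Fine X (3 * η) l) := by
    have h3 : sh z (single [false, true] (1 : k)) ∈ Sp k (fun L : List (E × Bool) =>
        L.length = D + 2 ∧ Fine X (3 * η) (L.map (two id ν))) := by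
      refine sh_mem (fun l t L hl ht hG => ⟨?_, fun y hy => ?_, fun y hy y' hy' => ?_⟩) hz.1
        (single_mem (P := fun t => t = [false, true]) rfl 1)
      · have := hG.1
        rw [ht] at this
        simp only [List.length_cons, List.length_nil] at this
        have := hl.1
        omega
      · obtain ⟨p, hp, rfl⟩ := List.mem_map.1 hy
        have hx := hl.2.1 _ (hG.2 p hp).1
        rw [two]
        split_ifs
        · exact (hν _ hx).1
        · exact hx
      · obtain ⟨p, hp, rfl⟩ := List.mem_map.1 hy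
        obtain ⟨p', hp', rfl⟩ := List.mem_map.1 hy'
        have hx := hl.2.1 _ (hG.2 p hp).1
        have hx' := hl.2.1 _ (hG.2 p' hp').1
        have hd := hl.2.2 _ (hG.2 p hp).1 _ (hG.2 p' hp').1
        have h5 := (hν _ hx).2
        have h6 := (hν _ hx').2
        have h7 : (0 : ℝ) < η := dist_nonneg.trans_lt h5
        rw [two, two]
        have h8 := dist_comm p.1 (ν p.1)
        split_ifs
        · linarith [dist_triangle4 (ν p.1) p.1 p'.1 (ν p'.1)]
        · simp only [id]
          linarith [dist_triangle (ν p.1) p.1 p'.1]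
        · simp only [id]
          linarith [dist_triangle p.1 p'.1 (ν p'.1)]
        · simp only [id]
          linarith
    exact map_mem _ (fun L hL => by
      rw [mp_single]
      exact single_mem (P := fun l : List E => l.length = D + 2 ∧ Fine X (3 * η) l)
        ⟨by rw [List.length_map]; exact hL.1, hL.2⟩ _) h3
  have h4 : z - mp ν z = bd ((-(-1 : k) ^ D) • c) := by
    rw [map_smul, h1, smul_smul, neg_mul, ← pow_add, ← two_mul, pow_mul]
    simp
  rw [h4]
  exact Submodule.mem_map_of_mem (Submodule.smul_mem _ _ h2)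

/-- **Finite rank.** -/
theorem exists_fin (hX : TotallyBounded X) {η : ℝ} (hη : 0 < η) :
    ∃ F : Submodule k (Ch k E), FiniteDimensional k F ∧ Zc k X D η ≤ F ⊔ Bc k X D (3 * η) := by
  obtain ⟨t, htX, htf, ht⟩ := Metric.finite_approx_of_totallyBounded hX η hη
  classical
  have hν : ∃ ν : E → E, ∀ x ∈ X, ν x ∈ t ∧ dist x (ν x) < η := by
    have : ∀ x, ∃ y, x ∈ X → y ∈ t ∧ dist x y < η := by
      intro x
      by_cases hx : x ∈ X
      · obtain ⟨y, hy, hxy⟩ := Set.mem_iUnion₂.1 (ht hx)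
        exact ⟨y, fun _ => ⟨hy, hxy⟩⟩
      · exact ⟨x, fun h => absurd h hx⟩
    choose ν hν using this
    exact ⟨ν, hν⟩
  obtain ⟨ν, hν⟩ := hν
  have hfin := finite_lists t htf (D + 1)
  refine ⟨Finsupp.supported k k {l : List E | l.length = D + 1 ∧ ∀ x ∈ l, x ∈ t}, ?_,
    fun z hz => ?_⟩
  · have := hfin.to_subtype
    exact Module.Finite.equiv (Finsupp.supportedEquivFinsupp
      {l : List E | l.length = D + 1 ∧ ∀ x ∈ l, x ∈ t}).symm
  · have h1 := net_cycle (fun x hx => ⟨htX (hν x hx).1, (hν x hx).2⟩) hz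
    have h2 : mp ν z ∈ Finsupp.supported k k {l : List E | l.length = D + 1 ∧ ∀ x ∈ l, x ∈ t} := by
      refine map_mem _ (fun l hl => ?_) hz.1
      rw [mp_single]
      refine single_mem (P := fun l : List E => l.length = D + 1 ∧ ∀ x ∈ l, x ∈ t)
        ⟨by rw [List.length_map]; exact hl.1, fun y hy => ?_⟩ _
      obtain ⟨x, hx, rfl⟩ := List.mem_map.1 hy
      exact (hν x (hl.2.1 x hx)).1
    have : z = mp ν z + (z - mp ν z) := by abel
    rw [this]
    exact Submodule.add_mem_sup h2 h1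

/-- Decreasing sequences of submodules of finite rank modulo `B` stabilise. -/
theorem stabilise {V : Type*} [AddCommGroup V] [Module k V] {B F : Submodule k V}
    [FiniteDimensional k F] {S : ℕ → Submodule k V} (hS : Antitone S) (hB : ∀ i, B ≤ S i)
    {j₀ : ℕ} (h : S j₀ ≤ F ⊔ B) : ∃ J, j₀ ≤ J ∧ ∀ j ≥ J, S j = S J := by
  have hle : ∀ j, j₀ ≤ j → (S j).map B.mkQ ≤ F.map B.mkQ := by
    intro j hj
    refine (Submodule.map_mono ((hS hj).trans h)).trans ?_
    rw [Submodule.map_sup]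
    have : B.map B.mkQ = ⊥ := by
      rw [Submodule.eq_bot_iff]
      rintro _ ⟨b, hb, rfl⟩
      rw [Submodule.mkQ_apply]
      exact (Submodule.Quotient.mk_eq_zero B).2 hb
    rw [this, sup_bot_eq]
  have hfd : ∀ j, j₀ ≤ j → FiniteDimensional k ((S j).map B.mkQ) := fun j hj =>
    Submodule.finiteDimensional_of_le (hle j hj)
  set r : ℕ → ℕ := fun j => Module.finrank k ((S (j₀ + j)).map B.mkQ) with hr
  obtain ⟨J, hJ⟩ : ∃ J, ∀ j, r J ≤ r j := by
    obtain ⟨_, ⟨J, rfl⟩, hJ⟩ := WellFounded.has_min Nat.lt_wfRel.wf (Set.range r) ⟨r 0, 0, rfl⟩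
    exact ⟨J, fun j => not_lt.1 (hJ _ ⟨j, rfl⟩)⟩
  refine ⟨j₀ + J, Nat.le_add_right _ _, fun j hj => ?_⟩
  obtain ⟨i, rfl⟩ : ∃ i, j = j₀ + i := ⟨j - j₀, by omega⟩
  have := hfd (j₀ + J) (Nat.le_add_right _ _)
  have h1 : (S (j₀ + i)).map B.mkQ = (S (j₀ + J)).map B.mkQ :=
    Submodule.eq_of_le_of_finrank_le (Submodule.map_mono (hS hj)) (hJ i)
  have h2 : ∀ j, (((S j).map B.mkQ).comap B.mkQ) = S j := by
    intro j
    rw [Submodule.comap_map_mkQ]
    exact sup_eq_right.2 (hB j)
  rw [← h2 (j₀ + i), h1, h2]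

/-- **Non-exact cocycles are detected by pro-cycles.** -/
theorem exists_pro (hX : TotallyBounded X) (hD : 1 ≤ D) {f : List E → k} {εf : ℝ} (hεf : 0 < εf)
    (hf : Coc X εf D f) (hne : ¬ ExL X D f) :
    ∃ H : ProCy k X D, (∀ i, H.ε i ≤ εf) ∧ ∀ i, ev f (H.h i) = 1 := by
  classical
  -- one step
  have step : ∀ ε : ℝ, 0 < ε → ∃ ε', 0 < ε' ∧ ε' ≤ ε / 2 ∧ ∀ ε'', 0 < ε'' → ε'' ≤ ε' →
      Zc k X D ε' ≤ Zc k X D ε'' ⊔ Bc k X D ε := by
    intro ε hε
    obtain ⟨F, hF, hle⟩ := exists_fin (k := k) (D := D) hX (show 0 < ε / 3 by positivity)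
    rw [show 3 * (ε / 3) = ε by ring] at hle
    obtain ⟨J, hJ0, hJ⟩ := stabilise (S := fun j : ℕ => Zc k X D (ε / (3 + j)) ⊔ Bc k X D ε)
      (B := Bc k X D ε) (F := F) (j₀ := 0)
      (fun i j hij => sup_le_sup_right (Zc_mono (by
        have h1 : (i : ℝ) ≤ j := by exact_mod_cast hij
        have h2 : (0 : ℝ) < 3 + i := by positivity
        exact div_le_div_of_nonneg_left hε.le h2 (by linarith))) _)
      (fun i => le_sup_right) (by
        simp only [Nat.cast_zero, add_zero]
        exact sup_le hle le_sup_right)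
    refine ⟨ε / (3 + J), by positivity, ?_, fun ε'' hε'' hle'' => ?_⟩
    · have h2 : (0 : ℝ) ≤ J := by positivity
      exact div_le_div_of_nonneg_left hε.le (by norm_num) (by linarith)
    · obtain ⟨i, hi⟩ := exists_nat_gt (ε / ε'')
      have h1 : ε / (3 + ((J + i : ℕ) : ℝ)) ≤ ε'' := by
        rw [div_lt_iff₀ hε''] at hi
        have h2 : (0 : ℝ) ≤ J := by positivity
        have h3 : (0 : ℝ) ≤ i := by positivity
        rw [div_le_iff₀ (by push_cast; positivity)]
        push_cast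
        nlinarith
      have h2 := hJ (J + i) (Nat.le_add_right _ _)
      have h3 : Zc k X D (ε / (3 + J)) ⊔ Bc k X D ε ≤ Zc k X D ε'' ⊔ Bc k X D ε := by
        rw [← h2]
        exact sup_le_sup_right (Zc_mono h1) _
      exact le_sup_left.trans h3
  choose! nx hnx0 hnx2 hnx using step
  set a : ℕ → ℝ := fun i => Nat.rec εf (fun _ x => nx x) i with ha
  have ha0 : ∀ i, 0 < a i := fun i => by
    induction i with
    | zero => exact hεf
    | succ i ih => exact hnx0 _ ih
  have has : ∀ i, a (i + 1) = nx (a i) := fun i => rfl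
  have hah : ∀ i, a (i + 1) ≤ a i / 2 := fun i => hnx2 _ (ha0 i)
  have hanti : Antitone a := antitone_nat_of_succ_le fun i => (hah i).trans (by linarith [ha0 i])
  have hlim : ∀ δ > 0, ∃ i, a i < δ := by
    intro δ hδ
    have h1 : ∀ i : ℕ, a i ≤ εf * (1 / 2) ^ i := by
      intro i
      induction i with
      | zero => simp [ha]
      | succ i ih =>
        refine (hah i).trans ?_
        rw [pow_succ]
        linarith
    obtain ⟨i, hi⟩ := exists_pow_lt_of_lt_one (show 0 < δ / εf by positivity)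
      (show (1 / 2 : ℝ) < 1 by norm_num)
    refine ⟨i, (h1 i).trans_lt ?_⟩
    rw [lt_div_iff₀ hεf] at hi
    linarith
  -- the cycles
  obtain ⟨z₀, hz₀, hz₀'⟩ : ∃ z, z ∈ Zc k X D (a 1) ∧ ev f z = 1 := by
    obtain ⟨z, hz, h1⟩ := not_ex_iff.1 hne (a 1) (ha0 1)
    exact ⟨(ev f z)⁻¹ • z, Submodule.smul_mem _ _ ⟨hz.1, bd_eq_zero hz (by omega)⟩, by
      rw [map_smul, smul_eq_mul, inv_mul_cancel₀ h1]⟩
  have nxt : ∀ i (z : Ch k E), z ∈ Zc k X D (a (i + 1)) →
      ∃ z', z' ∈ Zc k X D (a (i + 2)) ∧ z - z' ∈ Bc k X D (a i) := by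
    intro i z hz
    have h1 := hnx (a i) (ha0 i) (a (i + 2)) (ha0 (i + 2)) (hanti (Nat.le_succ (i + 1))) hz
    obtain ⟨z', hz', b, hb, rfl⟩ := Submodule.mem_sup.1 h1
    exact ⟨z', hz', by rwa [add_sub_cancel_left]⟩
  choose! g hg1 hg2 using nxt
  set u : ℕ → Ch k E := fun i => Nat.rec z₀ (fun i z => g i z) i with hu
  have hu1 : ∀ i, u i ∈ Zc k X D (a (i + 1)) := fun i => by
    induction i with
    | zero => exact hz₀
    | succ i ih => exact hg1 i _ ih
  have hu2 : ∀ i, u i - u (i + 1) ∈ Bc k X D (a i) := fun i => hg2 i _ (hu1 i)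
  set H : ProCy k X D :=
    { ε := a
      pos := ha0
      anti := hanti
      lim := hlim
      h := u
      cy := fun i => ⟨Sp_mono (fun l hl => ⟨hl.1, hl.2.mono le_rfl (hanti (Nat.le_succ i))⟩)
        (hu1 i).1, by
          have : bd (u i) = 0 := (hu1 i).2
          rw [this]
          exact Submodule.zero_mem _⟩
      hom := fun i => by
        obtain ⟨c, hc, e⟩ := hu2 i
        exact ⟨c, hc, e.symm⟩ } with hH
  have hle : ∀ i, H.ε i ≤ εf := fun i => hanti (Nat.zero_le i)
  refine ⟨H, hle, fun i => ?_⟩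
  rw [H.ev_eq hf (hle i) (hle 0)]
  exact hz₀'

end

end Vale.Agent.P216.Sl
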