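import Vale.Agent.P216.H787.OmStep

/-!
# P216-C: the classes on the path spaces of a projective space

`n` = dimension of `M`, `q = |eta|`, `N = |W 1| = n + q - 1`.
`W c j` has degree `j N`, `A c j = eta cup W c j` has degree `j N + q`, and `W c (j + 1)` is the
fibre integral of `tau . A (!c) j`.
-/

open Set Finsupp Topology BoundedContinuousFunction

namespace Vale.Agent.P216.Sl

open PS Sg AS

/-- The classes on the paths from `x₀` to `e c`. -/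
structure OmSysC (k : Type) [Field k] (M : Type) [MetricSpace M] [CompactSpace M] (n q N : ℕ)
    (r Ca : ℝ) (x₀ : M) (tau : List (M × M) → k) where
  e : Bool → M
  W : Bool → ℕ → List (ℝ →ᵇ M) → k
  A : Bool → ℕ → List (ℝ →ᵇ M) → k
  ne : ∀ c, e c ≠ x₀
  nrmW : ∀ c j, Nrm (W c j)
  nrmA : ∀ c j, Nrm (A c j)
  cocW : ∀ c j T, CocL (P x₀ (e c) T) (j * N) (W c j)
  cocA : ∀ c j T, CocL (P x₀ (e c) T) (j * N + q) (A c j)
  zero : ∀ c x, W c 0 [x] = 1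
  /-- births: `C (W j) ≤ C (A j)` -/
  iA : ∀ c j t, 0 ≤ t → ExL (P x₀ (e c) t) (j * N) (W c j) →
    ExL (P x₀ (e c) t) (j * N + q) (A c j)
  /-- births: `C (A j) ≤ C (W (j + 1)) + r` -/
  iW : ∀ c j t, 0 ≤ t → ExL (P x₀ (e !c) (t + r)) (j * N + q) (A (!c) j) →
    ExL (P x₀ (e c) t) ((j + 1) * N) (W c (j + 1))
  /-- births: `C (W (j + 1)) ≤ C (W j) + Ca` -/
  ii : ∀ c j t, 0 ≤ t → ¬ ExL (P x₀ (e !c) t) (j * N) (W (!c) j) →
    ¬ ExL (P x₀ (e c) (t + Ca)) ((j + 1) * N) (W c (j + 1))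
  prim : ∀ c j T, ExL (P x₀ (e c) T) (j * N + q) (A c j) → ∃ g : List (ℝ →ᵇ M) → k, Nrm g ∧
    ∃ ε > 0, ∀ l, l.length = j * N + q + 1 → SmL (P x₀ (e c) T) ε l → A c j l = dl g l
  det : ∀ c j C (g : List (ℝ →ᵇ M) → k), 0 ≤ C → Nrm g →
    ¬ ExL (P x₀ (e c) C) ((j + 1) * N) (W c (j + 1)) →
    Det n tau (fun l => A (!c) j l - dl g l) r x₀ (e c) (e !c) ((j + 1) * N) C

end Vale.Agent.P216.Sl
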