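import Vale.Agent.P216.H787.CSwap
import Vale.Agent.P216.N970.Fibre

/-!
# P216-C: the edge `τ = 0` of the crossing-swap identity, reduction of the last factor
-/

open Set Finsupp Topology BoundedContinuousFunction

namespace Vale.Agent.P216.Sg

open Sl PS

variable {k : Type} [Field k]

/-! ### Fibre integrals over an interval in the first factor -/

theorem dl_fibL_seg {α β : Type} (f : List (α × β) → k) {κ : Ch k α} (hκ : κ ∈ Sp k (Ln 2))
    {u0 u1 : α} (hbκ : bd κ = single [u1] 1 - single [u0] 1) {q : ℕ} {y : List β}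
    (hy : y.length = q + 1) :
    dl (fibL f κ) y = f (y.map fun b => (u1, b)) - f (y.map fun b => (u0, b)) -
      fibL (dl f) κ y := by
  have hym : (single y (1 : k)) ∈ Sp k (Ln (q + 1)) := single_Ln hy 1
  have hyne : (single y (1 : k)) ∈ Sp k Ne := Ln_ne hym
  have hbY : bd (sh κ (single y (1 : k))) = mp (fun q => (u1, q)) (single y 1) -
      mp (fun q => (u0, q)) (single y 1) - sh κ (bdL y) := by
    rw [bd_sh (p := 1) (q := q) (by omega) hκ hym, hbκ, map_sub, LinearMap.sub_apply,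
      sh_point_left u1 hyne, sh_point_left u0 hyne, bd_single, one_smul, pow_one, neg_one_smul]
    abel
  have h3 := congrArg (ev f) hbY
  rw [← ev_dl, map_sub, map_sub, mp_single, mp_single, ev_single, ev_single, one_mul, one_mul]
    at h3
  rw [dl, ev_fibL, Sl.fibL, h3]
  ring

section

variable {M : Type} [MetricSpace M]

/-- The pair of points of `aR`. -/
def pR (x₀ : M) (x : ℝ × (ℝ →ᵇ M)) : M × M := (x₀, x.2 x.1)

/-- The points of the edge `τ = 0` near `x₀`. -/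
def Dw (x₀ x₂ x₃ : M) (t r s : ℝ) : Set (ℝ × (ℝ →ᵇ M)) :=
  {x ∈ Icc 0 t ×ˢ P x₂ x₃ t | dist (x.2 x.1) x₀ ≤ r ∧ x.1 + r ≤ s}

theorem pR_near {x₀ x₂ x₃ : M} {t δ : ℝ} {x x' : ℝ × (ℝ →ᵇ M)} (hx : x.2 ∈ P x₂ x₃ t)
    (h : dist x x' < δ) : dist (pR x₀ x) (pR x₀ x') < 2 * δ := by
  rw [Prod.dist_eq, max_lt_iff] at h
  have h1 := dist_ev_lt hx h.2 h.1
  have h2 : (0 : ℝ) < 2 * δ := dist_nonneg.trans_lt h1
  rw [Prod.dist_eq, pR, pR]
  simp only [dist_self]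
  exact max_lt h2 h1

end

variable {M : Type} [MetricSpace M] [CompactSpace M]
variable {x₀ x₁ x₂ x₃ : M} {C t r ρ δ : ℝ}
variable {n b m d : ℕ} {tau : List (M × M) → k} {om eta : List (ℝ →ᵇ M) → k}
  {r₀ εt εo εe c' s s₂ : ℝ}

theorem isCompact_Dw : IsCompact (Dw x₀ x₂ x₃ t r s) := by
  have h1 : Continuous fun x : ℝ × (ℝ →ᵇ M) => x.2 x.1 := by fun_prop
  have h2 : Continuous fun x : ℝ × (ℝ →ᵇ M) => x.1 + r := by fun_prop
  have h : IsClosed {x : ℝ × (ℝ →ᵇ M) | dist (x.2 x.1) x₀ ≤ r ∧ x.1 + r ≤ s} :=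
    (isClosed_le (h1.dist continuous_const) continuous_const).inter
      (isClosed_le h2 continuous_const)
  have hD : IsCompact ((Icc 0 t ×ˢ P x₂ x₃ t : Set (ℝ × (ℝ →ᵇ M)))) :=
    isCompact_Icc.prod (isCompact_P _ _ _)
  exact hD.of_isClosed_subset (hD.isClosed.inter h) fun _ h => h.1

/-- The first part of the path, up to `x₀`. -/
noncomputable def wL (r : ℝ) (x₀ : M) (x : ℝ × (ℝ →ᵇ M)) : ℝ →ᵇ M := splice r x.2 (cst x₀) x.1 0

/-- The last part of the path, from `x₀`. -/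
noncomputable def cR (r : ℝ) (x₀ : M) (x : ℝ × (ℝ →ᵇ M)) : ℝ →ᵇ M := splice r (cst x₀) x.2 0 x.1

theorem wL_mem' (h : LS.UniqSeg M ρ) (hr : 0 < r) (hrρ : r < ρ) {x : ℝ × (ℝ →ᵇ M)}
    (hx : x ∈ Dw x₀ x₂ x₃ t r s) : wL r x₀ x ∈ P x₂ x₀ (x.1 + r) := by
  obtain ⟨⟨hσ, hq⟩, hd, -⟩ := hx
  refine P_mono ?_ (splice_mem (t := 0) h hr hrρ hq.1 (lip_cst x₀) (by rwa [cst_apply])
    hσ.1 le_rfl hq.2.1 (fun _ _ => cst_apply _ _))
  linarith

theorem wL_mem (h : LS.UniqSeg M ρ) (hr : 0 < r) (hrρ : r < ρ) {x : ℝ × (ℝ →ᵇ M)}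
    (hx : x ∈ Dw x₀ x₂ x₃ t r s) : wL r x₀ x ∈ P x₂ x₀ s :=
  P_mono hx.2.2 (wL_mem' h hr hrρ hx)

theorem cR_mem (h : LS.UniqSeg M ρ) (hr : 0 < r) (hrρ : r < ρ) {x : ℝ × (ℝ →ᵇ M)}
    (hx : x ∈ (Icc 0 t ×ˢ P x₂ x₃ t : Set (ℝ × (ℝ →ᵇ M)))) (hd : dist (x.2 x.1) x₀ ≤ r) :
    cR r x₀ x ∈ P x₀ x₃ (r + (t - x.1)) := by
  obtain ⟨hσ, hq⟩ := hx
  refine P_mono ?_ (splice_mem (t := t) (a := x₀) h hr hrρ (lip_cst x₀) hq.1
    (by rwa [cst_apply, dist_comm]) le_rfl hσ.2 (fun _ _ => cst_apply _ _) hq.2.2)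
  linarith

theorem continuousOn_wL (h : LS.UniqSeg M ρ) (hr : 0 < r) (hrρ : r < ρ) (hs : 0 ≤ s) :
    ContinuousOn (wL r x₀) (Dw x₀ x₂ x₃ t r s) :=
  continuousOn_splice h hr hrρ (t := s) hs (by fun_prop) (by fun_prop) (by fun_prop)
    (by fun_prop) (fun p hp => by rw [cst_apply]; exact hp.2.1) (fun p hp => hp.1.2.1)
    (fun p _ => lip_cst x₀) fun p hp => P_subset_PP (wL_mem h hr hrρ hp)

theorem continuousOn_cR (h : LS.UniqSeg M ρ) (hr : 0 < r) (hrρ : r < ρ) (ht : 0 ≤ t) :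
    ContinuousOn (cR r x₀) (Dw x₀ x₂ x₃ t r s) :=
  continuousOn_splice h hr hrρ (t := r + t) (by linarith) (by fun_prop) (by fun_prop)
    (by fun_prop) (by fun_prop) (fun p hp => by rw [cst_apply, dist_comm]; exact hp.2.1)
    (fun p _ => lip_cst x₀) (fun p hp => hp.1.2.1)
    fun p hp => P_subset_PP (P_mono (by linarith [hp.1.1.1]) (cR_mem h hr hrρ hp.1 hp.2.1))

theorem aR_eq_cup : aR n tau om r x₀ =
    cup n (fun l => tau (l.map (pR x₀))) (fun l => om (l.map (cR r x₀))) := by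
  funext ξ
  rfl

omit [CompactSpace M] in
/-- If `tau` does not vanish on the front, all entries are near `x₀`. -/
theorem near_of_tauR (h2δ : 2 * δ ≤ εt) (h4δ : 4 * δ ≤ r - r₀)
    (htau0 : ∀ l : List (M × M), l.length = n + 1 → SmL univ εt l →
      (∃ p ∈ l, r₀ ≤ dist p.1 p.2) → tau l = 0)
    {l : List (ℝ × (ℝ →ᵇ M))} (hl : SmL (Icc 0 t ×ˢ P x₂ x₃ t) δ l) (hn : n + 1 ≤ l.length)
    (h : tau ((l.take (n + 1)).map (pR x₀)) ≠ 0) : ∀ x ∈ l, dist (x.2 x.1) x₀ ≤ r := by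
  have hsub : ∀ x ∈ l.take (n + 1), x ∈ l := fun x hx => List.mem_of_mem_take hx
  have hsm : SmL univ εt ((l.take (n + 1)).map (pR x₀)) :=
    SmL_map (fun _ _ => mem_univ _) fun x hx y hy =>
      (pR_near (hl.1 x (hsub x hx)).2 (hl.2 x (hsub x hx) y (hsub y hy))).trans_le h2δ
  have hlen : ((l.take (n + 1)).map (pR x₀)).length = n + 1 := by
    rw [List.length_map, List.length_take]; omega
  have hall : ∀ x ∈ l.take (n + 1), dist x₀ (x.2 x.1) < r₀ := by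
    intro p hp
    by_contra hc
    exact h (htau0 _ hlen hsm ⟨pR x₀ p, List.mem_map_of_mem hp, not_lt.1 hc⟩)
  obtain ⟨p, hp⟩ : ∃ p, p ∈ l.take (n + 1) := by
    apply List.exists_mem_of_ne_nil
    intro h0
    rw [h0] at hlen
    simp at hlen
  intro x hx
  have h1 := hl.2 x hx p (hsub p hp)
  rw [Prod.dist_eq, max_lt_iff] at h1
  have h2 := dist_ev_lt (hl.1 x hx).2 h1.2 h1.1
  have h3 := hall p hp
  rw [dist_comm] at h3
  have h4 := dist_triangle (x.2 x.1) (p.2 p.1) x₀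
  have h5 : (0 : ℝ) < δ := dist_nonneg.trans_lt h1.1
  linarith

/-- Uniform continuity of the cut. -/
def Ucut (x₀ x₂ x₃ : M) (t r δ ε : ℝ) : Prop :=
  ∀ x ∈ Icc 0 t ×ˢ P x₂ x₃ t, ∀ x' ∈ Icc 0 t ×ˢ P x₂ x₃ t, dist (x.2 x.1) x₀ ≤ r →
    dist (x'.2 x'.1) x₀ ≤ r → dist x x' < δ → dist (cR r x₀ x) (cR r x₀ x') < ε

theorem exists_Ucut (h : LS.UniqSeg M ρ) (hr : 0 < r) (hrρ : r < ρ) (ht : 0 ≤ t) {ε : ℝ}
    (hε : 0 < ε) : ∃ δ > 0, Ucut x₀ x₂ x₃ t r δ ε := by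
  obtain ⟨δ, hδ, hc⟩ := uc_of_continuousOn (isCompact_Dw (x₀ := x₀) (x₂ := x₂) (x₃ := x₃) (t := t)
    (r := r) (s := t + r)) (continuousOn_cR h hr hrρ ht) hε
  exact ⟨δ, hδ, fun x hx x' hx' hd hd' hxx => hc x ⟨hx, hd, by linarith [hx.1.2]⟩ x'
    ⟨hx', hd', by linarith [hx'.1.2]⟩ hxx⟩

/-- Edge `τ = 0`: all entries are near `x₀`, with small times. -/
theorem edge_bottom_gen (h : LS.UniqSeg M ρ) (hr : 0 < r) (hrρ : r < ρ)
    (h2δ : 2 * δ ≤ εt) (h4δ : 4 * δ ≤ r - r₀)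
    (htau0 : ∀ l : List (M × M), l.length = n + 1 → SmL univ εt l →
      (∃ p ∈ l, r₀ ≤ dist p.1 p.2) → tau l = 0)
    (hom0 : ∀ l : List (ℝ →ᵇ M), l.length = b + 1 → SmL (P x₀ x₃ c') εo l → om l = 0)
    (hcut : Ucut x₀ x₂ x₃ t r δ εo)
    {β : List (ℝ × (ℝ →ᵇ M))} (hβ : SmL (Icc 0 t ×ˢ P x₂ x₃ t) δ β) (hlen : n + b + 1 ≤ β.length)
    (ha : aR n tau om r x₀ (β.take (n + b + 1)) ≠ 0) :
    ∀ x ∈ β, dist (x.2 x.1) x₀ ≤ r ∧ c' < r + (t - x.1) + 2 * δ := by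
  rw [aR_eq_cup, cup, List.take_take, min_eq_left (by omega)] at ha
  have ht' := left_ne_zero_of_mul ha
  have ho' := right_ne_zero_of_mul ha
  have hnear := near_of_tauR h2δ h4δ htau0 hβ (by omega) ht'
  intro p hp
  refine ⟨hnear p hp, ?_⟩
  by_contra hc
  push Not at hc
  have hsub : ∀ x ∈ (β.take (n + b + 1)).drop n, x ∈ β := fun x hx =>
    List.mem_of_mem_take (List.mem_of_mem_drop hx)
  refine ho' (hom0 _ (by
    rw [List.length_map, List.length_drop, List.length_take]; omega) (SmL_map ?_ ?_))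
  · intro x hx
    have h1 := cR_mem h hr hrρ (hβ.1 x (hsub x hx)) (hnear x (hsub x hx))
    refine P_mono ?_ h1
    have h2 := hβ.2 x (hsub x hx) p hp
    rw [Prod.dist_eq, max_lt_iff, Real.dist_eq, abs_lt] at h2
    have h5 : (0 : ℝ) < δ := dist_nonneg.trans_lt h2.2
    linarith [h2.1.1]
  · intro x hx y hy
    exact hcut x (hβ.1 x (hsub x hx)) y (hβ.1 y (hsub y hy)) (hnear x (hsub x hx))
      (hnear y (hsub y hy)) (hβ.2 x (hsub x hx) y (hsub y hy))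

/-- `aR` is a cocycle on small lists. -/
theorem dl_aR (h : LS.UniqSeg M ρ) (hr : 0 < r) (hrρ : r < ρ) (h2δ : 2 * δ ≤ εt)
    (h4δ : 4 * δ ≤ r - r₀)
    (htau1 : ∀ l : List (M × M), l.length = n + 2 → SmL univ εt l → dl tau l = 0)
    (htau0 : ∀ l : List (M × M), l.length = n + 1 → SmL univ εt l →
      (∃ p ∈ l, r₀ ≤ dist p.1 p.2) → tau l = 0)
    (hom1 : ∀ l : List (ℝ →ᵇ M), l.length = b + 2 → SmL (P x₀ x₃ (r + t)) εo l → dl om l = 0)
    (hcut : Ucut x₀ x₂ x₃ t r δ εo)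
    {l : List (ℝ × (ℝ →ᵇ M))} (hl : SmL (Icc 0 t ×ˢ P x₂ x₃ t) δ l)
    (hlen : l.length = n + b + 2) : dl (aR n tau om r x₀) l = 0 := by
  rw [aR_eq_cup, dl_cup n _ _ _ (by omega)]
  have e1 : dl (fun l => tau (l.map (pR x₀))) (l.take (n + 2)) = 0 := by
    rw [dl_map]
    refine htau1 _ (by rw [List.length_map, List.length_take]; omega)
      (SmL_map (fun _ _ => mem_univ _) fun x hx y hy => ?_)
    have hx' := List.mem_of_mem_take hx
    have hy' := List.mem_of_mem_take hy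
    exact (pR_near (hl.1 x hx').2 (hl.2 x hx' y hy')).trans_le h2δ
  have e2 : cup (n + 1) (dl fun l => tau (l.map (pR x₀))) (fun l => om (l.map (cR r x₀))) l = 0 := by
    rw [cup, show n + 1 + 1 = n + 2 from rfl, e1, zero_mul]
  rw [e2, zero_add]
  by_cases ht : tau ((l.take (n + 1)).map (pR x₀)) = 0
  · rw [cup, ht, zero_mul, mul_zero]
  have hnear := near_of_tauR h2δ h4δ htau0 hl (by omega) ht
  have e3 : dl (fun l => om (l.map (cR r x₀))) (l.drop n) = 0 := by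
    rw [dl_map]
    have hsub : ∀ x ∈ l.drop n, x ∈ l := fun x hx => List.mem_of_mem_drop hx
    refine hom1 _ (by rw [List.length_map, List.length_drop]; omega)
      (SmL_map (fun x hx => ?_) fun x hx y hy => ?_)
    · have hx' := hl.1 x (hsub x hx)
      refine P_mono ?_ (cR_mem h hr hrρ hx' (hnear x (hsub x hx)))
      linarith [hx'.1.1]
    · exact hcut x (hl.1 x (hsub x hx)) y (hl.1 y (hsub y hy)) (hnear x (hsub x hx))
        (hnear y (hsub y hy)) (hl.2 x (hsub x hx) y (hsub y hy))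
  rw [cup, e3, mul_zero, mul_zero]

/-- **Reduction of the last factor on the edge `τ = 0`**. -/
theorem red (h : LS.UniqSeg M ρ) (hr : 0 < r) (hrρ : r < ρ) (hn : 1 ≤ n)
    (ntau : Nrm tau) (h2δ : 2 * δ ≤ εt) (h4δ : 4 * δ ≤ r - r₀)
    (htau1 : ∀ l : List (M × M), l.length = n + 2 → SmL univ εt l → dl tau l = 0)
    (htau0 : ∀ l : List (M × M), l.length = n + 1 → SmL univ εt l →
      (∃ p ∈ l, r₀ ≤ dist p.1 p.2) → tau l = 0)
    (hom1 : ∀ l : List (ℝ →ᵇ M), l.length = b + 2 → SmL (P x₀ x₃ (r + t)) εo l → dl om l = 0)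
    (hom0 : ∀ l : List (ℝ →ᵇ M), l.length = b + 1 → SmL (P x₀ x₃ c') εo l → om l = 0)
    (hcut : Ucut x₀ x₂ x₃ t r δ εo) (hs : t + 2 * r - c' + 2 * δ ≤ s) {j : ℕ} (hj : 1 ≤ j)
    {g1 g2 g3 : List (ℝ × (ℝ →ᵇ M)) → k}
    (hg : ∀ β, β.length = j + 1 → SmL (Dw x₀ x₂ x₃ t r s) δ β → g1 β - g2 β = dl g3 β)
    {κ : Ch k ℝ} (hκ : κ ∈ Sp k (fun l => l.length = 2 ∧ SmL (Icc 0 t) δ l))
    (hbκ : bd κ = single [t] 1 - single [0] 1) :
    ∃ g : List (ℝ →ᵇ M) → k, ∀ y : List (ℝ →ᵇ M), y.length = n + b + j →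
      SmL (P x₂ x₃ t) δ y →
      fibL (cup (n + b) (aR n tau om r x₀) g1) κ y -
        fibL (cup (n + b) (aR n tau om r x₀) g2) κ y = dl g y := by
  set F : List (ℝ × (ℝ →ᵇ M)) → k := cup (n + b) (aR n tau om r x₀) g3 with hF
  refine ⟨fun y => (-(-1 : k) ^ (n + b)) * fibL F κ y, fun y hy hyS => ?_⟩
  have hβm : sh κ (single y (1 : k)) ∈
      Sp k (fun l => l.length = 1 + (n + b + j - 1) + 1 ∧ SmL (Icc 0 t ×ˢ P x₂ x₃ t) δ l) :=
    Sp_SmL_sh (p := 1) hκ (single_mem ⟨by omega, hyS⟩ 1)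
  have e1 : fibL (cup (n + b) (aR n tau om r x₀) g1) κ y -
      fibL (cup (n + b) (aR n tau om r x₀) g2) κ y = (-1 : k) ^ (n + b) * fibL (dl F) κ y := by
    rw [fibL, fibL, fibL, ← ev_smul_fun, sub_eq_iff_eq_add, ← ev_add_fun]
    refine ev_congr (fun β hβ => ?_) hβm
    obtain ⟨hβl, hβS⟩ := hβ
    have e2 : dl F β = (-1 : k) ^ (n + b) * cup (n + b) (aR n tau om r x₀) (dl g3) β := by
      rw [hF, dl_cup _ _ _ _ (by omega)]
      have e3 : cup (n + b + 1) (dl (aR n tau om r x₀)) g3 β = 0 := by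
        rw [cup, dl_aR h hr hrρ h2δ h4δ htau1 htau0 hom1 hcut
          (SmL_sub hβS fun x hx => List.mem_of_mem_take hx)
          (by rw [List.length_take]; omega), zero_mul]
      rw [e3, zero_add]
    have e4 : (-1 : k) ^ (n + b) * (-1 : k) ^ (n + b) = 1 := by
      rw [← pow_add, ← two_mul, pow_mul]
      simp
    rw [e2, ← mul_assoc, e4, one_mul]
    by_cases ha : aR n tau om r x₀ (β.take (n + b + 1)) = 0
    · rw [cup, cup, cup, ha]
      ring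
    have hall := edge_bottom_gen h hr hrρ h2δ h4δ htau0 hom0 hcut hβS (by omega) ha
    have hsub : ∀ x ∈ β.drop (n + b), x ∈ β := fun x hx => List.mem_of_mem_drop hx
    have h5 := hg (β.drop (n + b)) (by rw [List.length_drop]; omega)
      ⟨fun x hx => ⟨hβS.1 x (hsub x hx), (hall x (hsub x hx)).1, by
        linarith [(hall x (hsub x hx)).2]⟩,
        fun x hx x' hx' => hβS.2 x (hsub x hx) x' (hsub x' hx')⟩
    rw [cup, cup, cup, ← h5]
    ring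
  have h3 : ∀ (u : ℝ) (x : M), (∀ w ∈ P x₂ x₃ t, (w : ℝ →ᵇ M) u = x) →
      F (y.map fun b => (u, b)) = 0 := by
    intro u x hx
    rw [hF, cup, aR_eq_cup, cup, List.take_take, min_eq_left (by omega), ← List.map_take,
      List.map_map]
    have : tau ((y.take (n + 1)).map (pR x₀ ∘ fun b => (u, b))) = 0 :=
      Nrm.const (c := (x₀, x)) ntau (by rw [List.length_take]; omega) fun w hw => by
        simp only [Function.comp_apply, pR]
        rw [hx w (hyS.1 w (List.mem_of_mem_take hw))]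
    rw [this, zero_mul, zero_mul]
  rw [e1, dl_mul_left, dl_fibL_seg F (Sp_mono (fun l hl => hl.1) hκ) hbκ
    (q := n + b + j - 1) (by omega), h3 t x₃ (fun w hw => eq_right hw le_rfl),
    h3 0 x₂ (fun w hw => eq_left hw le_rfl)]
  ring

/-! ### The class on the paths from `x₂` to `x₀` -/

/-- Fibre integral over `z` of the concatenation. -/
noncomputable def A1 (eta : List (ℝ →ᵇ M) → k) (s₂ : ℝ) (z : Ch k (ℝ →ᵇ M))
    (γ : List (ℝ →ᵇ M)) : k :=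
  fibL (fun l : List ((ℝ →ᵇ M) × (ℝ →ᵇ M)) => eta (l.map fun x => cat s₂ x.2 x.1)) z γ

theorem nrm_A1 (neta : Nrm eta) (z : Ch k (ℝ →ᵇ M)) : Nrm (A1 eta s₂ z) :=
  Nrm.fibL (neta.map _) z

theorem coc_A1 {j : ℕ} (hd : d = m + j) (hs₂ : 0 ≤ s₂) (hC : 0 ≤ C) (hεe : 0 < εe)
    (heta : ∀ l : List (ℝ →ᵇ M), l.length = d + 2 → SmL (P x₂ x₁ (s₂ + C)) εe l → dl eta l = 0)
    {z : Ch k (ℝ →ᵇ M)} (hz : z ∈ Sp k (fun l => l.length = m + 1 ∧ SmL (P x₀ x₁ C) εe l))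
    (hbz : bd z = 0) : CocL (P x₂ x₀ s₂) j (A1 eta s₂ z) := by
  refine ⟨εe, hεe, fun γ hγ hγS => ?_⟩
  rw [show A1 eta s₂ z = fibL (fun l : List ((ℝ →ᵇ M) × (ℝ →ᵇ M)) =>
      eta (l.map fun x => cat s₂ x.2 x.1)) z from rfl,
    dl_fibL_cycle _ (Sp_mono (fun l hl => hl.1) hz) hbz (q := j + 1) (by omega) (by omega), fibL]
  rw [ev_zero_of (fun l hl => ?_) (Sp_SmL_sh (p := m) (q := j + 1) hz
    (single_mem ⟨by omega, hγS⟩ 1)), mul_zero]
  obtain ⟨hl1, hl2⟩ := hl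
  rw [dl_map]
  refine heta _ (by rw [List.length_map]; omega) (SmL_map (fun x hx => ?_) fun x hx x' hx' => ?_)
  · exact cat_mem hs₂ hC (hl2.1 x hx).2 (hl2.1 x hx).1
  · have h1 := (hl2.1 x hx).2
    have h2 := (hl2.1 x hx).1
    have h1' := (hl2.1 x' hx').2
    have h2' := (hl2.1 x' hx').1
    have h3 := hl2.2 x hx x' hx'
    rw [Prod.dist_eq, max_lt_iff] at h3
    refine (dist_cat_cat_le h1.1 h1'.1 h2.1 h2'.1 ?_ ?_).trans_lt (max_lt h3.2 h3.1)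
    · rw [eq_right h1 le_rfl, eq_left h2 le_rfl]
    · rw [eq_right h1' le_rfl, eq_left h2' le_rfl]

/-- Change of the time and of the factors in a concatenation. -/
theorem dist_cat_le {a b c : M} {t u u' v v' : ℝ} {w w' p p' : ℝ →ᵇ M} (hw : w ∈ P a b u)
    (hw' : w' ∈ P a b u') (hp : p ∈ P b c t) (hp' : p' ∈ P b c t) (hu : u ≤ v) (hu' : u' ≤ v') :
    dist (cat v w p) (cat v' w' p') ≤ |v - v'| + max (dist w w') (dist p p') := by
  have hm : ∀ (a b c : M) (t u u' v v' : ℝ) (w w' p p' : ℝ →ᵇ M), w ∈ P a b u → w' ∈ P a b u' →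
      p ∈ P b c t → p' ∈ P b c t → u ≤ v → u' ≤ v' → v ≤ v' →
      dist (cat v w p) (cat v' w' p') ≤ |v - v'| + max (dist w w') (dist p p') := by
    intro a b c t u u' v v' w w' p p' hw hw' hp hp' hu hu' hv
    have h1 := dist_cat_time_le hv (P_mono hu hw) hp
    have hwv := P_mono (hu.trans hv) hw
    have hwv' := P_mono hu' hw'
    have h2 : dist (cat v' w p) (cat v' w' p') ≤ max (dist w w') (dist p p') := by
      refine dist_cat_cat_le hw.1 hw'.1 hp.1 hp'.1 ?_ ?_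
      · rw [eq_right hwv le_rfl, eq_left hp le_rfl]
      · rw [eq_right hwv' le_rfl, eq_left hp' le_rfl]
    rw [abs_sub_comm, abs_of_nonneg (sub_nonneg.2 hv)]
    linarith [dist_triangle (cat v w p) (cat v' w p) (cat v' w' p')]
  rcases le_total v v' with hv | hv
  · exact hm a b c t u u' v v' w w' p p' hw hw' hp hp' hu hu' hv
  · rw [dist_comm, abs_sub_comm, dist_comm w w', dist_comm p p']
    exact hm a b c t u' u v' v w' w p' p hw' hw hp' hp hu' hu hv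

/-- **`A0` and `A1` are cohomologous.** -/
theorem A0_A1 (h : LS.UniqSeg M ρ) (hr : 0 < r) (hrρ : r < ρ) {j : ℕ} (hd : d = m + j)
    (hj : 1 ≤ j) (hs : 0 ≤ s) (hss : s ≤ s₂) (hC : 0 ≤ C) (hεe : 0 < εe)
    (heta : ∀ l : List (ℝ →ᵇ M), l.length = d + 2 → SmL (P x₂ x₁ (s₂ + C)) εe l → dl eta l = 0) :
    ∃ δ₀ > 0, ∀ δ, 0 < δ → δ ≤ δ₀ → ∀ z : Ch k (ℝ →ᵇ M),
      z ∈ Sp k (fun l => l.length = m + 1 ∧ SmL (P x₀ x₁ C) δ l) → bd z = 0 →
      ∃ g : List (ℝ × (ℝ →ᵇ M)) → k, ∀ β, β.length = j + 1 → SmL (Dw x₀ x₂ x₃ t r s) δ β →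
        A0 eta r z β - A1 eta s₂ z (β.map (wL r x₀)) = dl g β := by
  obtain ⟨δ₁, hδ₁, hc⟩ := uc_of_continuousOn (isCompact_Dw (x₀ := x₀) (x₂ := x₂) (x₃ := x₃)
    (t := t) (r := r) (s := s)) (continuousOn_wL h hr hrρ hs) (show 0 < εe / 4 by positivity)
  refine ⟨min δ₁ (εe / 4), lt_min hδ₁ (by positivity), fun δ hδ hδ0 z hz hbz => ?_⟩
  have hδ1 : δ ≤ δ₁ := hδ0.trans (min_le_left _ _)
  have hδ2 : δ ≤ εe / 4 := hδ0.trans (min_le_right _ _)
  have key : Hm eta (P x₀ x₁ C ×ˢ Dw x₀ x₂ x₃ t r s) δ d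
      (fun x => cat (max (x.2.1 + r) s₂) (wL r x₀ x.2) x.1)
      (fun x => cat (max (x.2.1 + r) 0) (wL r x₀ x.2) x.1) := by
    refine Hm.of_preconnected (S := Icc 0 s₂)
      (G := fun (v : ℝ) (x : (ℝ →ᵇ M) × (ℝ × (ℝ →ᵇ M))) =>
        cat (max (x.2.1 + r) v) (wL r x₀ x.2) x.1)
      (X' := P x₂ x₁ (s₂ + C)) (ε := εe) isPreconnected_Icc hδ ?_ ?_ heta
      ⟨hs.trans hss, le_rfl⟩ ⟨le_rfl, hs.trans hss⟩
    · rintro v hv ⟨p, x⟩ ⟨hp, hx⟩
      simp only at hp hx ⊢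
      have h1 := wL_mem' h hr hrρ hx
      refine P_mono ?_ (cat_mem (hv.1.trans (le_max_right _ _)) hC
        (P_mono (le_max_left _ _) h1) hp)
      have : max (x.1 + r) v ≤ s₂ := max_le (hx.2.2.trans hss) hv.2
      linarith
    · rintro v hv v' hv' ⟨p, x⟩ ⟨hp, hx⟩ ⟨p', x'⟩ ⟨hp', hx'⟩ hvv hxx
      simp only at hp hx hp' hx' ⊢
      rw [Prod.dist_eq, max_lt_iff] at hxx
      simp only at hxx
      have h1 := wL_mem' h hr hrρ hx
      have h1' := wL_mem' h hr hrρ hx'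
      have h2 := dist_cat_le h1 h1' hp hp' (le_max_left (x.1 + r) v) (le_max_left (x'.1 + r) v')
      have h3 : |max (x.1 + r) v - max (x'.1 + r) v'| ≤ max |(x.1 + r) - (x'.1 + r)| |v - v'| :=
        abs_max_sub_max_le_max _ _ _ _
      have h4 : |(x.1 + r) - (x'.1 + r)| < δ := by
        have := hxx.2
        rw [Prod.dist_eq, max_lt_iff, Real.dist_eq] at this
        rw [add_sub_add_right_eq_sub]
        exact this.1
      rw [Real.dist_eq] at hvv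
      have h5 : dist (wL r x₀ x) (wL r x₀ x') < εe / 4 := hc x hx x' hx' (hxx.2.trans_le hδ1)
      have h6 : max (dist (wL r x₀ x) (wL r x₀ x')) (dist p p') < εe / 4 :=
        max_lt h5 (hxx.1.trans_le hδ2)
      have h7 := h3.trans_lt (max_lt h4 hvv)
      linarith
  obtain ⟨b, hb⟩ := key
  refine ⟨fun β => (-1 : k) ^ m * fibL b z β, fun β hβ hβS => ?_⟩
  have hX : sh z (single β (1 : k)) ∈ Sp k (fun l => l.length = m + j + 1 ∧
      SmL (P x₀ x₁ C ×ˢ Dw x₀ x₂ x₃ t r s) δ l) :=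
    Sp_SmL_sh (p := m) (q := j) hz (single_mem ⟨hβ, hβS⟩ 1)
  have e1 : A1 eta s₂ z (β.map (wL r x₀)) = ev (fun l : List ((ℝ →ᵇ M) × (ℝ × (ℝ →ᵇ M))) =>
      eta (l.map fun x => cat (max (x.2.1 + r) s₂) (wL r x₀ x.2) x.1)) (sh z (single β 1)) := by
    have h1 : sh z (single (β.map (wL r x₀)) (1 : k)) =
        mp (Prod.map id (wL r x₀)) (sh z (single β 1)) := by
      rw [← sh_mp, mp_single]
      congr 1
      have : (mp (id : (ℝ →ᵇ M) → (ℝ →ᵇ M)) : Ch k _ →ₗ[k] Ch k _) = LinearMap.id :=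
        lin_ext fun l => by rw [mp_single, List.map_id, LinearMap.id_apply]
      rw [this, LinearMap.id_apply]
    rw [A1, fibL, h1, ev_mp]
    refine ev_congr (fun l hl => ?_) hX
    rw [List.map_map]
    congr 1
    refine List.map_congr_left fun x hx => ?_
    simp only [Function.comp_apply, Prod.map_fst, Prod.map_snd, id]
    rw [max_eq_right ((hl.2.1 x hx).2.2.2.trans hss)]
  have e2 : A0 eta r z β = ev (fun l : List ((ℝ →ᵇ M) × (ℝ × (ℝ →ᵇ M))) =>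
      eta (l.map fun x => cat (max (x.2.1 + r) 0) (wL r x₀ x.2) x.1)) (sh z (single β 1)) := by
    rw [A0, fibL]
    refine ev_congr (fun l hl => ?_) hX
    congr 1
    refine List.map_congr_left fun x hx => ?_
    obtain ⟨hp, hx'⟩ := hl.2.1 x hx
    have hσ := hx'.1.1.1
    have e1 : (x.1 : ℝ →ᵇ M) 0 = x₀ := eq_left hp le_rfl
    have e2 := splice_zero_right (w := x.2.2) (w' := x.1) (σ := x.2.1) h hr hrρ hx'.1.2.1 hp.1
      (by rw [e1]; exact hx'.2.1)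
    rw [max_eq_left (by linarith)]
    simp only [sw1]
    rw [e2, e1, wL]
  have e3 : ev (dl b) (sh z (single β (1 : k))) = A0 eta r z β - A1 eta s₂ z (β.map (wL r x₀)) := by
    rw [e1, e2]
    have : ev (dl b) (sh z (single β (1 : k))) =
        ev (fun l : List ((ℝ →ᵇ M) × (ℝ × (ℝ →ᵇ M))) =>
        eta (l.map fun x => cat (max (x.2.1 + r) 0) (wL r x₀ x.2) x.1) +
        (-1) * eta (l.map fun x => cat (max (x.2.1 + r) s₂) (wL r x₀ x.2) x.1))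
          (sh z (single β 1)) :=
      ev_congr (fun l hl => by rw [← hb l (by rw [hl.1]; omega) hl.2]; ring) hX
    rw [this, ev_add_fun, ev_smul_fun]
    ring
  rw [← e3, dl_mul_left, dl_fibL_cycle _ (Sp_mono (fun l hl => hl.1) hz) hbz (q := j) (by omega)
    hβ, ← mul_assoc, ← pow_add, ← two_mul, pow_mul]
  simp [fibL]

end Vale.Agent.P216.Sg
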