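import Vale.Agent.P216.H787.Moves

/-!
# The crossing-swap step on the based loops

`OmSys` : the classes `om c j` on `P x₀ (e c) T`, `c : Bool` (two end points `e c`).
-/

open Set Finsupp Topology BoundedContinuousFunction

namespace Vale.Agent.P216.Sl

open PS Sg AS
open Vale.Agent.P216.H250 (catR isMap_catR cat_apply')

/-- The classes `om c j` (degree `j N`) on the paths from `x₀` to `e c`. -/
structure OmSys (k : Type) [Field k] (M : Type) [MetricSpace M] [CompactSpace M] (N : ℕ)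
    (r Ca : ℝ) (x₀ : M) (tau : List (M × M) → k) where
  e : Bool → M
  om : Bool → ℕ → List (ℝ →ᵇ M) → k
  ne : ∀ c, e c ≠ x₀
  nrm : ∀ c j, Nrm (om c j)
  coc : ∀ c j T, CocL (P x₀ (e c) T) (j * N) (om c j)
  zero : ∀ c x, om c 0 [x] = 1
  i : ∀ c j t, 0 ≤ t → ExL (P x₀ (e !c) (t + r)) (j * N) (om (!c) j) →
    ExL (P x₀ (e c) t) ((j + 1) * N) (om c (j + 1))
  ii : ∀ c j t, 0 ≤ t → ¬ ExL (P x₀ (e !c) t) (j * N) (om (!c) j) →
    ¬ ExL (P x₀ (e c) (t + Ca)) ((j + 1) * N) (om c (j + 1))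
  prim : ∀ c j T, ExL (P x₀ (e c) T) (j * N) (om c j) → ∃ g : List (ℝ →ᵇ M) → k, Nrm g ∧
    (j * N = 0 → ∀ l, g l = 0) ∧ ∃ ε > 0, ∀ l, l.length = j * N + 1 → SmL (P x₀ (e c) T) ε l →
      om c j l = dl g l
  det : ∀ c j C (g : List (ℝ →ᵇ M) → k), 0 ≤ C → Nrm g → (j * N = 0 → ∀ l, g l = 0) →
    ¬ ExL (P x₀ (e c) C) ((j + 1) * N) (om c (j + 1)) →
    Det (N + 1) tau (fun l => om (!c) j l - dl g l) r x₀ (e c) (e !c) ((j + 1) * N) C

section

variable {k : Type} [Field k] {E : Type} [PseudoMetricSpace E]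

theorem exL_zero {X : Set E} {f : List E → k} (h : ExL X 0 f) {x : E} (hx : x ∈ X) :
    f [x] = 0 := by
  obtain ⟨g, hg, ε, hε, h⟩ := h
  rw [h [x] rfl ⟨by simpa using hx, by simpa using hε⟩]
  have : g = fun _ => 0 := funext (hg rfl)
  rw [this, PS.dl_zero_fun]

theorem exL_of_empty {X : Set E} (hX : ¬ X.Nonempty) (n : ℕ) (f : List E → k) : ExL X n f := by
  refine ⟨fun _ => 0, fun _ _ => rfl, 1, one_pos, fun l hl hs => ?_⟩
  obtain ⟨x, hx⟩ := List.exists_mem_of_ne_nil l (by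
    rintro rfl
    simp at hl)
  exact absurd ⟨x, hs.1 x hx⟩ hX

theorem P_empty_of_neg {M : Type} [MetricSpace M] {a b : M} (hab : b ≠ a) {t : ℝ} (ht : t < 0) :
    ¬ (P a b t).Nonempty := by
  rintro ⟨w, hw⟩
  exact hab ((eq_right hw le_rfl).symm.trans (eq_left hw ht.le))

end

namespace OmSys

variable {k : Type} [Field k] {M : Type} [MetricSpace M] [CompactSpace M] {N : ℕ}
  {r Ca : ℝ} {x₀ : M} {tau : List (M × M) → k} (S : OmSys k M N r Ca x₀ tau) {D ρ r₀ εt t : ℝ}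

include S

theorem not_ex_zero (c : Bool) (h : (P x₀ (S.e c) t).Nonempty) :
    ¬ ExL (P x₀ (S.e c) t) (0 * N) (S.om c 0) := by
  obtain ⟨w, hw⟩ := h
  rw [Nat.zero_mul]
  intro hE
  have := exL_zero hE hw
  rw [S.zero] at this
  exact one_ne_zero this

theorem exists_not_ex (hD : IsPi M D) (hCa : 0 ≤ Ca) (c : Bool) (j : ℕ) :
    ∃ t, 0 ≤ t ∧ ¬ ExL (P x₀ (S.e c) t) (j * N) (S.om c j) := by
  induction j generalizing c with
  | zero => exact ⟨D, hD.nonneg, S.not_ex_zero c (hD.ne _ _)⟩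
  | succ j ih =>
    obtain ⟨t, ht, h⟩ := ih (!c)
    exact ⟨t + Ca, by linarith, S.ii c j t ht h⟩

theorem exists_window (hD : IsPi M D) (hCa : 0 ≤ Ca) (c : Bool) (j : ℕ) :
    ∃ C c', 0 ≤ C ∧ C - c' ≤ Ca + 2 ∧ ExL (P x₀ (S.e !c) c') (j * N) (S.om (!c) j) ∧
      ¬ ExL (P x₀ (S.e c) C) ((j + 1) * N) (S.om c (j + 1)) := by
  set T : Set ℝ := {t | 0 ≤ t ∧ ¬ ExL (P x₀ (S.e !c) t) (j * N) (S.om (!c) j)} with hT
  have hne : T.Nonempty := S.exists_not_ex hD hCa (!c) j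
  have hbd : BddBelow T := ⟨0, fun t ht => ht.1⟩
  obtain ⟨t, ht, hts⟩ := exists_lt_of_csInf_lt hne (lt_add_one (sInf T))
  refine ⟨t + Ca, sInf T - 1, by linarith [ht.1], by linarith, ?_, S.ii c j t ht.1 ht.2⟩
  by_contra hcon
  rcases lt_or_ge (sInf T - 1) 0 with h | h
  · exact hcon (exL_of_empty (P_empty_of_neg (S.ne _) h) _ _)
  · have := csInf_le hbd (show sInf T - 1 ∈ T from ⟨h, hcon⟩)
    linarith

variable {I : Type} [IsEmpty I] {α : I → (ℝ →ᵇ M) → (ℝ →ᵇ M)} {χ : I → k}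

/-- **The step on the based loops.** -/
theorem step (h : LS.UniqSeg M ρ) (hr : 0 < r) (hrρ : r < ρ) (hr0 : r₀ < r) (hεt : 0 < εt)
    (htau : IsTau (N + 1) r₀ εt tau) (hD : IsPi M D) (hCa : 0 ≤ Ca) (hN : 1 ≤ N) (c : Bool)
    (j : ℕ) {d : ℕ} (hd : j * N < d) (hdm : d ≤ (j + 1) * N) {t s : ℝ} (ht : 0 ≤ t)
    (hs : t + (Ca + 2 + 2 * r + 1 + 5 * D) ≤ s) (hX : P x₀ x₀ t ⊆ P x₀ x₀ s)
    (z z' : Ha α χ (P x₀ x₀ s) d) :
    (∃ a a' : k, (a ≠ 0 ∨ a' ≠ 0) ∧ a • res hX d z + a' • res hX d z' = 0) ∧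
    ((d < (j + 1) * N ∨ ExL (P x₀ (S.e c) (t + (D + (Ca + 2) + 2 * r))) ((j + 1) * N)
      (S.om c (j + 1))) → res hX d z = 0) := by
  have hD0 := hD.nonneg
  obtain ⟨C, c', hC, hG, hex, hne⟩ := S.exists_window hD hCa c j
  obtain ⟨g, hgN, hg0, ε, hε, hg⟩ := S.prim (!c) j c' hex
  have hz : Det (N + 1) tau (fun l => S.om (!c) j l - dl g l) r x₀ (S.e c) (S.e !c)
      ((j + 1) * N) C := S.det c j C g hC hgN hg0 hne
  obtain ⟨u, hu⟩ := hD.ne x₀ (S.e !c)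
  obtain ⟨v₀, hv₀⟩ : (P (S.e !c) (S.e c) (Ca + 2 + 2 * r + 1 + D)).Nonempty :=
    (hD.ne _ _).mono (P_mono (by linarith))
  obtain ⟨vb, hvb⟩ := hD.ne (S.e c) x₀
  set G : ℝ := Ca + 2 with hGdef
  set T : ℝ := t + D + (G + 2 * r + 1 + D + D) with hT
  have htD : 0 ≤ t + D := by linarith
  have hT0 : 0 ≤ T := by linarith
  have hF1 : IsMap α α (P x₀ x₀ t) (P x₀ (S.e !c) (t + D)) (catR t u) :=
    umapR α x₀ ht hD0 hu le_rfl
  have hF2 : IsMap α α (P x₀ (S.e !c) (t + D)) (P x₀ (S.e c) T) (catR (t + D) v₀) :=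
    umapR α x₀ htD (by linarith) hv₀ (by linarith)
  have hF3 : IsMap α α (P x₀ (S.e c) T) (P x₀ x₀ s) (catR T vb) :=
    umapR α x₀ hT0 hD0 hvb (by linarith)
  have hu' : u ∈ P x₀ (S.e !c) (t + D - t) := by rwa [add_sub_cancel_left]
  have huv : cat (t + D - t) u v₀ ∈ P x₀ (S.e c) (T - t) := by
    refine P_mono (by linarith) (cat_mem (t := t + D - t) (by linarith) (by linarith) hu' hv₀)
  have hℓ : cat (T - t) (cat (t + D - t) u v₀) vb ∈ P x₀ x₀ (T - t + D) :=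
    cat_mem (by linarith) hD0 huv hvb
  have hcomp : ∀ w ∈ P x₀ x₀ t, (catR T vb ∘ catR (t + D) v₀ ∘ catR t u) w =
      cat t w (cat (T - t) (cat (t + D - t) u v₀) vb) := by
    intro w hw
    change cat T (cat (t + D) (cat t w u) v₀) vb = _
    rw [cat_assoc' ht (by linarith) (by linarith) hw hu' hv₀,
      cat_assoc' ht (by linarith) hD0 hw huv hvb]
  have hres : ∀ y : Ha α χ (P x₀ x₀ s) d,
      pull χ hF1 d (pull χ hF2 d (pull χ hF3 d y)) = res hX d y := by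
    intro y
    rw [← pull_comp hF3 hF2, ← pull_comp (hF3.comp hF2) hF1]
    exact pull_loop (u := T - t + D) ht (by linarith) hD hℓ (by linarith) (by linarith)
      ((hF3.comp hF2).comp hF1) hcomp y
  have hom1 : CocL (P x₀ (S.e !c) (C + r + (t + D))) (j * N)
      (fun l => S.om (!c) j l - dl g l) :=
    (S.coc (!c) j _).sub ⟨1, one_pos, fun l _ _ => dl_dl g l⟩
  obtain ⟨⟨a, a', ha, h1⟩, h2⟩ := step_cls (n := N + 1) (b := j * N) (d := d) (m := (j + 1) * N)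
    (D := D) (G := G) (C := C) (c' := c') (t := t + D) (x₀ := x₀) (x₁ := S.e c) (x₂ := x₀)
    (x₃ := S.e !c) h hr hrρ hr0 hC htD (by ring) (by omega) hd hdm hεt htau
    ((S.nrm _ _).sub hgN.dl) hom1
    ⟨ε, hε, fun l hl hs => by rw [hg l hl hs, sub_self]⟩ hz hD (by linarith) hG hv₀ hF2
    (pull χ hF3 d z) (pull χ hF3 d z')
  constructor
  · refine ⟨a, a', ha, ?_⟩
    have h3 := congrArg (pull χ hF1 d) h1
    rwa [map_add, map_smul, map_smul, hres, hres, map_zero] at h3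
  · intro hc
    rw [← hres z, h2 ?_, map_zero]
    rcases hc with hc | hc
    · exact Or.inl hc
    · right
      by_contra hcon
      refine hne (hc.mono (P_mono ?_))
      linarith

end OmSys

end Vale.Agent.P216.Sl
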