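import Vale.Agent.P216.H787.SwapG
import Vale.Agent.P216.H787.OmStep

/-!
# P216-C: the crossing-swap identity on the path spaces in the degrees `d ≥ m`
-/

open Set Finsupp Topology BoundedContinuousFunction

namespace Vale.Agent.P216.Sg

open Sl PS

variable {k : Type} [Field k]

section

variable {P T U Q MM O H : Type} {n b : ℕ} {tau : List MM → k} {om : List O → k}
  {eta : List H → k} {c : (P × T) × (U × Q) → MM} {w : (P × T) × (U × Q) → O}
  {v : (P × T) × (U × Q) → H}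

theorem take_In {α : Type} {S : Set α} {l : List α} (h : In S l) (j : ℕ) : In S (l.take j) :=
  h.sub fun _ hx => List.mem_of_mem_take hx

theorem drop_In {α : Type} {S : Set α} {l : List α} (h : In S l) (j : ℕ) : In S (l.drop j) :=
  h.sub fun _ hx => List.mem_of_mem_drop hx

/-- THE CROSSING-SWAP IDENTITY for `m ≤ d`, edge formulas on `(A × B) × (C × D)` only. -/
theorem swap_on_gen {m d : ℕ} (hm : m + 1 = n + b) (hn : 2 ≤ n) (hd : b < d) (hmd : m ≤ d)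
    (htau : Nrm tau) (hom : Nrm om) (heta : Nrm eta)
    {A : Set P} {B : Set T} {C : Set U} {D : Set Q}
    {z : Ch k P} (hz : z ∈ Sp k (Ln (m + 1))) (hzA : z ∈ Sp k (In A)) (hbz : bd z = 0)
    {ι : Ch k T} (hι : ι ∈ Sp k (Ln 2)) (hιB : ι ∈ Sp k (In B)) {t0 t1 : T}
    (hbι : bd ι = single [t1] 1 - single [t0] 1)
    {κ : Ch k U} (hκ : κ ∈ Sp k (Ln 2)) (hκC : κ ∈ Sp k (In C)) {u0 u1 : U}
    (hbκ : bd κ = single [u1] 1 - single [u0] 1) (ht0 : t0 ∈ B) (ht1 : t1 ∈ B) (hu0 : u0 ∈ C)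
    (hu1 : u1 ∈ C)
    {cs1 : P × T → MM} {ws1 : P × T → O}
    (hcs1 : ∀ x ∈ A ×ˢ B, ∀ q ∈ D, c (x, (u1, q)) = cs1 x)
    (hws1 : ∀ x ∈ A ×ˢ B, ∀ q ∈ D, w (x, (u1, q)) = ws1 x)
    {cs0 : P × T → MM} {vs0 : P × T → H}
    (hcs0 : ∀ x ∈ A ×ˢ B, ∀ q ∈ D, c (x, (u0, q)) = cs0 x)
    (hvs0 : ∀ x ∈ A ×ˢ B, ∀ q ∈ D, v (x, (u0, q)) = vs0 x)
    {cr1 : U × Q → MM} {vr1 : U × Q → H} (hcr1 : ∀ p ∈ A, ∀ x ∈ C ×ˢ D, c ((p, t1), x) = cr1 x)
    (hvr1 : ∀ p ∈ A, ∀ x ∈ C ×ˢ D, v ((p, t1), x) = vr1 x)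
    {cr0 : U × Q → MM} {wr0 : U × Q → O} (hcr0 : ∀ p ∈ A, ∀ x ∈ C ×ˢ D, c ((p, t0), x) = cr0 x)
    (hwr0 : ∀ p ∈ A, ∀ x ∈ C ×ˢ D, w ((p, t0), x) = wr0 x) (x0 : P × T) (x1 : U × Q)
    (hx0 : x0 ∈ A ×ˢ B) (hx1 : x1 ∈ C ×ˢ D)
    {y : List Q} (hy : y.length = d + 1) (hyD : In D y)
    (hcoc : ev (psi n b tau om eta c w v) (bd (sh (sh z ι) (sh κ (single y 1)))) = 0) :
    ev (fun ξ => tau ((ξ.take (n + 1)).map cs1) * om ((ξ.drop n).map ws1) *
        eta (y.map fun q => v (ξ.getLastD x0, (u1, q)))) (sh z ι) +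
      fibL (cup (n + b) (fun β => tau ((β.take (n + 1)).map cr0) * om ((β.drop n).map wr0))
        (fibL (fun l => eta (l.map fun x => v ((x.1, t0), x.2))) z)) κ y =
      dl (slant n b tau om eta c w v (sh z ι) κ) y := by
  set g : (P × T) × (U × Q) → (P × T) × (U × Q) := fun x =>
    ((pu A x0.1 x.1.1, pu B x0.2 x.1.2), (pu C x1.1 x.2.1, pu D x1.2 x.2.2)) with hg
  have hgm : ∀ x ∈ (A ×ˢ B) ×ˢ (C ×ˢ D), g x = x := by
    rintro ⟨⟨p, τ⟩, ⟨σ, q⟩⟩ ⟨⟨h1, h2⟩, ⟨h3, h4⟩⟩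
    simp only at h1 h2 h3 h4
    simp only [hg, pu_of_mem h1, pu_of_mem h2, pu_of_mem h3, pu_of_mem h4]
  set g1 : P × T → P × T := fun x => (pu A x0.1 x.1, pu B x0.2 x.2) with hg1
  have hg1m : ∀ x ∈ A ×ˢ B, g1 x = x := by
    rintro ⟨p, τ⟩ ⟨h1, h2⟩
    simp only at h1 h2
    simp only [hg1, pu_of_mem h1, pu_of_mem h2]
  have hg1i : ∀ x, g1 x ∈ A ×ˢ B := fun x => ⟨pu_mem hx0.1 _, pu_mem hx0.2 _⟩
  set g2 : U × Q → U × Q := fun x => (pu C x1.1 x.1, pu D x1.2 x.2) with hg2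
  have hg2m : ∀ x ∈ C ×ˢ D, g2 x = x := by
    rintro ⟨p, τ⟩ ⟨h1, h2⟩
    simp only at h1 h2
    simp only [hg2, pu_of_mem h1, pu_of_mem h2]
  have hg2i : ∀ x, g2 x ∈ C ×ˢ D := fun x => ⟨pu_mem hx1.1 _, pu_mem hx1.2 _⟩
  have hζ : sh z ι ∈ Sp k (In (A ×ˢ B)) := sh_In hzA hιB
  have hX : ∀ y : List Q, In D y → sh (sh z ι) (sh κ (single y (1 : k))) ∈
      Sp k (In ((A ×ˢ B) ×ˢ (C ×ˢ D))) := fun y hyD => sh_In hζ (sh_In hκC (single_mem hyD 1))
  have hcoc' : ev (psi n b tau om eta (c ∘ g) (w ∘ g) (v ∘ g))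
      (bd (sh (sh z ι) (sh κ (single y 1)))) = 0 := by
    rw [← hcoc]
    refine ev_congr (P := In ((A ×ˢ B) ×ˢ (C ×ˢ D))) (fun l hl => ?_) ?_
    · exact psi_congr (fun x hx => by rw [Function.comp_apply, hgm x hx])
        (fun x hx => by rw [Function.comp_apply, hgm x hx])
        (fun x hx => by rw [Function.comp_apply, hgm x hx]) hl
    · exact bd_mem (fun _ _ h hl => hl.sub fun _ hx => h.subset hx) (hX y hyD)
  have main := swap_identity_gen (c := c ∘ g) (w := w ∘ g) (v := v ∘ g) hm hn hd htau hom heta hz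
    hbz hι hbι hκ hbκ (cs1 := cs1 ∘ g1) (ws1 := ws1 ∘ g1) (cs0 := cs0 ∘ g1) (vs0 := vs0 ∘ g1)
    (cr1 := cr1 ∘ g2) (vr1 := vr1 ∘ g2) (cr0 := cr0 ∘ g2) (wr0 := wr0 ∘ g2)
    (fun x q => by
      have := hcs1 (g1 x) (hg1i x) (pu D x1.2 q) (pu_mem hx1.2 q)
      simpa only [Function.comp_apply, hg, pu_of_mem hu1] using this)
    (fun x q => by
      have := hws1 (g1 x) (hg1i x) (pu D x1.2 q) (pu_mem hx1.2 q)
      simpa only [Function.comp_apply, hg, pu_of_mem hu1] using this)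
    (fun x q => by
      have := hcs0 (g1 x) (hg1i x) (pu D x1.2 q) (pu_mem hx1.2 q)
      simpa only [Function.comp_apply, hg, pu_of_mem hu0] using this)
    (fun x q => by
      have := hvs0 (g1 x) (hg1i x) (pu D x1.2 q) (pu_mem hx1.2 q)
      simpa only [Function.comp_apply, hg, pu_of_mem hu0] using this)
    (fun p x => by
      have := hcr1 (pu A x0.1 p) (pu_mem hx0.1 p) (g2 x) (hg2i x)
      simpa only [Function.comp_apply, hg, pu_of_mem ht1] using this)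
    (fun p x => by
      have := hvr1 (pu A x0.1 p) (pu_mem hx0.1 p) (g2 x) (hg2i x)
      simpa only [Function.comp_apply, hg, pu_of_mem ht1] using this)
    (fun p x => by
      have := hcr0 (pu A x0.1 p) (pu_mem hx0.1 p) (g2 x) (hg2i x)
      simpa only [Function.comp_apply, hg, pu_of_mem ht0] using this)
    (fun p x => by
      have := hwr0 (pu A x0.1 p) (pu_mem hx0.1 p) (g2 x) (hg2i x)
      simpa only [Function.comp_apply, hg, pu_of_mem ht0] using this) x0 hy hcoc'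
  rw [if_pos hmd] at main
  have hlast : ∀ {α : Type} {S : Set α} {a : α} {l : List α}, a ∈ S → In S l →
      l.getLastD a ∈ S := by
    intro α S a l ha hl
    rcases List.eq_nil_or_concat l with rfl | ⟨l', x, rfl⟩
    · exact ha
    · rw [List.concat_eq_append] at hl ⊢
      rw [List.getLastD_concat]
      exact hl x (by simp)
  have e1 : ev (fun ξ => tau ((ξ.take (n + 1)).map (cs1 ∘ g1)) *
        om ((ξ.drop n).map (ws1 ∘ g1)) *
        eta (y.map fun q => (v ∘ g) (ξ.getLastD x0, (u1, q)))) (sh z ι) =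
      ev (fun ξ => tau ((ξ.take (n + 1)).map cs1) * om ((ξ.drop n).map ws1) *
        eta (y.map fun q => v (ξ.getLastD x0, (u1, q)))) (sh z ι) := by
    refine ev_congr (fun ξ hξ => ?_) hζ
    rw [map_congr_in (hξ.sub fun _ h => List.mem_of_mem_take h)
        (f := cs1 ∘ g1) (g := cs1) fun x hx => by rw [Function.comp_apply, hg1m x hx],
      map_congr_in (hξ.sub fun _ h => List.mem_of_mem_drop h)
        (f := ws1 ∘ g1) (g := ws1) fun x hx => by rw [Function.comp_apply, hg1m x hx],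
      map_congr_in hyD (f := fun q => (v ∘ g) (ξ.getLastD x0, (u1, q)))
        (g := fun q => v (ξ.getLastD x0, (u1, q))) fun q hq => by
          rw [Function.comp_apply, hgm _ ⟨hlast hx0 hξ, hu1, hq⟩]]
  have e2 : ev (fun β => tau ((β.take (n + 1)).map (cr0 ∘ g2)) *
        om (((β.drop n).take (b + 1)).map (wr0 ∘ g2)) *
        fibL (fun l => eta (l.map fun x => (v ∘ g) ((x.1, t0), x.2))) z (β.drop (n + b)))
          (sh κ (single y 1)) =
      fibL (cup (n + b) (fun β => tau ((β.take (n + 1)).map cr0) * om ((β.drop n).map wr0))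
        (fibL (fun l => eta (l.map fun x => v ((x.1, t0), x.2))) z)) κ y := by
    rw [fibL]
    refine ev_congr (P := In (C ×ˢ D)) (fun β hβ => ?_) (sh_In hκC (single_mem hyD 1))
    rw [cup, List.take_take, min_eq_left (by omega),
      map_congr_in (take_In hβ _)
        (f := cr0 ∘ g2) (g := cr0) fun x hx => by rw [Function.comp_apply, hg2m x hx],
      map_congr_in (take_In (drop_In hβ _) _)
        (f := wr0 ∘ g2) (g := wr0) fun x hx => by rw [Function.comp_apply, hg2m x hx]]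
    congr 1
    · rw [List.drop_take, show n + b + 1 - n = b + 1 by omega]
    · rw [fibL, fibL]
      refine ev_congr (P := In (A ×ˢ (C ×ˢ D))) (fun s hs => ?_)
        (sh_In hzA (single_mem (drop_In hβ _) 1))
      rw [map_congr_in hs (f := fun x => (v ∘ g) ((x.1, t0), x.2))
          (g := fun x => v ((x.1, t0), x.2)) fun x hx => by
            rw [Function.comp_apply, hgm _ ⟨⟨hx.1, ht0⟩, hx.2⟩]]
  have e3 : dl (slant n b tau om eta (c ∘ g) (w ∘ g) (v ∘ g) (sh z ι) κ) y =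
      dl (slant n b tau om eta c w v (sh z ι) κ) y :=
    dl_congr (S := D) (fun l hl => slant_congr
        (fun x hx => by rw [Function.comp_apply, hgm x hx])
        (fun x hx => by rw [Function.comp_apply, hgm x hx])
        (fun x hx => by rw [Function.comp_apply, hgm x hx]) hζ hκC hl) hyD
  rw [e1, e2, e3] at main
  exact main

end

variable {M : Type} [MetricSpace M] [CompactSpace M]
variable {x₀ x₁ x₂ x₃ : M} {C t r ρ δ : ℝ}
variable {n b m d : ℕ} {tau : List (M × M) → k} {om eta : List (ℝ →ᵇ M) → k}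
  {r₀ εt εo εe c' s : ℝ}

/-- The class on the last factor of the edge `τ = 0`. -/
noncomputable def A0 (eta : List (ℝ →ᵇ M) → k) (r : ℝ) (z : Ch k (ℝ →ᵇ M))
    (β : List (ℝ × (ℝ →ᵇ M))) : k :=
  fibL (fun l => eta (l.map fun x => sw1 r ((x.1, 0), x.2))) z β

/-- **THE CROSSING-SWAP IDENTITY ON THE PATH SPACES, `m ≤ d`.** -/
theorem instC (h : LS.UniqSeg M ρ) (hr : 0 < r) (hrρ : r < ρ) (hr0 : r₀ < r) (hC : 0 ≤ C)
    (ht : 0 ≤ t) (hm : m + 1 = n + b) (hn : 2 ≤ n) (hd : b < d) (hmd : m ≤ d)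
    (ntau : Nrm tau) (nom : Nrm om) (neta : Nrm eta) (hεt : 0 < εt) (hεo : 0 < εo)
    (hεe : 0 < εe)
    (htau1 : ∀ l : List (M × M), l.length = n + 2 → SmL univ εt l → dl tau l = 0)
    (htau0 : ∀ l : List (M × M), l.length = n + 1 → SmL univ εt l →
      (∃ p ∈ l, r₀ ≤ dist p.1 p.2) → tau l = 0)
    (hom1 : ∀ l : List (ℝ →ᵇ M), l.length = b + 2 → SmL (P x₀ x₃ (C + r + t)) εo l →
      dl om l = 0)
    (hom0 : ∀ l : List (ℝ →ᵇ M), l.length = b + 1 → SmL (P x₀ x₃ c') εo l → om l = 0)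
    (heta : ∀ l : List (ℝ →ᵇ M), l.length = d + 2 → SmL (P x₂ x₁ s) εe l → dl eta l = 0)
    {D s1 : ℝ} (hD : 0 ≤ D)
    (hpi : ∀ (a b : M) (u : ℝ), 0 ≤ u → ∀ w ∈ P a b u, ∀ w' ∈ P a b u,
      JoinedIn (P a b (u + D)) w w')
    (hs1 : C + 2 * r - c' < s1) (hs1' : 0 ≤ s1)
    (h1 : t + s1 + D ≤ s)
    {v₀ : ℝ →ᵇ M} (hv₀ : v₀ ∈ P x₃ x₁ s1) :
    ∃ δ > 0, ∀ z : Ch k (ℝ →ᵇ M),
      z ∈ Sp k (fun l => l.length = m + 1 ∧ SmL (P x₀ x₁ C) δ l) → bd z = 0 →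
      ∀ ι : Ch k ℝ, ι ∈ Sp k (fun l => l.length = 2 ∧ SmL (Icc 0 C) δ l) →
      bd ι = single [C] 1 - single [0] 1 →
      ∀ κ : Ch k ℝ, κ ∈ Sp k (fun l => l.length = 2 ∧ SmL (Icc 0 t) δ l) →
      bd κ = single [t] 1 - single [0] 1 →
      ∃ g : List (ℝ →ᵇ M) → k, ∀ y : List (ℝ →ᵇ M), y.length = d + 1 → SmL (P x₂ x₃ t) δ y →
        ev (aL n tau om r x₃) (sh z ι) * eta (y.map fun q => cat t q v₀) +
          fibL (cup (n + b) (aR n tau om r x₀) (A0 eta r z)) κ y = dl g y := by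
  obtain ⟨δo, hδo0, hδo⟩ := uc_of_continuousOn (isCompact_Nr (x₀ := x₀) (x₁ := x₁) (x₂ := x₂)
    (x₃ := x₃) (C := C) (t := t) (r := r)) (continuousOn_sw2 h hr hrρ hC ht) hεo
  obtain ⟨δe, hδe0, hδe⟩ := uc_of_continuousOn (isCompact_Nr (x₀ := x₀) (x₁ := x₁) (x₂ := x₂)
    (x₃ := x₃) (C := C) (t := t) (r := r)) (continuousOn_sw1 h hr hrρ hC ht) hεe
  obtain ⟨δ, hδ, a1, a2, a3, a4, a5, -, a7'⟩ := exists_delta hεt (sub_pos.2 hr0) hδo0 hδe0
    (sub_pos.2 hs1) one_pos (lt_min hεe hr)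
  have a7 : 2 * δ ≤ εe := a7'.trans (min_le_left _ _)
  have a8 : 2 * δ ≤ r := a7'.trans (min_le_right _ _)
  have hδo' : ∀ p ∈ Nr x₀ x₁ x₂ x₃ C t r, ∀ p' ∈ Nr x₀ x₁ x₂ x₃ C t r, dist p p' < δ →
      dist (sw2 r p) (sw2 r p') < εo := fun p hp p' hp' hpp => hδo p hp p' hp' (hpp.trans_le a3)
  have hδe' : ∀ p ∈ Nr x₀ x₁ x₂ x₃ C t r, ∀ p' ∈ Nr x₀ x₁ x₂ x₃ C t r, dist p p' < δ →
      dist (sw1 r p) (sw1 r p') < εe := fun p hp p' hp' hpp => hδe p hp p' hp' (hpp.trans_le a4)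
  refine ⟨δ, hδ, fun z hz hbz ι hι hbι κ hκ hbκ => ?_⟩
  by_cases hne : (P x₀ x₁ C).Nonempty
  swap
  · refine ⟨fun _ => 0, fun y _ _ => ?_⟩
    have e0 : A0 eta r (0 : Ch k (ℝ →ᵇ M)) = fun _ => 0 := by
      funext β
      rw [A0, fibL, map_zero, LinearMap.zero_apply, map_zero]
    have e1 : cup (n + b) (aR n tau om r x₀) (fun _ : List (ℝ × (ℝ →ᵇ M)) => (0 : k)) =
        fun _ => 0 := by
      funext β
      rw [cup, mul_zero]
    rw [chain_eq_zero hz hne, map_zero, LinearMap.zero_apply, map_zero, zero_mul, e0, e1, fibL,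
      ev_zero_fun, add_zero, PS.dl_zero_fun]
  by_cases hne' : (P x₂ x₃ t).Nonempty
  swap
  · refine ⟨fun _ => 0, fun y hy hyS => ?_⟩
    obtain ⟨x, hx⟩ := List.exists_mem_of_ne_nil y (by
      rintro rfl
      simp at hy)
    exact absurd ⟨x, hyS.1 x hx⟩ hne'
  obtain ⟨α₀, hα₀⟩ := hne
  obtain ⟨q₀, hq₀⟩ := hne'
  have hzι : sh z ι ∈ Sp k (fun l => l.length = m + 1 + 1 ∧ SmL (P x₀ x₁ C ×ˢ Icc 0 C) δ l) :=
    Sp_SmL_sh (q := 1) hz hι
  -- the edge `σ = t`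
  obtain ⟨b1, hb1⟩ := Hm.ev_sum (eta := eta) (X := P x₂ x₃ t) (δ := δ) (d := d)
    (a := aL n tau om r x₃) (Z := sh z ι)
    (i := fun ξ q => sw1 r (ξ.getLastD (α₀, 0), (t, q))) (i₀ := fun q => cat t q v₀)
    (fun ξ hξ ha => by
      have hξ' := (Finsupp.mem_supported _ _).1 hzι (Finsupp.mem_support_iff.2 hξ)
      have hξl : ξ.length = m + 1 + 1 := hξ'.1
      have hξS : SmL (P x₀ x₁ C ×ˢ Icc 0 C) δ ξ := hξ'.2
      have hξne : ξ ≠ [] := by
        rintro rfl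
        simp at hξl
      have hlast := getLastD_mem (α₀, (0 : ℝ)) hξne
      obtain ⟨hd1, hd2⟩ := edge_right h hr hrρ ht hδ a1 a2 htau0 hom0 hδo' hq₀ hξS (by omega) ha
        _ hlast
      obtain ⟨hα, hτ⟩ := hξS.1 _ hlast
      set x := ξ.getLastD (α₀, (0 : ℝ)) with hx
      have hw : splice r (cst x₃) x.1 0 x.2 ∈ P x₃ x₁ s1 := by
        refine P_mono ?_ (splice_mem (t := C) h hr hrρ (lip_cst x₃) hα.1 (by rwa [cst_apply])
          le_rfl hτ.2 (fun _ _ => cst_apply _ _) hα.2.2)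
        linarith
      have key := Hm_cat_right (a := x₂) (b := x₃) (c := x₁) (t := t) (s := s1 + D) (ε := εe)
        (d := d) (eta := eta) ht (by linarith) hεe
        (fun l hl hl' => heta l hl (hl'.mono (P_mono (by linarith)) le_rfl))
        (hpi x₃ x₁ s1 hs1' v₀ hv₀ _ hw)
      refine (key.mono le_rfl (by linarith)).congr (fun _ _ => rfl) fun q hq => ?_
      have e1 : (q : ℝ →ᵇ M) t = x₃ := eq_right hq le_rfl
      have e2 := splice_end_left (w := q) (w' := x.1) (t := t) (τ := x.2) h hr hrρ hq.1 hα.1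
        (by rwa [e1])
      simp only [sw1]
      rw [e2, e1])
  -- assembly
  refine ⟨fun y => slant n b tau om eta cr (sw2 r) (sw1 r) (sh z ι) κ y + -b1 y,
    fun y hy hyS => ?_⟩
  have hcoc : ev (psi n b tau om eta cr (sw2 r) (sw1 r))
      (bd (sh (sh z ι) (sh κ (single y 1)))) = 0 := by
    rw [← ev_dl]
    have hX : sh (sh z ι) (sh κ (single y (1 : k))) ∈ Sp k (fun l : List (PT M) =>
        l.length = (m + 1) + (d + 1) + 1 ∧ SmL (Dom x₀ x₁ x₂ x₃ C t) δ l) := by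
      have h3 := Sp_SmL_sh (p := 1) (q := d) hκ (single_mem (k := k)
        (P := fun l => l.length = d + 1 ∧ SmL (P x₂ x₃ t) δ l) ⟨hy, hyS⟩ 1)
      rw [show 1 + d + 1 = (d + 1) + 1 by omega] at h3
      exact Sp_SmL_sh hzι h3
    exact ev_zero_of (fun l hl => dl_psi_zero h hr hrρ (by linarith) a1 a2 htau1 htau0 hom1 hom0
      heta hδo' hδe' (by rw [hl.1]; omega) hl.2) hX
  have hzIn : z ∈ Sp k (In (P x₀ x₁ C)) := Sp_mono (fun l hl => hl.2.1) hz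
  have hιIn : ι ∈ Sp k (In (Icc 0 C)) := Sp_mono (fun l hl => hl.2.1) hι
  have hκIn : κ ∈ Sp k (In (Icc 0 t)) := Sp_mono (fun l hl => hl.2.1) hκ
  have swap := swap_on_gen (A := P x₀ x₁ C) (B := Icc 0 C) (C := Icc 0 t) (D := P x₂ x₃ t)
    (c := cr) (w := sw2 r) (v := sw1 r) (tau := tau) (om := om) (eta := eta)
    hm hn hd hmd ntau nom neta (Sp_mono (fun l hl => hl.1) hz) hzIn hbz
    (Sp_mono (fun l hl => hl.1) hι) hιIn hbι (Sp_mono (fun l hl => hl.1) hκ) hκIn hbκ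
    ⟨le_rfl, hC⟩ ⟨hC, le_rfl⟩ ⟨le_rfl, ht⟩ ⟨ht, le_rfl⟩
    (cs1 := fun x => (x.1 x.2, x₃)) (ws1 := fun x => splice r x.1 (cst x₃) x.2 0)
    (fun x _ q hq => by simp only [cr]; rw [eq_right hq le_rfl])
    (fun x _ q hq => splice_end_right hr fun u hu => eq_right hq hu)
    (cs0 := fun x => (x.1 x.2, x₂)) (vs0 := fun x => splice r (cst x₂) x.1 0 x.2)
    (fun x _ q hq => by simp only [cr]; rw [eq_left hq le_rfl])
    (fun x _ q hq => splice_zero_left hr fun u hu => eq_left hq hu)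
    (cr1 := fun x => (x₁, x.2 x.1)) (vr1 := fun x => splice r x.2 (cst x₁) x.1 0)
    (fun p hp x _ => by simp only [cr]; rw [eq_right hp le_rfl])
    (fun p hp x _ => splice_end_right hr fun u hu => eq_right hp hu)
    (cr0 := fun x => (x₀, x.2 x.1)) (wr0 := fun x => splice r (cst x₀) x.2 0 x.1)
    (fun p hp x _ => by simp only [cr]; rw [eq_left hp le_rfl])
    (fun p hp x _ => splice_zero_left hr fun u hu => eq_left hp hu)
    (α₀, 0) (0, q₀) ⟨hα₀, ⟨le_rfl, hC⟩⟩ ⟨⟨le_rfl, ht⟩, hq₀⟩ hy hyS.1 hcoc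
  have hb := hb1 y hy hyS
  rw [PS.dl_add, PS.dl_neg, ← swap, ← hb]
  have e4 : cup (n + b) (aR n tau om r x₀) (A0 eta r z) =
      cup (n + b) (fun β : List (ℝ × (ℝ →ᵇ M)) => tau ((β.take (n + 1)).map fun x =>
        (x₀, x.2 x.1)) * om ((β.drop n).map fun x => splice r (cst x₀) x.2 0 x.1))
        (fibL (fun l => eta (l.map fun x => sw1 r ((x.1, 0), x.2))) z) := rfl
  rw [e4]
  simp only [aL]
  ring

end Vale.Agent.P216.Sg
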