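import Vale.Agent.P216.H787.Slant

/-!
# Evaluation of product cochains on lattice path products, and the four edges of the swap square

Cochains are functions on lists. `Nrm f`: `f` vanishes on lists with two equal consecutive entries.
-/

open Finsupp

namespace Vale.Agent.P216.Sl

variable {k : Type} [Field k]
variable {α β γ δ : Type}

/-! ### Evaluation -/

/-- Evaluation of a function on lists on a chain. -/
noncomputable def ev (f : List α → k) : Ch k α →ₗ[k] k := Finsupp.linearCombination k f

@[simp] theorem ev_single (f : List α → k) (l : List α) (r : k) : ev f (single l r) = r * f l := by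
  simp [ev, Finsupp.linearCombination_single]

/-- The coboundary of a function on lists. -/
noncomputable def dl (f : List α → k) (l : List α) : k := ev f (bdL l)

theorem ev_dl (f : List α → k) (c : Ch k α) : ev (dl f) c = ev f (bd c) := by
  have := lin_ext_apply (f := ev (dl f)) (g := (ev f).comp bd) (fun l => by simp [dl]) c
  simpa using this

theorem ev_congr {f g : List α → k} {P : List α → Prop} (h : ∀ l, P l → f l = g l) {c : Ch k α}
    (hc : c ∈ Sp k P) : ev f c = ev g c :=
  eq_of_mem (fun l hl => by rw [ev_single, ev_single, h l hl]) hc

theorem ev_zero_of {f : List α → k} {P : List α → Prop} (h : ∀ l, P l → f l = 0) {c : Ch k α}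
    (hc : c ∈ Sp k P) : ev f c = 0 := by
  have := eq_of_mem (F := ev f) (G := 0) (fun l hl => by rw [ev_single, h l hl]; simp) hc
  simpa using this

theorem ev_cons (f : List α → k) (x : α) (c : Ch k α) :
    ev f (cons x c) = ev (fun l => f (x :: l)) c := by
  have := lin_ext_apply (f := (ev f).comp (cons x)) (g := ev (fun l => f (x :: l)))
    (fun l => by simp) c
  simpa using this

theorem ev_mp (f : List β → k) (g : α → β) (c : Ch k α) :
    ev f (mp g c) = ev (fun l => f (l.map g)) c := by
  have := lin_ext_apply (f := (ev f).comp (mp g)) (g := ev (fun l => f (l.map g)))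
    (fun l => by simp) c
  simpa using this

theorem ev_smul_fun (a : k) (f : List α → k) (c : Ch k α) :
    ev (fun l => a * f l) c = a * ev f c := by
  have := lin_ext_apply (f := ev (fun l => a * f l)) (g := a • ev f)
    (fun l => by simp) c
  simpa using this

theorem ev_fun_smul (a : k) (f : List α → k) (c : Ch k α) :
    ev (fun l => f l * a) c = ev f c * a := by
  have := lin_ext_apply (f := ev (fun l => f l * a)) (g := a • ev f)
    (fun l => by simp; ring) c
  simp only [LinearMap.smul_apply, smul_eq_mul] at this
  rw [this, mul_comm]

theorem ev_add_fun (f g : List α → k) (c : Ch k α) :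
    ev (fun l => f l + g l) c = ev f c + ev g c := by
  have := lin_ext_apply (f := ev (fun l => f l + g l)) (g := ev f + ev g)
    (fun l => by simp) c
  simpa using this

theorem ev_zero_fun (c : Ch k α) : ev (fun _ => (0 : k)) c = 0 := by
  have := lin_ext_apply (f := ev (fun _ : List α => (0 : k))) (g := (0 : Ch k α →ₗ[k] k))
    (fun l => by simp) c
  simpa using this

/-! ### Products with a point, naturality, support -/

theorem Sh_point_right (b : β) : ∀ {s : List α}, s ≠ [] →
    (Sh s [b] : Ch k (α × β)) = single (s.map fun a => (a, b)) 1 := by
  intro s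
  induction s with
  | nil => intro h; exact absurd rfl h
  | cons a s ih =>
    intro _
    rcases s with _ | ⟨a', s⟩
    · exact Sh_one a b
    · rw [Sh_cons (by simp), ih (by simp), Sh_nil_right, smul_zero, add_zero, cons_single]
      rfl

theorem Sh_point_left (a : α) : ∀ {t : List β}, t ≠ [] →
    (Sh [a] t : Ch k (α × β)) = single (t.map fun b => (a, b)) 1 := by
  intro t
  induction t with
  | nil => intro h; exact absurd rfl h
  | cons b t ih =>
    intro _
    rcases t with _ | ⟨b', t⟩
    · exact Sh_one a b
    · rw [Sh_cons (by simp), ih (by simp), Sh_nil_left, zero_add, List.length_nil, pow_zero,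
        one_smul, cons_single]
      rfl

/-- Nonempty lists. -/
def Ne (l : List α) : Prop := l ≠ []

theorem sh_point_right (b : β) {c : Ch k α} (hc : c ∈ Sp k Ne) :
    sh c (single [b] (1 : k)) = mp (fun a => (a, b)) c := by
  have := eq_of_mem (P := Ne)
    (F := (sh (k := k) (α := α) (β := β)).flip (single [b] (1 : k)))
    (G := mp fun a => (a, b))
    (fun s hs => by rw [LinearMap.flip_apply, sh_single, mp_single, Sh_point_right b hs]) hc
  simpa using this

theorem sh_point_left (a : α) {c : Ch k β} (hc : c ∈ Sp k Ne) :
    sh (single [a] (1 : k)) c = mp (fun b => (a, b)) c := by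
  have := eq_of_mem (P := Ne)
    (F := (sh (k := k) (α := α) (β := β)) (single [a] (1 : k)))
    (G := mp fun b => (a, b))
    (fun s hs => by rw [sh_single, mp_single, Sh_point_left a hs]) hc
  simpa using this

theorem Sh_map (f : α → γ) (g : β → δ) (n : ℕ) : ∀ (s : List α) (t : List β),
    s.length + t.length = n → (Sh (s.map f) (t.map g) : Ch k (γ × δ)) =
      mp (Prod.map f g) (Sh s t) := by
  induction n with
  | zero =>
    intro s t h
    have hs : s = [] := List.length_eq_zero_iff.1 (by omega)
    subst hs
    rw [List.map_nil, Sh_nil_left, Sh_nil_left, map_zero]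
  | succ n ih =>
    intro s t h
    rcases s with _ | ⟨a, s⟩
    · rw [List.map_nil, Sh_nil_left, Sh_nil_left, map_zero]
    rcases t with _ | ⟨b, t⟩
    · rw [List.map_nil, Sh_nil_right, Sh_nil_right, map_zero]
    by_cases hne : s = [] ∧ t = []
    · obtain ⟨rfl, rfl⟩ := hne
      simp only [List.map_cons, List.map_nil, Sh_one, mp_single]
      rfl
    · have hne' : ¬ (s.map f = [] ∧ t.map g = []) := by simpa using hne
      simp only [List.length_cons] at h
      have h1 := ih s (b :: t) (by simp only [List.length_cons]; omega)
      have h2 := ih (a :: s) t (by simp only [List.length_cons]; omega)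
      rw [List.map_cons] at h1 h2
      rw [List.map_cons, List.map_cons, Sh_cons hne', Sh_cons hne, h1, h2, mp_cons, map_add,
        map_add, map_smul, map_smul, map_add, map_smul, List.length_map]
      rfl

theorem sh_mp (f : α → γ) (g : β → δ) (c : Ch k α) (c' : Ch k β) :
    sh (mp f c) (mp g c') = mp (Prod.map f g) (sh c c') := by
  have := bilin_ext
    (f := (sh (k := k) (α := γ) (β := δ)).compl₁₂ (mp f) (mp g))
    (g := (sh (k := k) (α := α) (β := β)).compr₂ (mp (Prod.map f g)))
    (fun s t => by
      rw [LinearMap.compl₁₂_apply, LinearMap.compr₂_apply, mp_single, mp_single, sh_single,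
        sh_single, Sh_map f g _ s t rfl])
  have h := congrArg (fun F => F c c') this
  simpa only [LinearMap.compl₁₂_apply, LinearMap.compr₂_apply] using h

/-- `l` is a list of points of the grid `s × t` of the right length. -/
def Gr (s : List α) (t : List β) (l : List (α × β)) : Prop :=
  l.length + 1 = s.length + t.length ∧ ∀ x ∈ l, x.1 ∈ s ∧ x.2 ∈ t

theorem Sh_mem (n : ℕ) : ∀ (s : List α) (t : List β), s.length + t.length = n →
    (Sh s t : Ch k (α × β)) ∈ Sp k (Gr s t) := by
  induction n with
  | zero =>
    intro s t h
    have hs : s = [] := List.length_eq_zero_iff.1 (by omega)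
    subst hs
    rw [Sh_nil_left]
    exact Submodule.zero_mem _
  | succ n ih =>
    intro s t h
    rcases s with _ | ⟨a, s⟩
    · rw [Sh_nil_left]; exact Submodule.zero_mem _
    rcases t with _ | ⟨b, t⟩
    · rw [Sh_nil_right]; exact Submodule.zero_mem _
    by_cases hne : s = [] ∧ t = []
    · obtain ⟨rfl, rfl⟩ := hne
      rw [Sh_one]
      exact single_mem ⟨by simp, by simp⟩ _
    · simp only [List.length_cons] at h
      have h1 := ih s (b :: t) (by simp only [List.length_cons]; omega)
      have h2 := ih (a :: s) t (by simp only [List.length_cons]; omega)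
      rw [Sh_cons hne, map_add, map_smul]
      refine Submodule.add_mem _ ?_ (Submodule.smul_mem _ _ ?_)
      · refine map_mem _ (fun l hl => ?_) h1
        rw [cons_single]
        refine single_mem ⟨?_, ?_⟩ _
        · have := hl.1
          simp only [List.length_cons] at this ⊢
          omega
        · intro x hx
          rcases List.mem_cons.1 hx with rfl | hx
          · exact ⟨List.mem_cons_self, List.mem_cons_self⟩
          · exact ⟨List.mem_cons_of_mem _ (hl.2 x hx).1, (hl.2 x hx).2⟩
      · refine map_mem _ (fun l hl => ?_) h2
        rw [cons_single]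
        refine single_mem ⟨?_, ?_⟩ _
        · have := hl.1
          simp only [List.length_cons] at this ⊢
          omega
        · intro x hx
          rcases List.mem_cons.1 hx with rfl | hx
          · exact ⟨List.mem_cons_self, List.mem_cons_self⟩
          · exact ⟨(hl.2 x hx).1, List.mem_cons_of_mem _ (hl.2 x hx).2⟩

/-- Support of a product of chains. -/
theorem sh_mem {P : List α → Prop} {Q : List β → Prop} {R : List (α × β) → Prop}
    (h : ∀ s t l, P s → Q t → Gr s t l → R l) {c : Ch k α} {c' : Ch k β} (hc : c ∈ Sp k P)
    (hc' : c' ∈ Sp k Q) : sh c c' ∈ Sp k R := by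
  have h1 : ∀ s, P s → sh (single s (1 : k)) c' ∈ Sp k R := fun s hs =>
    map_mem _ (fun t ht => by
      rw [sh_single]
      exact Sp_mono (fun l hl => h s t l hs ht hl) (Sh_mem _ s t rfl)) hc'
  exact map_mem ((sh (k := k) (α := α) (β := β)).flip c')
    (fun s hs => by rw [LinearMap.flip_apply]; exact h1 s hs) hc

/-! ### Normalised functions and the front lemmas -/

/-- `f` vanishes on the lists with two equal consecutive entries. -/
def Nrm (f : List α → k) : Prop := ∀ l, ¬ l.IsChain (· ≠ ·) → f l = 0

theorem Nrm.cons {f : List α → k} (h : Nrm f) (a : α) : Nrm fun l => f (a :: l) :=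
  fun _ hl => h _ fun hc => hl hc.tail

theorem Nrm.dup {f : List α → k} (h : Nrm f) (a : α) (l : List α) : f (a :: a :: l) = 0 :=
  h _ fun hc => by
    rw [List.isChain_cons_cons] at hc
    exact hc.1 rfl

theorem Nrm.map {f : List β → k} (h : Nrm f) (g : α → β) : Nrm fun l : List α => f (l.map g) :=
  fun l hl => h _ fun hc => hl <| by
    rw [List.isChain_map] at hc
    exact hc.imp fun _ _ hab heq => hab (by rw [heq])

/-- Front lemma, first coordinate. -/
theorem front_left {f : List α → k} (hf : Nrm f) (g : List (α × β) → k) (n : ℕ) :
    ∀ (s : List α) (t : List β), n + 2 ≤ s.length + t.length → s ≠ [] → t ≠ [] →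
    ev (fun l => f ((l.take (n + 1)).map Prod.fst) * g (l.drop n)) (Sh s t) =
      if n + 1 ≤ s.length then f (s.take (n + 1)) * ev g (Sh (s.drop n) t) else 0 := by
  induction n generalizing f with
  | zero =>
    intro s t h hs ht
    rcases s with _ | ⟨a, s⟩
    · exact absurd rfl hs
    rcases t with _ | ⟨b, t⟩
    · exact absurd rfl ht
    rw [if_pos (by simp), List.drop_zero, ← ev_smul_fun]
    refine ev_congr (P := fun l => l.head? = some (a, b)) (fun l hl => ?_) ?_
    · obtain ⟨l', rfl⟩ : ∃ l', l = (a, b) :: l' := by
        rcases l with _ | ⟨x, l'⟩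
        · simp at hl
        · simp only [List.head?_cons, Option.some.injEq] at hl
          exact ⟨l', by rw [hl]⟩
      simp
    · rw [Sh]
      exact map_mem _ (fun l _ => by rw [cons_single]; exact single_mem (by simp) _)
        (P := fun _ => True) (by simp [Finsupp.mem_supported])
  | succ n ih =>
    intro s t h hs ht
    rcases s with _ | ⟨a, s⟩
    · exact absurd rfl hs
    rcases t with _ | ⟨b, t⟩
    · exact absurd rfl ht
    simp only [List.length_cons] at h
    have hne : ¬ (s = [] ∧ t = []) := by
      rintro ⟨rfl, rfl⟩
      simp at h
    rw [Sh_cons hne, ev_cons, map_add, map_smul]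
    have e2 : ev (fun l : List (α × β) => f ((((a, b) :: l).take (n + 1 + 1)).map Prod.fst) *
        g (((a, b) :: l).drop (n + 1))) (Sh (a :: s) t) = (0 : k) := by
      rcases t with _ | ⟨b', t⟩
      · rw [Sh_nil_right, map_zero]
      · refine ev_zero_of (P := fun l => l.head? = some (a, b')) (fun l hl => ?_) ?_
        · obtain ⟨l', rfl⟩ : ∃ l', l = (a, b') :: l' := by
            rcases l with _ | ⟨x, l'⟩
            · simp at hl
            · simp only [List.head?_cons, Option.some.injEq] at hl
              exact ⟨l', by rw [hl]⟩
          rw [List.take_succ_cons, List.take_succ_cons, List.map_cons, List.map_cons]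
          change f (a :: a :: _) * _ = 0
          rw [hf.dup, zero_mul]
        · rw [Sh]
          exact map_mem _ (fun l _ => by rw [cons_single]; exact single_mem (by simp) _)
            (P := fun _ => True) (by simp [Finsupp.mem_supported])
    rw [e2, smul_zero, add_zero]
    rcases s with _ | ⟨a', s⟩
    · rw [Sh_nil_left, map_zero, if_neg (by simp)]
    · have h3 := ih (hf.cons a) (a' :: s) (b :: t) (by
        simp only [List.length_cons] at h ⊢; omega) (by simp) (by simp)
      have h4 : ev (fun l : List (α × β) => f ((((a, b) :: l).take (n + 1 + 1)).map Prod.fst) *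
        g (((a, b) :: l).drop (n + 1))) (Sh (a' :: s) (b :: t)) =
          ev (fun l => (fun l' => f (a :: l')) ((l.take (n + 1)).map Prod.fst) * g (l.drop n))
            (Sh (a' :: s) (b :: t)) := rfl
      rw [h4, h3]
      simp only [List.length_cons, List.drop_succ_cons, List.take_succ_cons]
      by_cases hle : n + 1 ≤ s.length + 1
      · rw [if_pos hle, if_pos (by omega)]
      · rw [if_neg hle, if_neg (by omega)]

/-- Front lemma, second coordinate. -/
theorem front_right {f : List β → k} (hf : Nrm f) (g : List (α × β) → k) (n : ℕ) :
    ∀ (s : List α) (t : List β), n + 2 ≤ s.length + t.length → s ≠ [] → t ≠ [] →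
    ev (fun l => f ((l.take (n + 1)).map Prod.snd) * g (l.drop n)) (Sh s t) =
      if n + 1 ≤ t.length then
        (-1 : k) ^ ((s.length + 1) * n) * (f (t.take (n + 1)) * ev g (Sh s (t.drop n))) else 0 := by
  induction n generalizing f with
  | zero =>
    intro s t h hs ht
    rcases s with _ | ⟨a, s⟩
    · exact absurd rfl hs
    rcases t with _ | ⟨b, t⟩
    · exact absurd rfl ht
    rw [if_pos (by simp), List.drop_zero, mul_zero, pow_zero, one_mul, ← ev_smul_fun]
    refine ev_congr (P := fun l => l.head? = some (a, b)) (fun l hl => ?_) ?_
    · obtain ⟨l', rfl⟩ : ∃ l', l = (a, b) :: l' := by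
        rcases l with _ | ⟨x, l'⟩
        · simp at hl
        · simp only [List.head?_cons, Option.some.injEq] at hl
          exact ⟨l', by rw [hl]⟩
      simp
    · rw [Sh]
      exact map_mem _ (fun l _ => by rw [cons_single]; exact single_mem (by simp) _)
        (P := fun _ => True) (by simp [Finsupp.mem_supported])
  | succ n ih =>
    intro s t h hs ht
    rcases s with _ | ⟨a, s⟩
    · exact absurd rfl hs
    rcases t with _ | ⟨b, t⟩
    · exact absurd rfl ht
    simp only [List.length_cons] at h
    have hne : ¬ (s = [] ∧ t = []) := by
      rintro ⟨rfl, rfl⟩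
      simp at h
    rw [Sh_cons hne, ev_cons, map_add, map_smul]
    have e2 : ev (fun l : List (α × β) => f ((((a, b) :: l).take (n + 1 + 1)).map Prod.snd) *
        g (((a, b) :: l).drop (n + 1))) (Sh s (b :: t)) = (0 : k) := by
      rcases s with _ | ⟨a', s⟩
      · rw [Sh_nil_left, map_zero]
      · refine ev_zero_of (P := fun l => l.head? = some (a', b)) (fun l hl => ?_) ?_
        · obtain ⟨l', rfl⟩ : ∃ l', l = (a', b) :: l' := by
            rcases l with _ | ⟨x, l'⟩
            · simp at hl
            · simp only [List.head?_cons, Option.some.injEq] at hl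
              exact ⟨l', by rw [hl]⟩
          rw [List.take_succ_cons, List.take_succ_cons, List.map_cons, List.map_cons]
          change f (b :: b :: _) * _ = 0
          rw [hf.dup, zero_mul]
        · rw [Sh]
          exact map_mem _ (fun l _ => by rw [cons_single]; exact single_mem (by simp) _)
            (P := fun _ => True) (by simp [Finsupp.mem_supported])
    rw [e2, zero_add]
    rcases t with _ | ⟨b', t⟩
    · rw [Sh_nil_right, map_zero, smul_zero, if_neg (by simp)]
    · have h3 := ih (hf.cons b) (a :: s) (b' :: t) (by
        simp only [List.length_cons] at h ⊢; omega) (by simp) (by simp)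
      have h4 : ev (fun l : List (α × β) => f ((((a, b) :: l).take (n + 1 + 1)).map Prod.snd) *
        g (((a, b) :: l).drop (n + 1))) (Sh (a :: s) (b' :: t)) =
          ev (fun l => (fun l' => f (b :: l')) ((l.take (n + 1)).map Prod.snd) * g (l.drop n))
            (Sh (a :: s) (b' :: t)) := rfl
      rw [h4, h3]
      simp only [List.length_cons, List.drop_succ_cons, List.take_succ_cons]
      by_cases hle : n + 1 ≤ t.length + 1
      · rw [if_pos hle, if_pos (by omega), smul_eq_mul, ← mul_assoc]
        congr 1
        rw [← pow_add]
        rw [show (s.length + 1 + 1) * (n + 1) = s.length + (s.length + 1 + 1) * n + 2 by ring,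
          pow_add _ _ 2]
        simp
      · rw [if_neg hle, if_neg (by omega), smul_zero]

/-! ### The counting lemma -/

/-- Along a lattice path, a final piece with pairwise different consecutive first coordinates has
at most `s.length` entries. -/
theorem Sh_chain_fst (n : ℕ) : ∀ (s : List α) (t : List β), s.length + t.length = n →
    (Sh s t : Ch k (α × β)) ∈ Sp k (fun l => ∀ j, ((l.drop j).map Prod.fst).IsChain (· ≠ ·) →
      l.length ≤ s.length + j) := by
  induction n with
  | zero =>
    intro s t h
    have hs : s = [] := List.length_eq_zero_iff.1 (by omega)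
    subst hs
    rw [Sh_nil_left]
    exact Submodule.zero_mem _
  | succ n ih =>
    intro s t h
    rcases s with _ | ⟨a, s⟩
    · rw [Sh_nil_left]; exact Submodule.zero_mem _
    rcases t with _ | ⟨b, t⟩
    · rw [Sh_nil_right]; exact Submodule.zero_mem _
    by_cases hne : s = [] ∧ t = []
    · obtain ⟨rfl, rfl⟩ := hne
      rw [Sh_one]
      refine single_mem (fun j _ => ?_) _
      simp
    · simp only [List.length_cons] at h
      have h1 := ih s (b :: t) (by simp only [List.length_cons]; omega)
      have h2 := ih (a :: s) t (by simp only [List.length_cons]; omega)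
      have h2' : (Sh (a :: s) t : Ch k (α × β)) ∈
          Sp k (fun l => (l = [] ∨ ∃ y l', l = (a, y) :: l') ∧
          ∀ j, ((l.drop j).map Prod.fst).IsChain (· ≠ ·) → l.length ≤ (a :: s).length + j) := by
        rcases t with _ | ⟨b', t⟩
        · rw [Sh_nil_right]; exact Submodule.zero_mem _
        · have h5 : (Sh (a :: s) (b' :: t) : Ch k (α × β)) ∈
              Sp k (fun l => l = [] ∨ ∃ y l', l = (a, y) :: l') := by
            rw [Sh]
            exact map_mem _ (fun l _ => by
              rw [cons_single]; exact single_mem (Or.inr ⟨b', l, rfl⟩) _)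
              (P := fun _ => True) (by simp [Finsupp.mem_supported])
          rw [Finsupp.mem_supported] at h5 h2 ⊢
          exact fun l hl => ⟨h5 hl, h2 hl⟩
      rw [Sh_cons hne, map_add, map_smul]
      refine Submodule.add_mem _ ?_ (Submodule.smul_mem _ _ ?_)
      · refine map_mem _ (fun l hl => ?_) h1
        rw [cons_single]
        refine single_mem (fun j hj => ?_) _
        rcases j with _ | j
        · have := hl 0 (by
            simp only [List.drop_zero, List.map_cons] at hj
            simpa using hj.tail)
          simp only [List.length_cons]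
          omega
        · have := hl j (by simpa using hj)
          simp only [List.length_cons]
          omega
      · refine map_mem _ (fun l hl => ?_) h2'
        rw [cons_single]
        refine single_mem (fun j hj => ?_) _
        rcases j with _ | j
        · rcases hl.1 with rfl | ⟨y, l', rfl⟩
          · simp
          · exfalso
            simp only [List.drop_zero, List.map_cons, List.isChain_cons_cons] at hj
            exact hj.1 rfl
        · have := hl.2 j (by simpa using hj)
          simp only [List.length_cons] at this ⊢
          omega

theorem Sh_chain_snd (n : ℕ) : ∀ (s : List α) (t : List β), s.length + t.length = n →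
    (Sh s t : Ch k (α × β)) ∈ Sp k (fun l => ∀ j, ((l.drop j).map Prod.snd).IsChain (· ≠ ·) →
      l.length ≤ t.length + j) := by
  induction n with
  | zero =>
    intro s t h
    have hs : s = [] := List.length_eq_zero_iff.1 (by omega)
    subst hs
    rw [Sh_nil_left]
    exact Submodule.zero_mem _
  | succ n ih =>
    intro s t h
    rcases s with _ | ⟨a, s⟩
    · rw [Sh_nil_left]; exact Submodule.zero_mem _
    rcases t with _ | ⟨b, t⟩
    · rw [Sh_nil_right]; exact Submodule.zero_mem _
    by_cases hne : s = [] ∧ t = []
    · obtain ⟨rfl, rfl⟩ := hne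
      rw [Sh_one]
      refine single_mem (fun j _ => ?_) _
      simp
    · simp only [List.length_cons] at h
      have h1 := ih s (b :: t) (by simp only [List.length_cons]; omega)
      have h2 := ih (a :: s) t (by simp only [List.length_cons]; omega)
      have h1' : (Sh s (b :: t) : Ch k (α × β)) ∈
          Sp k (fun l => (l = [] ∨ ∃ x l', l = (x, b) :: l') ∧
          ∀ j, ((l.drop j).map Prod.snd).IsChain (· ≠ ·) → l.length ≤ (b :: t).length + j) := by
        rcases s with _ | ⟨a', s⟩
        · rw [Sh_nil_left]; exact Submodule.zero_mem _
        · have h5 : (Sh (a' :: s) (b :: t) : Ch k (α × β)) ∈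
              Sp k (fun l => l = [] ∨ ∃ x l', l = (x, b) :: l') := by
            rw [Sh]
            exact map_mem _ (fun l _ => by
              rw [cons_single]; exact single_mem (Or.inr ⟨a', l, rfl⟩) _)
              (P := fun _ => True) (by simp [Finsupp.mem_supported])
          rw [Finsupp.mem_supported] at h5 h1 ⊢
          exact fun l hl => ⟨h5 hl, h1 hl⟩
      rw [Sh_cons hne, map_add, map_smul]
      refine Submodule.add_mem _ ?_ (Submodule.smul_mem _ _ ?_)
      · refine map_mem _ (fun l hl => ?_) h1'
        rw [cons_single]
        refine single_mem (fun j hj => ?_) _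
        rcases j with _ | j
        · rcases hl.1 with rfl | ⟨x, l', rfl⟩
          · simp
          · exfalso
            simp only [List.drop_zero, List.map_cons, List.isChain_cons_cons] at hj
            exact hj.1 rfl
        · have := hl.2 j (by simpa using hj)
          simp only [List.length_cons] at this ⊢
          omega
      · refine map_mem _ (fun l hl => ?_) h2
        rw [cons_single]
        refine single_mem (fun j hj => ?_) _
        rcases j with _ | j
        · have := hl 0 (by
            simp only [List.drop_zero, List.map_cons] at hj
            simpa using hj.tail)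
          simp only [List.length_cons]
          omega
        · have := hl j (by simpa using hj)
          simp only [List.length_cons]
          omega

end Vale.Agent.P216.Sl
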