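import Vale.Agent.P216.H787.Bfbp

/-!
# Moving the right end point: loops of bounded length act as restrictions
-/

open Set Finsupp Topology BoundedContinuousFunction

namespace Vale.Agent.P216.Sl

open PS Sg AS
open Vale.Agent.P216.H250 (catR isMap_catR cat_apply')

variable {M : Type} [MetricSpace M] [CompactSpace M] {a b c e : M} {t s u u' L D : ℝ}
variable {v v' w ℓ : ℝ →ᵇ M}

theorem cat_assoc' (ht : 0 ≤ t) (hts : t ≤ s) (hu' : 0 ≤ u') (hw : w ∈ P a b t)
    (hv : v ∈ P b c (s - t)) (hv' : v' ∈ P c e u') :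
    cat s (cat t w v) v' = cat t w (cat (s - t) v v') := by
  have h1 : cat t w v ∈ P a c s := by
    have := cat_mem ht (sub_nonneg.2 hts) hw hv
    rwa [add_sub_cancel] at this
  have h2 : cat (s - t) v v' ∈ P b e (s - t + u') := cat_mem (sub_nonneg.2 hts) hu' hv hv'
  ext x
  rw [cat_apply' h1 hv', cat_apply' hw hv, cat_apply' hw h2, cat_apply' hv hv']
  by_cases hx : x ≤ t
  · rw [if_pos (hx.trans hts), if_pos hx, if_pos hx]
  · by_cases hx' : x ≤ s
    · rw [if_pos hx', if_neg hx, if_neg hx, if_pos (by linarith)]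
    · rw [if_neg hx', if_neg hx, if_neg (by linarith)]
      congr 1
      ring

theorem cat_cst (hw : w ∈ P a b t) : cat t w (cst b) = w := by
  ext x
  rw [cat_apply' hw (cst_mem b 0), cst_apply]
  split_ifs with hx
  · rfl
  · exact (eq_right hw (le_of_lt (not_le.1 hx))).symm

section

variable {k : Type} [Field k] {I : Type} [IsEmpty I] {α : I → (ℝ →ᵇ M) → (ℝ →ᵇ M)} {χ : I → k}

theorem umapR (α : I → (ℝ →ᵇ M) → (ℝ →ᵇ M)) (a : M) (ht : 0 ≤ t) (hL : 0 ≤ L)
    (hv : v ∈ P b c L) (hs : t + L ≤ s) : IsMap α α (P a b t) (P a c s) (catR t v) :=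
  (isMap_catR α α ht hL hv).mono le_rfl fun _ hw =>
    P_mono hs ((isMap_catR (a := a) α α ht hL hv).mapsX hw)

/-- Concatenation with a loop of bounded length is the restriction. -/
theorem pull_loop (ht : 0 ≤ t) (hu : 0 ≤ u) (hD : IsPi M D) (hℓ : ℓ ∈ P b b u)
    (hs : t + (u + D) ≤ s) (hts : t ≤ s) {F : (ℝ →ᵇ M) → (ℝ →ᵇ M)}
    (hF : IsMap α α (P a b t) (P a b s) F) (he : ∀ w ∈ P a b t, F w = cat t w ℓ) {n : ℕ}
    (x : Ha α χ (P a b s) n) : pull χ hF n x = res (P_mono hts) n x := by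
  have hD0 := hD.nonneg
  obtain ⟨γ, hγ⟩ := hD.join b b u hu (cst b) (cst_mem b u) ℓ hℓ
  have hm : ∀ θ : ℝ, γ.extend θ ∈ P b b (u + D) := fun θ => hγ _
  have hm' : ∀ θ : ℝ, ∀ w ∈ P a b t, cat t w (γ.extend θ) ∈ P a b s := fun θ w hw =>
    P_mono hs (cat_mem ht (by linarith) hw (hm θ))
  have hH : IsHtpy α α (P a b t) (P a b s) fun θ w => cat t w (γ.extend θ) := by
    refine IsHtpy.of_continuousOn (isCompact_P a b t) ?_ (fun θ _ w hw => hm' θ w hw)
      fun _ _ i => isEmptyElim i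
    refine continuousOn_cat (T := ℝ × (ℝ →ᵇ M)) (s := fun _ => t) (t := s) (by linarith)
      continuousOn_snd (γ.continuous_extend.comp continuous_fst).continuousOn continuousOn_const
      (fun x hx => hx.2.1) (fun x _ => (hm x.1).1) (fun x hx => ?_)
      fun x hx => P_subset_PP (hm' x.1 x.2 hx.2)
    rw [eq_right hx.2 le_rfl, eq_left (hm x.1) le_rfl]
  have h1 := pull_homotopy (χ := χ) hH n
  rw [pull_congr hF hH.one fun w hw => ?_, h1, pull_eq_res (P_mono hts) hH.zero fun w hw => ?_]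
  · rw [Path.extend_zero]
    exact cat_cst hw
  · rw [he w hw, Path.extend_one]

end

end Vale.Agent.P216.Sl
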