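import Mathlib

/-!
# Lattice path products of tuples (lists)

`Ch k α`: finite chains of lists (a list of length `p + 1` is a `p`-simplex). `Sh α β` is the
signed sum of all monotone lattice paths of the grid `α × β`; `sh` is its bilinear extension.
* `bd_sh`: the boundary is a derivation for `sh`;
* `front_left`, `front_right`: evaluation of a product cochain whose first factor depends on one
  coordinate only and is normalised (vanishes on lists with two equal consecutive entries).
-/

open Finsupp

namespace Vale.Agent.P216.Sl

variable {k : Type} [Field k]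
variable {α β γ : Type}

/-- Finite chains of lists. -/
abbrev Ch (k : Type) [Field k] (α : Type) := List α →₀ k

theorem lin_ext {V : Type} [AddCommGroup V] [Module k V] {f g : Ch k α →ₗ[k] V}
    (h : ∀ l, f (single l 1) = g (single l 1)) : f = g :=
  Finsupp.lhom_ext' fun l => LinearMap.ext_ring (h l)

theorem lin_ext_apply {V : Type} [AddCommGroup V] [Module k V] {f g : Ch k α →ₗ[k] V}
    (h : ∀ l, f (single l 1) = g (single l 1)) (c : Ch k α) : f c = g c := by
  rw [lin_ext h]

/-- Prepend an entry. -/
noncomputable def cons (x : α) : Ch k α →ₗ[k] Ch k α := Finsupp.lmapDomain k k (List.cons x)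

/-- Apply a map to all entries. -/
noncomputable def mp (f : α → β) : Ch k α →ₗ[k] Ch k β := Finsupp.lmapDomain k k (List.map f)

@[simp] theorem cons_single (x : α) (l : List α) (r : k) :
    cons x (single l r) = single (x :: l) r := by
  simp [cons, Finsupp.lmapDomain_apply, Finsupp.mapDomain_single]

@[simp] theorem mp_single (f : α → β) (l : List α) (r : k) :
    mp f (single l r) = single (l.map f) r := by
  simp [mp, Finsupp.lmapDomain_apply, Finsupp.mapDomain_single]

/-- The boundary of a list. -/
noncomputable def bdL : List α → Ch k α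
  | [] => 0
  | x :: l => single l 1 - cons x (bdL l)

/-- The boundary. -/
noncomputable def bd : Ch k α →ₗ[k] Ch k α := Finsupp.linearCombination k bdL

@[simp] theorem bd_single (l : List α) (r : k) : bd (single l r) = r • bdL l := by
  simp [bd, Finsupp.linearCombination_single]

theorem bdL_nil : bdL ([] : List α) = (0 : Ch k α) := rfl

theorem bdL_cons (x : α) (l : List α) :
    bdL (x :: l) = single l 1 - cons x (bdL l : Ch k α) := rfl

@[simp] theorem bd_cons (x : α) (c : Ch k α) : bd (cons x c) = c - cons x (bd c) := by
  have := lin_ext_apply (f := bd.comp (cons x))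
    (g := (LinearMap.id - (cons x).comp bd : Ch k α →ₗ[k] Ch k α)) (fun l => by
      simp only [LinearMap.comp_apply, LinearMap.sub_apply, LinearMap.id_apply, cons_single,
        bd_single, one_smul, bdL_cons]) c
  simpa using this

theorem bd_bd (c : Ch k α) : bd (bd c) = 0 := by
  have key : ∀ l : List α, bd (bdL l : Ch k α) = 0 := by
    intro l
    induction l with
    | nil => rw [bdL_nil, map_zero]
    | cons x l ih => rw [bdL_cons, map_sub, bd_cons, bd_single, one_smul, ih, map_zero]; abel
  have := lin_ext_apply (f := bd.comp bd) (g := (0 : Ch k α →ₗ[k] Ch k α)) (fun l => by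
    rw [LinearMap.comp_apply, bd_single, one_smul, key, LinearMap.zero_apply]) c
  simpa using this

theorem mp_cons (f : α → β) (x : α) (c : Ch k α) : mp f (cons x c) = cons (f x) (mp f c) := by
  have := lin_ext_apply (f := (mp f).comp (cons x)) (g := (cons (f x)).comp (mp (k := k) f))
    (fun l => by simp) c
  simpa using this

theorem bd_mp (f : α → β) (c : Ch k α) : bd (mp f c) = mp f (bd c) := by
  have key : ∀ l : List α, bdL (l.map f) = mp (k := k) f (bdL l) := by
    intro l
    induction l with
    | nil => rw [List.map_nil, bdL_nil, bdL_nil, map_zero]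
    | cons x l ih => rw [List.map_cons, bdL_cons, bdL_cons, map_sub, mp_cons, ih, mp_single]
  have := lin_ext_apply (f := bd.comp (mp f)) (g := (mp f).comp (bd (k := k)))
    (fun l => by
      rw [LinearMap.comp_apply, LinearMap.comp_apply, mp_single, bd_single, bd_single, one_smul,
        one_smul, key]) c
  simpa using this

/-- Chains supported on lists satisfying `P`. -/
noncomputable abbrev Sp (k : Type) [Field k] (P : List α → Prop) : Submodule k (Ch k α) :=
  Finsupp.supported k k {l | P l}

theorem single_mem {P : List α → Prop} {l : List α} (h : P l) (r : k) : single l r ∈ Sp k P :=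
  Finsupp.single_mem_supported k r h

theorem map_mem {V : Type} [AddCommGroup V] [Module k V] {N : Submodule k V}
    {P : List α → Prop} (F : Ch k α →ₗ[k] V) (h : ∀ l, P l → F (single l (1 : k)) ∈ N) {c : Ch k α}
    (hc : c ∈ Sp k P) : F c ∈ N := by
  have : Sp k P ≤ N.comap F := by
    rw [Sp, Finsupp.supported_eq_span_single]
    refine Submodule.span_le.2 ?_
    rintro _ ⟨l, hl, rfl⟩
    exact h l hl
  exact this hc

theorem eq_of_mem {V : Type} [AddCommGroup V] [Module k V] {P : List α → Prop}
    {F G : Ch k α →ₗ[k] V} (h : ∀ l, P l → F (single l (1 : k)) = G (single l (1 : k)))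
    {c : Ch k α} (hc : c ∈ Sp k P) : F c = G c := by
  have := map_mem (N := ⊥) (F - G) (fun l hl => by simp [h l hl]) hc
  simpa [sub_eq_zero] using this

theorem Sp_mono {P Q : List α → Prop} (h : ∀ l, P l → Q l) : Sp k P ≤ Sp k Q :=
  Finsupp.supported_mono fun l hl => h l hl

/-! ### The lattice path product -/

/-- The signed sum of the monotone lattice paths. -/
noncomputable def Sh : List α → List β → Ch k (α × β)
  | [], _ => 0
  | _ :: _, [] => 0
  | a :: s, b :: t =>
      cons (a, b) (Sh s (b :: t) + (-1 : k) ^ s.length • Sh (a :: s) t +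
        if s = [] ∧ t = [] then single [] 1 else 0)
termination_by s t => s.length + t.length

theorem Sh_nil_left (t : List β) : Sh ([] : List α) t = (0 : Ch k (α × β)) := by rw [Sh]

theorem Sh_nil_right (s : List α) : Sh s ([] : List β) = (0 : Ch k (α × β)) := by
  cases s <;> rw [Sh]

theorem Sh_cons {a : α} {s : List α} {b : β} {t : List β} (h : ¬ (s = [] ∧ t = [])) :
    (Sh (a :: s) (b :: t) : Ch k (α × β)) =
      cons (a, b) (Sh s (b :: t) + (-1 : k) ^ s.length • Sh (a :: s) t) := by
  rw [Sh, if_neg h, add_zero]

theorem Sh_one (a : α) (b : β) : Sh [a] [b] = (single [(a, b)] 1 : Ch k (α × β)) := by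
  rw [Sh, Sh_nil_left, Sh_nil_right, if_pos ⟨rfl, rfl⟩]
  simp

/-- The bilinear extension. -/
noncomputable def sh : Ch k α →ₗ[k] Ch k β →ₗ[k] Ch k (α × β) :=
  Finsupp.linearCombination k fun s => Finsupp.linearCombination k fun t => Sh s t

theorem sh_single (s : List α) (t : List β) :
    sh (single s (1 : k)) (single t (1 : k)) = Sh s t := by
  simp [sh, Finsupp.linearCombination_single]

theorem bilin_ext {V : Type} [AddCommGroup V] [Module k V]
    {f g : Ch k α →ₗ[k] Ch k β →ₗ[k] V}
    (h : ∀ s t, f (single s (1 : k)) (single t (1 : k)) = g (single s (1 : k)) (single t (1 : k))) :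
    f = g :=
  lin_ext fun s => lin_ext fun t => h s t

/-- Lists of length `n`. -/
def Ln (n : ℕ) (l : List α) : Prop := l.length = n

theorem bdL_mem (l : List α) : (bdL l : Ch k α) ∈ Sp k (fun l' => l'.length + 1 = l.length) := by
  induction l with
  | nil => exact Submodule.zero_mem _
  | cons x l ih =>
    rw [bdL_cons]
    refine Submodule.sub_mem _ (single_mem (P := fun l' => l'.length + 1 = (x :: l).length)
      (by simp) _) ?_
    exact map_mem _ (fun l' hl' => by
      rw [cons_single]
      exact single_mem (by simp only [List.length_cons, hl']) _) ih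

/-- The recursion for `sh` on chains, first variable in `cons`. -/
theorem sh_cons_cons_left (a : α) (b : β) (t : List β) {n : ℕ} {c : Ch k α}
    (hc : c ∈ Sp k (Ln n)) (h : n ≠ 0 ∨ t ≠ []) :
    sh (cons a c) (single (b :: t) (1 : k)) =
      cons (a, b) (sh c (single (b :: t) 1) + (-1 : k) ^ n • sh (cons a c) (single t 1)) := by
  have := eq_of_mem (P := Ln n)
    (F := (sh (k := k) (α := α) (β := β)).flip (single (b :: t) (1 : k)) ∘ₗ cons a)
    (G := (cons (a, b)) ∘ₗ ((sh (k := k) (α := α) (β := β)).flip (single (b :: t) (1 : k)) +
      (-1 : k) ^ n • ((sh (k := k) (α := α) (β := β)).flip (single t (1 : k)) ∘ₗ cons a)))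
    (fun s hs => by
      simp only [LinearMap.comp_apply, LinearMap.flip_apply, LinearMap.add_apply,
        LinearMap.smul_apply, cons_single, sh_single]
      rw [Sh_cons, hs]
      rintro ⟨h1, h2⟩
      subst h1
      rcases h with h | h
      · exact h (by simpa [Ln] using hs.symm)
      · exact h h2) hc
  simpa only [LinearMap.comp_apply, LinearMap.flip_apply, LinearMap.add_apply,
        LinearMap.smul_apply] using this

theorem sh_cons_cons_right (a : α) (s : List α) (b : β) {n : ℕ} {c : Ch k β}
    (hc : c ∈ Sp k (Ln n)) (h : n ≠ 0 ∨ s ≠ []) :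
    sh (single (a :: s) (1 : k)) (cons b c) =
      cons (a, b) (sh (single s 1) (cons b c) + (-1 : k) ^ s.length • sh (single (a :: s) 1) c) := by
  have := eq_of_mem (P := Ln n)
    (F := (sh (k := k) (α := α) (β := β)) (single (a :: s) (1 : k)) ∘ₗ cons b)
    (G := (cons (a, b)) ∘ₗ ((sh (k := k) (α := α) (β := β)) (single s (1 : k)) ∘ₗ cons b +
      (-1 : k) ^ s.length • ((sh (k := k) (α := α) (β := β)) (single (a :: s) (1 : k)))))
    (fun t ht => by
      simp only [LinearMap.comp_apply, LinearMap.add_apply,
        LinearMap.smul_apply, cons_single, sh_single]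
      rw [Sh_cons]
      rintro ⟨h1, h2⟩
      subst h2
      rcases h with h | h
      · exact h (by simpa [Ln] using ht.symm)
      · exact h h1) hc
  simpa only [LinearMap.comp_apply, LinearMap.add_apply,
        LinearMap.smul_apply] using this

theorem sh_nil_left (c : Ch k β) : sh (single ([] : List α) (1 : k)) c = 0 := by
  have := lin_ext_apply (f := sh (single ([] : List α) (1 : k))) (g := (0 : Ch k β →ₗ[k] _))
    (fun l => by rw [sh_single, Sh_nil_left]; rfl) c
  simpa using this

theorem sh_nil_right (c : Ch k α) : sh c (single ([] : List β) (1 : k)) = 0 := by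
  have := lin_ext_apply (f := (sh (k := k) (α := α) (β := β)).flip (single [] (1 : k)))
    (g := (0 : Ch k α →ₗ[k] _))
    (fun l => by rw [LinearMap.flip_apply, sh_single, Sh_nil_right]; rfl) c
  simpa using this

/-- The boundary of a lattice path product of two lists. -/
theorem bd_Sh (n : ℕ) : ∀ (s : List α) (t : List β), s.length + t.length = n + 3 →
    bd (Sh s t : Ch k (α × β)) = sh (bdL s) (single t 1) +
      (-1 : k) ^ (s.length + 1) • sh (single s 1) (bdL t) := by
  induction n with
  | zero =>
    intro s t h
    rcases s with _ | ⟨a, s⟩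
    · rw [Sh_nil_left, map_zero, bdL_nil, map_zero, LinearMap.zero_apply, sh_nil_left, smul_zero,
        add_zero]
    rcases t with _ | ⟨b, t⟩
    · rw [Sh_nil_right, map_zero, bdL_nil, map_zero, smul_zero, sh_nil_right, add_zero]
    simp only [List.length_cons] at h
    rcases s with _ | ⟨a', s⟩
    · rcases t with _ | ⟨b', t⟩
      · simp at h
      · have ht : t = [] := List.length_eq_zero_iff.1 (by
          simp only [List.length_cons, List.length_nil] at h; omega)
        subst ht
        rw [Sh_cons (by simp), Sh_nil_left, zero_add, Sh_one]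
        simp only [List.length_nil, pow_zero, one_smul, cons_single, bd_single, bdL_cons, bdL_nil,
          map_zero, sub_zero, map_sub, List.length_cons, zero_add, sh_single, Sh_one]
        simp [Sh_nil_left]
    · rcases t with _ | ⟨b', t⟩
      · have hs : s = [] := List.length_eq_zero_iff.1 (by
          simp only [List.length_cons, List.length_nil] at h; omega)
        subst hs
        rw [Sh_cons (by simp), Sh_nil_right, smul_zero, add_zero, Sh_one]
        simp only [cons_single, bd_single, one_smul, bdL_cons, bdL_nil,
          map_zero, sub_zero, map_sub, LinearMap.sub_apply, sh_nil_right, sh_single, Sh_one]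
        simp
      · simp only [List.length_cons] at h
        omega
  | succ n ih =>
    intro s t h
    rcases s with _ | ⟨a, s⟩
    · rw [Sh_nil_left, map_zero, bdL_nil, map_zero, LinearMap.zero_apply, sh_nil_left, smul_zero,
        add_zero]
    rcases t with _ | ⟨b, t⟩
    · rw [Sh_nil_right, map_zero, bdL_nil, map_zero, smul_zero, sh_nil_right, add_zero]
    simp only [List.length_cons] at h
    have hne : ¬ (s = [] ∧ t = []) := by
      rintro ⟨rfl, rfl⟩
      simp at h
    have h1 := ih s (b :: t) (by simp only [List.length_cons]; omega)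
    have h2 := ih (a :: s) t (by simp only [List.length_cons]; omega)
    rw [Sh_cons hne, bd_cons, map_add, map_smul, h1, h2, bdL_cons, bdL_cons, map_sub, map_sub,
      map_sub, LinearMap.sub_apply, LinearMap.sub_apply, sh_single, sh_single]
    -- the two recursions
    have e1 : sh (cons a (bdL s)) (single (b :: t) (1 : k)) =
        cons (a, b) (sh (bdL s) (single (b :: t) 1) -
          (-1 : k) ^ s.length • sh (cons a (bdL s)) (single t 1)) := by
      rcases s with _ | ⟨a', s⟩
      · simp [bdL_nil]
      · have hm : (bdL (a' :: s) : Ch k α) ∈ Sp k (Ln s.length) :=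
          Sp_mono (fun l hl => by simpa [Ln] using hl) (bdL_mem (a' :: s))
        rw [sh_cons_cons_left a b t hm (by
          rcases s with _ | ⟨a'', s⟩
          · right
            rintro rfl
            simp at h
          · left; simp)]
        rw [List.length_cons, pow_succ, mul_neg_one, neg_smul, sub_neg_eq_add]
    have e2 : sh (single (a :: s) (1 : k)) (cons b (bdL t)) =
        cons (a, b) (sh (single s 1) (cons b (bdL t)) +
          (-1 : k) ^ s.length • sh (single (a :: s) 1) (bdL t)) := by
      rcases t with _ | ⟨b', t⟩
      · simp [bdL_nil]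
      · have hm : (bdL (b' :: t) : Ch k β) ∈ Sp k (Ln t.length) :=
          Sp_mono (fun l hl => by simpa [Ln] using hl) (bdL_mem (b' :: t))
        exact sh_cons_cons_right a s b hm (by
          rcases t with _ | ⟨b'', t⟩
          · right
            rintro rfl
            simp at h
          · left; simp)
    rw [e1, e2]
    simp only [List.length_cons, map_sub, map_add, map_smul,
      smul_sub, smul_add, smul_smul, sh_single]
    have hs2 : (-1 : k) ^ s.length * (-1) ^ s.length = 1 := by
      rw [← pow_add, ← two_mul]; simp
    have hs3 : (-1 : k) ^ s.length * (-1) ^ (s.length + 1 + 1) = 1 := by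
      rw [pow_succ, pow_succ, mul_assoc]
      simp [hs2]
    have hs4 : (-1 : k) ^ (s.length + 1 + 1) * (-1) ^ s.length = 1 := by
      rw [mul_comm]; exact hs3
    have hs5 : (-1 : k) ^ (s.length + 1 + 1) = (-1) ^ s.length := by
      rw [pow_succ, pow_succ]; simp
    have hs6 : (-1 : k) ^ (s.length + 1) = -(-1) ^ s.length := by
      rw [pow_succ]; simp
    simp only [hs5, hs6, hs2, one_smul, neg_smul]
    abel

/-- The boundary of a product of homogeneous chains. -/
theorem bd_sh {p q : ℕ} (h : 1 ≤ p + q) {c : Ch k α} {c' : Ch k β} (hc : c ∈ Sp k (Ln (p + 1)))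
    (hc' : c' ∈ Sp k (Ln (q + 1))) :
    bd (sh c c') = sh (bd c) c' + (-1 : k) ^ p • sh c (bd c') := by
  have h1 : ∀ s : List α, Ln (p + 1) s → bd (sh (single s 1) c') =
      sh (bd (single s 1)) c' + (-1 : k) ^ p • sh (single s 1) (bd c') := by
    intro s hs
    have := eq_of_mem (P := Ln (q + 1))
      (F := bd ∘ₗ (sh (k := k) (α := α) (β := β)) (single s (1 : k)))
      (G := (sh (k := k) (α := α) (β := β)) (bd (single s (1 : k))) +
        (-1 : k) ^ p • ((sh (k := k) (α := α) (β := β)) (single s (1 : k)) ∘ₗ bd))
      (fun t ht => by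
        simp only [LinearMap.comp_apply, LinearMap.add_apply,
          LinearMap.smul_apply, sh_single, bd_single, one_smul]
        have hs' : s.length = p + 1 := hs
        have ht' : t.length = q + 1 := ht
        rw [bd_Sh (p + q - 1) s t (by omega), hs', pow_succ, pow_succ]
        simp) hc'
    simpa only [LinearMap.comp_apply, LinearMap.add_apply, LinearMap.smul_apply] using this
  have := eq_of_mem (P := Ln (p + 1))
    (F := bd ∘ₗ (sh (k := k) (α := α) (β := β)).flip c')
    (G := (sh (k := k) (α := α) (β := β)).flip c' ∘ₗ bd +
      (-1 : k) ^ p • ((sh (k := k) (α := α) (β := β)).flip (bd c')))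
    (fun s hs => by
      simp only [LinearMap.comp_apply, LinearMap.add_apply, LinearMap.flip_apply,
        LinearMap.smul_apply]
      exact h1 s hs) hc
  simpa only [LinearMap.comp_apply, LinearMap.add_apply, LinearMap.smul_apply,
    LinearMap.flip_apply] using this

end Vale.Agent.P216.Sl
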