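import Vale.Agent.P216.H787.Fib

/-!
# The crossing-swap identity in all degrees `d > b`
-/

open Finsupp

namespace Vale.Agent.P216.Sl

variable {k : Type} [Field k]

section

variable {P T U Q MM O H : Type}
variable {n b : ℕ} {tau : List MM → k} {om : List O → k} {eta : List H → k}
variable {c : (P × T) × (U × Q) → MM} {w : (P × T) × (U × Q) → O} {v : (P × T) × (U × Q) → H}

/-- Edge `τ = t0`, one pair of lists, all `d`. -/
theorem edge_r0_gen {m d : ℕ} (hm : m + 1 = n + b) (htau : Nrm tau)
    (hom : Nrm om)
    {t0 : T} {c0 : U × Q → MM} {w0 : U × Q → O} (hc0 : ∀ p x, c ((p, t0), x) = c0 x)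
    (hw0 : ∀ p x, w ((p, t0), x) = w0 x) {s : List P} {β : List (U × Q)}
    (hs : s.length = m + 1) (hβ : β.length = d + 2) :
    ev (fun l => psi n b tau om eta c w v (l.map (Prod.map (fun p => (p, t0)) id))) (Sh s β) =
      if m ≤ d then tau ((β.take (n + 1)).map c0) * om (((β.drop n).take (b + 1)).map w0) *
        ev (fun l => eta (l.map fun x => v ((x.1, t0), x.2))) (Sh s (β.drop (n + b))) else 0 := by
  set J : P × (U × Q) → (P × T) × (U × Q) := Prod.map (fun p => (p, t0)) id with hJ
  have hsne : s ≠ [] := by rintro rfl; simp at hs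
  have hβne : β ≠ [] := by rintro rfl; simp at hβ
  obtain ⟨G2, hG2⟩ : ∃ G2 : List (P × (U × Q)) → k,
    G2 = fun l => eta (l.map fun x => v ((x.1, t0), x.2)) := ⟨_, rfl⟩
  obtain ⟨G, hG⟩ : ∃ G : List (P × (U × Q)) → k, G = fun l' =>
      om (((l'.take (b + 1)).map Prod.snd).map w0) * G2 (l'.drop b) := ⟨_, rfl⟩
  have e1 : (fun l : List (P × (U × Q)) => psi n b tau om eta c w v (l.map J)) =
      fun l => tau (((l.take (n + 1)).map Prod.snd).map c0) * G (l.drop n) := by
    funext l
    have h1 : ((l.map J).take (n + 1)).map c = ((l.take (n + 1)).map Prod.snd).map c0 := by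
      rw [← List.map_take, List.map_map, List.map_map]
      exact List.map_congr_left fun x _ => hc0 _ _
    have h2 : (((l.map J).drop n).take (b + 1)).map w =
        ((((l.drop n).take (b + 1))).map Prod.snd).map w0 := by
      rw [← List.map_drop, ← List.map_take, List.map_map, List.map_map]
      exact List.map_congr_left fun x _ => hw0 _ _
    have h3 : ((l.map J).drop (n + b)).map v = ((l.drop n).drop b).map fun x =>
        v ((x.1, t0), x.2) := by
      rw [← List.map_drop, List.map_map, List.drop_drop]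
      rfl
    simp only [psi, h1, h2, h3, hG, hG2]
  rw [e1, front_right (htau.map c0) G n s β (by omega) hsne hβne]
  by_cases hmd : m ≤ d
  · rw [if_pos (by omega), if_pos hmd]
    have hl : (β.drop n).length + n = d + 2 := by rw [List.length_drop]; omega
    have hne : β.drop n ≠ [] := by
      intro h
      rw [h] at hl
      simp only [List.length_nil] at hl
      omega
    rw [hG, front_right (hom.map w0) G2 b s (β.drop n) (by omega) hsne hne, if_pos (by omega),
      List.drop_drop, hG2, hs]
    have hsg : (-1 : k) ^ ((m + 1 + 1) * n) * (-1) ^ ((m + 1 + 1) * b) = 1 := by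
      rw [← pow_add, ← mul_add, ← hm]
      have he : Even ((m + 1 + 1) * (m + 1)) := by
        rw [mul_comm]
        exact Nat.even_mul_succ_self (m + 1)
      exact he.neg_one_pow
    linear_combination (tau ((β.take (n + 1)).map c0) * om (((β.drop n).take (b + 1)).map w0) *
      ev (fun l => eta (l.map fun x => v ((x.1, t0), x.2))) (Sh s (β.drop (n + b)))) * hsg
  · rw [if_neg hmd]
    by_cases hle : n + 1 ≤ β.length
    · rw [if_pos hle]
      have hl : (β.drop n).length + n = d + 2 := by rw [List.length_drop]; omega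
      have hne : β.drop n ≠ [] := by
        intro h
        rw [h] at hl
        simp only [List.length_nil] at hl
        omega
      rw [hG, front_right (hom.map w0) G2 b s (β.drop n) (by omega) hsne hne,
        if_neg (by omega), mul_zero, mul_zero]
    · rw [if_neg hle]

/-- THE CROSSING-SWAP IDENTITY, no upper bound on `d`. -/
theorem swap_identity_gen {m d : ℕ} (hm : m + 1 = n + b) (hn : 2 ≤ n) (hd : b < d)
    (htau : Nrm tau) (hom : Nrm om) (heta : Nrm eta)
    {z : Ch k P} (hz : z ∈ Sp k (Ln (m + 1))) (hbz : bd z = 0)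
    {ι : Ch k T} (hι : ι ∈ Sp k (Ln 2)) {t0 t1 : T} (hbι : bd ι = single [t1] 1 - single [t0] 1)
    {κ : Ch k U} (hκ : κ ∈ Sp k (Ln 2)) {u0 u1 : U} (hbκ : bd κ = single [u1] 1 - single [u0] 1)
    {cs1 : P × T → MM} {ws1 : P × T → O} (hcs1 : ∀ x q, c (x, (u1, q)) = cs1 x)
    (hws1 : ∀ x q, w (x, (u1, q)) = ws1 x)
    {cs0 : P × T → MM} {vs0 : P × T → H} (hcs0 : ∀ x q, c (x, (u0, q)) = cs0 x)
    (hvs0 : ∀ x q, v (x, (u0, q)) = vs0 x)
    {cr1 : U × Q → MM} {vr1 : U × Q → H} (hcr1 : ∀ p x, c ((p, t1), x) = cr1 x)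
    (hvr1 : ∀ p x, v ((p, t1), x) = vr1 x)
    {cr0 : U × Q → MM} {wr0 : U × Q → O} (hcr0 : ∀ p x, c ((p, t0), x) = cr0 x)
    (hwr0 : ∀ p x, w ((p, t0), x) = wr0 x) (x0 : P × T)
    {y : List Q} (hy : y.length = d + 1)
    (hcoc : ev (psi n b tau om eta c w v) (bd (sh (sh z ι) (sh κ (single y 1)))) = 0) :
    ev (fun ξ => tau ((ξ.take (n + 1)).map cs1) * om ((ξ.drop n).map ws1) *
        eta (y.map fun q => v (ξ.getLastD x0, (u1, q)))) (sh z ι) +
      (if m ≤ d then ev (fun β => tau ((β.take (n + 1)).map cr0) *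
        om (((β.drop n).take (b + 1)).map wr0) *
        fibL (fun l => eta (l.map fun x => v ((x.1, t0), x.2))) z (β.drop (n + b)))
          (sh κ (single y 1)) else 0) =
      dl (slant n b tau om eta c w v (sh z ι) κ) y := by
  have hym : (single y (1 : k)) ∈ Sp k (Ln (d + 1)) := single_Ln hy 1
  have hζ : sh z ι ∈ Sp k (Ln (m + 1 + 1)) := sh_Ln hz hι
  have hY : sh κ (single y (1 : k)) ∈ Sp k (Ln (d + 1 + 1)) := by
    have := sh_Ln (p := 1) (q := d) hκ hym
    rwa [show 1 + d + 1 = d + 1 + 1 by omega] at this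
  have hyne : (single y (1 : k)) ∈ Sp k Ne := Ln_ne hym
  have hzne : z ∈ Sp k Ne := Ln_ne hz
  -- boundary of ζ
  have hbζ : bd (sh z ι) = (-1 : k) ^ m • (mp (fun p => (p, t1)) z - mp (fun p => (p, t0)) z) := by
    rw [bd_sh (p := m) (q := 1) (by omega) hz hι, hbz, map_zero, LinearMap.zero_apply, zero_add,
      hbι, map_sub, sh_point_right t1 hzne, sh_point_right t0 hzne]
  have hbY : bd (sh κ (single y (1 : k))) = mp (fun q => (u1, q)) (single y 1) -
      mp (fun q => (u0, q)) (single y 1) - sh κ (bdL y) := by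
    rw [bd_sh (p := 1) (q := d) (by omega) hκ hym, hbκ, map_sub, LinearMap.sub_apply,
      sh_point_left u1 hyne, sh_point_left u0 hyne, bd_single, one_smul, pow_one, neg_one_smul]
    abel
  rw [bd_sh (p := m + 1) (q := d + 1) (by omega) hζ hY, hbζ, hbY] at hcoc
  simp only [map_sub, map_smul, LinearMap.smul_apply, LinearMap.sub_apply, map_add] at hcoc
  -- the four edges
  have E1 : ev (psi n b tau om eta c w v) (sh (sh z ι) (mp (fun q => (u1, q)) (single y (1 : k)))) =
      ev (fun ξ => tau ((ξ.take (n + 1)).map cs1) * om ((ξ.drop n).map ws1) *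
        eta (y.map fun q => v (ξ.getLastD x0, (u1, q)))) (sh z ι) := by
    refine eq_of_mem (P := Ln (m + 1 + 1))
      (F := ev (psi n b tau om eta c w v) ∘ₗ
        (sh (k := k) (α := P × T) (β := U × Q)).flip (mp (fun q => (u1, q)) (single y (1 : k))))
      (G := ev (fun ξ => tau ((ξ.take (n + 1)).map cs1) * om ((ξ.drop n).map ws1) *
        eta (y.map fun q => v (ξ.getLastD x0, (u1, q))))) (fun ξ hξ => ?_) hζ
    rw [LinearMap.comp_apply, LinearMap.flip_apply, ev_single, one_mul]
    have e : sh (single ξ (1 : k)) (mp (fun q : Q => (u1, q)) (single y (1 : k))) =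
        mp (Prod.map id fun q => (u1, q)) (Sh ξ y) := by
      rw [← sh_single, ← sh_mp, mp_single id, List.map_id]
    rw [e, ev_mp]
    exact edge_s1_list hm htau hom hcs1 hws1 x0 hξ hy
  have E0 : ev (psi n b tau om eta c w v)
      (sh (sh z ι) (mp (fun q => (u0, q)) (single y (1 : k)))) = 0 := by
    refine eq_of_mem (P := Ln (m + 1 + 1))
      (F := ev (psi n b tau om eta c w v) ∘ₗ
        (sh (k := k) (α := P × T) (β := U × Q)).flip (mp (fun q => (u0, q)) (single y (1 : k))))
      (G := 0) (fun ξ hξ => ?_) hζ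
    rw [LinearMap.comp_apply, LinearMap.flip_apply, LinearMap.zero_apply]
    have e : sh (single ξ (1 : k)) (mp (fun q : Q => (u0, q)) (single y (1 : k))) =
        mp (Prod.map id fun q => (u0, q)) (Sh ξ y) := by
      rw [← sh_single, ← sh_mp, mp_single id, List.map_id]
    rw [e, ev_mp]
    exact edge_s0_list hm hd htau heta hcs0 hvs0 hξ hy
  have F1 : ev (psi n b tau om eta c w v)
      (sh (mp (fun p => (p, t1)) z) (sh κ (single y (1 : k)))) = 0 := by
    have h1 : ∀ s : List P, Ln (m + 1) s → ev (psi n b tau om eta c w v)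
        (sh (mp (fun p => (p, t1)) (single s 1)) (sh κ (single y (1 : k)))) = 0 := by
      intro s hs
      refine eq_of_mem (P := Ln (d + 1 + 1))
        (F := ev (psi n b tau om eta c w v) ∘ₗ
          (sh (k := k) (α := P × T) (β := U × Q)) (mp (fun p => (p, t1)) (single s 1)))
        (G := 0) (fun β hβ => ?_) hY
      rw [LinearMap.comp_apply, LinearMap.zero_apply]
      have e : sh (mp (fun p => (p, t1)) (single s (1 : k))) (single β (1 : k)) =
          mp (Prod.map (fun p => (p, t1)) id) (Sh s β) := by
        rw [← sh_single, ← sh_mp, mp_single id, List.map_id]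
      rw [e, ev_mp]
      exact edge_r1_list hm hn htau heta hcr1 hvr1 hs hβ
    exact eq_of_mem (P := Ln (m + 1))
      (F := ev (psi n b tau om eta c w v) ∘ₗ
        (sh (k := k) (α := P × T) (β := U × Q)).flip (sh κ (single y (1 : k))) ∘ₗ
          mp (fun p => (p, t1)))
      (G := 0) (fun s hs => h1 s hs) hz
  have F0 : ev (psi n b tau om eta c w v)
      (sh (mp (fun p => (p, t0)) z) (sh κ (single y (1 : k)))) =
      if m ≤ d then ev (fun β => tau ((β.take (n + 1)).map cr0) *
        om (((β.drop n).take (b + 1)).map wr0) *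
        fibL (fun l => eta (l.map fun x => v ((x.1, t0), x.2))) z (β.drop (n + b)))
          (sh κ (single y 1)) else 0 := by
    have h1 : ∀ β : List (U × Q), Ln (d + 1 + 1) β → ev (psi n b tau om eta c w v)
        (sh (mp (fun p => (p, t0)) z) (single β (1 : k))) =
        if m ≤ d then tau ((β.take (n + 1)).map cr0) * om (((β.drop n).take (b + 1)).map wr0) *
          fibL (fun l => eta (l.map fun x => v ((x.1, t0), x.2))) z (β.drop (n + b)) else 0 := by
      intro β hβ
      have h2 := eq_of_mem (P := Ln (m + 1))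
        (F := ev (psi n b tau om eta c w v) ∘ₗ
            (sh (k := k) (α := P × T) (β := U × Q)).flip (single β (1 : k)) ∘ₗ
              mp (fun p => (p, t0)))
        (G := (if m ≤ d then tau ((β.take (n + 1)).map cr0) *
            om (((β.drop n).take (b + 1)).map wr0) else 0) •
          (ev (fun l => eta (l.map fun x => v ((x.1, t0), x.2))) ∘ₗ
            (sh (k := k) (α := P) (β := U × Q)).flip (single (β.drop (n + b)) (1 : k))))
        (fun s hs => by
          rw [LinearMap.comp_apply, LinearMap.comp_apply, LinearMap.flip_apply,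
            LinearMap.smul_apply, LinearMap.comp_apply, LinearMap.flip_apply, sh_single]
          have e : sh (mp (fun p => (p, t0)) (single s (1 : k))) (single β (1 : k)) =
              mp (Prod.map (fun p => (p, t0)) id) (Sh s β) := by
            rw [← sh_single, ← sh_mp, mp_single id, List.map_id]
          rw [e, ev_mp, edge_r0_gen hm htau hom hcr0 hwr0 hs hβ]
          split_ifs
          · rfl
          · rw [zero_smul]) hz
      rw [LinearMap.comp_apply, LinearMap.comp_apply, LinearMap.flip_apply, LinearMap.smul_apply,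
        LinearMap.comp_apply, LinearMap.flip_apply] at h2
      rw [h2, fibL]
      split_ifs
      · rfl
      · rw [zero_smul]
    have h3 := eq_of_mem (P := Ln (d + 1 + 1))
        (F := ev (psi n b tau om eta c w v) ∘ₗ
          (sh (k := k) (α := P × T) (β := U × Q)) (mp (fun p => (p, t0)) z))
        (G := ev (fun β => if m ≤ d then tau ((β.take (n + 1)).map cr0) *
          om (((β.drop n).take (b + 1)).map wr0) *
          fibL (fun l => eta (l.map fun x => v ((x.1, t0), x.2))) z (β.drop (n + b)) else 0))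
        (fun β hβ => by
          rw [LinearMap.comp_apply, ev_single, one_mul]
          exact h1 β hβ) hY
    rw [LinearMap.comp_apply] at h3
    rw [h3]
    split_ifs with hdm'
    · rfl
    · exact ev_zero_fun _
  rw [E1, E0, F1, F0, ← ev_slant, sub_zero, zero_sub] at hcoc
  rw [dl]
  rcases neg_one_pow_eq_or k m with h | h
  · simp only [smul_eq_mul, pow_succ, h] at hcoc
    linear_combination (-1 : k) * hcoc
  · simp only [smul_eq_mul, pow_succ, h] at hcoc
    linear_combination hcoc

end

end Vale.Agent.P216.Sl
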